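import Vale.Agent.P200.Q.Dom0

/-! D2: Euler characteristic relation. -/

set_option linter.all false

namespace Vale.Agent.P200.Q

open MvPolynomial

section D2
variable {K : Type*} [Field K] {N : ℕ} {B : Fin N → Matrix (Fin N) (Fin N) K}
    {W : Type*} [AddCommGroup W] [Module K W] [Module (MvPolynomial (Fin N) K) W]
    [IsScalarTower K (MvPolynomial (Fin N) K) W]

theorem antisym_sum {V : Type*} [AddCommGroup V] (g : Fin N → Fin N → V)
    (h0 : ∀ a, g a a = 0) (h1 : ∀ a b, g a b + g b a = 0) : ∑ a, ∑ b, g a b = 0 := by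
  rw [← Fintype.sum_prod_type' g]
  refine Finset.sum_involution (fun p _ => (p.2, p.1)) ?_ ?_ ?_ ?_
  · intro p _; exact h1 p.1 p.2
  · intro p _ hp he
    apply hp
    have : p.2 = p.1 := congrArg Prod.fst he
    rw [this]; exact h0 _
  · intro p _; simp
  · intro p _; rfl

theorem cliff_sum (G : GMod B W) (g : Fin N → Fin N → K) (hg : ∀ a b, g a b = g b a) (w : W) :
    ∑ a, ∑ b, g a b • G.E a (G.E b w) =
      ∑ a, ∑ b, g a b • ∑ m, B m a b • ((X m : MvPolynomial (Fin N) K) • w) := by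
  rw [← sub_eq_zero, ← Finset.sum_sub_distrib]
  simp_rw [← Finset.sum_sub_distrib]
  apply antisym_sum
  · intro a
    rw [G.sq, sub_self]
  · intro a b
    rw [hg b a, ← smul_sub, ← smul_sub, ← smul_add]
    have := G.cliff a b w
    simp only [add_smul, Finset.sum_add_distrib] at this
    have h2 : G.E a (G.E b w) - ∑ m, B m a b • ((X m : MvPolynomial (Fin N) K) • w)
      + (G.E b (G.E a w) - ∑ m, B m b a • ((X m : MvPolynomial (Fin N) K) • w)) = 0 := by
      rw [← sub_eq_zero] at this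
      rw [← this]; abel
    rw [h2, smul_zero]

/-- contraction of a family of matrices with the operators `E` -/
noncomputable def eop (G : GMod B W) {σ : Type} [Fintype σ] (Y : Fin N → Matrix σ σ K) :
    (σ → W) →ₗ[K] (σ → W) where
  toFun u t := ∑ a, ∑ s, Y a t s • G.E a (u s)
  map_add' u v := by
    ext t
    simp [smul_add, Finset.sum_add_distrib]
  map_smul' k u := by
    ext t
    simp only [Pi.smul_apply, RingHom.id_apply, Finset.smul_sum, LinearMap.map_smul_of_tower]
    refine Finset.sum_congr rfl fun a _ => Finset.sum_congr rfl fun s _ => ?_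
    rw [smul_comm]

theorem eop_apply (G : GMod B W) {σ : Type} [Fintype σ] (Y : Fin N → Matrix σ σ K) (u : σ → W)
    (t : σ) : eop G Y u t = ∑ a, ∑ s, Y a t s • G.E a (u s) := rfl

theorem eop_X (G : GMod B W) {σ : Type} [Fintype σ] (Y : Fin N → Matrix σ σ K) (u : σ → W)
    (m : Fin N) : eop G Y ((X m : MvPolynomial (Fin N) K) • u) =
      (X m : MvPolynomial (Fin N) K) • eop G Y u := by
  ext t
  simp only [eop_apply, Pi.smul_apply, Finset.smul_sum, map_smul]
  refine Finset.sum_congr rfl fun a _ => Finset.sum_congr rfl fun s _ => ?_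
  rw [smul_comm]

theorem eop_eop (G : GMod B W) {σ : Type} [Fintype σ] [DecidableEq σ]
    (Y Z : Fin N → Matrix σ σ K) (u : σ → W) (t : σ) :
    eop G Y (eop G Z u) t = ∑ r, ∑ a, ∑ b, (Y a * Z b) t r • G.E a (G.E b (u r)) := by
  have h1 : ∀ a s, Y a t s • G.E a (eop G Z u s) =
      ∑ b, ∑ r, (Y a t s * Z b s r) • G.E a (G.E b (u r)) := by
    intro a s
    rw [eop_apply, map_sum, Finset.smul_sum]
    refine Finset.sum_congr rfl fun b _ => ?_
    rw [map_sum, Finset.smul_sum]
    refine Finset.sum_congr rfl fun r _ => ?_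
    rw [LinearMap.map_smul_of_tower, smul_smul]
  rw [eop_apply]
  simp_rw [h1]
  rw [Finset.sum_comm (s := (Finset.univ : Finset σ)) (t := (Finset.univ : Finset (Fin N)))
    (f := fun r a => ∑ b, (Y a * Z b) t r • G.E a (G.E b (u r)))]
  refine Finset.sum_congr rfl fun a _ => ?_
  rw [Finset.sum_comm (s := (Finset.univ : Finset σ)) (t := (Finset.univ : Finset (Fin N)))
    (f := fun s b => ∑ r, (Y a t s * Z b s r) • G.E a (G.E b (u r)))]
  rw [Finset.sum_comm (s := (Finset.univ : Finset σ)) (t := (Finset.univ : Finset (Fin N)))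
    (f := fun r b => (Y a * Z b) t r • G.E a (G.E b (u r)))]
  refine Finset.sum_congr rfl fun b _ => ?_
  rw [Finset.sum_comm]
  refine Finset.sum_congr rfl fun r _ => ?_
  rw [← Finset.sum_smul, Matrix.mul_apply]

/-- the symmetric contraction -/
theorem sym_contr (G : GMod B W) {σ : Type} [Fintype σ]
    (Q : Fin N → Fin N → Matrix σ σ K) (hQ : ∀ a b, Q a b = Q b a) (u : σ → W) (t : σ) :
    ∑ r, ∑ a, ∑ b, (Q a b) t r • G.E a (G.E b (u r)) =
      ∑ m, (X m : MvPolynomial (Fin N) K) • ∑ r, (∑ a, ∑ b, B m a b • Q a b) t r • u r := by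
  have h1 : ∀ r, ∑ a, ∑ b, (Q a b) t r • G.E a (G.E b (u r)) =
      ∑ m, (∑ a, ∑ b, B m a b • Q a b) t r • ((X m : MvPolynomial (Fin N) K) • u r) := by
    intro r
    rw [cliff_sum G (fun a b => Q a b t r) (fun a b => by rw [hQ])]
    simp only [Finset.smul_sum, smul_smul, Matrix.sum_apply, Matrix.smul_apply, Finset.sum_smul,
      smul_eq_mul]
    rw [Finset.sum_comm (s := (Finset.univ : Finset (Fin N))) (t := (Finset.univ : Finset (Fin N)))
      (f := fun m a => ∑ b, (B m a b * Q a b t r) • ((X m : MvPolynomial (Fin N) K) • u r))]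
    refine Finset.sum_congr rfl fun a _ => ?_
    rw [Finset.sum_comm]
    refine Finset.sum_congr rfl fun m _ => Finset.sum_congr rfl fun b _ => ?_
    rw [mul_comm]
  simp_rw [h1]
  rw [Finset.sum_comm]
  refine Finset.sum_congr rfl fun m _ => ?_
  rw [Finset.smul_sum]
  refine Finset.sum_congr rfl fun r _ => ?_
  rw [smul_comm]

theorem dd (A : KData B) (G : GMod B W) (u : A.σ → W) : eop G A.X (eop G A.X u) = 0 := by
  ext t
  rw [eop_eop, sym_contr G (fun a b => A.X a * A.X b) (fun a b => A.comm a b)]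
  simp only [A.rel]
  simp

theorem sd (A : KData B) (G : GMod B W) (m : Fin N) (u : A.σ → W) :
    eop G A.X (eop G (A.h m) u) + eop G (A.h m) (eop G A.X u) =
      (X m : MvPolynomial (Fin N) K) • u := by
  ext t
  rw [Pi.add_apply, eop_eop, eop_eop, ← Finset.sum_add_distrib]
  have h1 : ∀ r, (∑ a, ∑ b, (A.X a * A.h m b) t r • G.E a (G.E b (u r))) +
      ∑ a, ∑ b, (A.h m a * A.X b) t r • G.E a (G.E b (u r)) =
      ∑ a, ∑ b, (A.X a * A.h m b + A.h m a * A.X b) t r • G.E a (G.E b (u r)) := by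
    intro r
    simp only [← Finset.sum_add_distrib, Matrix.add_apply, add_smul]
  simp_rw [h1]
  rw [sym_contr G (fun a b => A.X a * A.h m b + A.h m a * A.X b) (fun a b => A.symm m a b)]
  simp only [A.htpy]
  rw [Finset.sum_eq_single m]
  · simp [Matrix.one_apply, Pi.smul_apply]
  · intro l _ hl
    simp [hl]
  · simp

/-- the piece of degree `c` supported in degree `j` -/
def Vg (A : KData B) (M : ℕ → Submodule K W) (c j : ℕ) : Submodule K (A.σ → W) where
  carrier := {u | ∀ s, (A.deg s = j → u s ∈ M c) ∧ (A.deg s ≠ j → u s = 0)}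
  add_mem' := by
    intro u v hu hv s
    exact ⟨fun h => (M c).add_mem ((hu s).1 h) ((hv s).1 h), fun h => by
      rw [Pi.add_apply, (hu s).2 h, (hv s).2 h, add_zero]⟩
  zero_mem' := by
    intro s
    exact ⟨fun h => (M c).zero_mem, fun h => rfl⟩
  smul_mem' := by
    intro k u hu s
    exact ⟨fun h => (M c).smul_mem k ((hu s).1 h), fun h => by
      rw [Pi.smul_apply, (hu s).2 h, smul_zero]⟩

theorem mem_Vg (A : KData B) (M : ℕ → Submodule K W) (c j : ℕ) (u : A.σ → W) :
    u ∈ Vg A M c j ↔ ∀ s, (A.deg s = j → u s ∈ M c) ∧ (A.deg s ≠ j → u s = 0) := Iff.rfl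

theorem Vg_apply_mem {A : KData B} {M : ℕ → Submodule K W} {c j : ℕ} {u : A.σ → W}
    (hu : u ∈ Vg A M c j) (s : A.σ) : u s ∈ M c := by
  by_cases h : A.deg s = j
  · exact (hu s).1 h
  · rw [(hu s).2 h]; exact (M c).zero_mem

/-- linear equivalence of `Vg` with a power of `M c` -/
def VgEquiv (A : KData B) (M : ℕ → Submodule K W) (c j : ℕ) :
    Vg A M c j ≃ₗ[K] ({s : A.σ // A.deg s = j} → M c) where
  toFun u s := ⟨u.1 s.1, (u.2 s.1).1 s.2⟩
  map_add' u v := by ext s; rfl
  map_smul' k u := by ext s; rfl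
  invFun f := ⟨fun s => if h : A.deg s = j then (f ⟨s, h⟩ : W) else 0, fun s => by
    refine ⟨fun h => ?_, fun h => ?_⟩
    · simp only [h, dif_pos]; exact (f _).2
    · simp only [h, dif_neg, not_false_iff]⟩
  left_inv u := by
    ext s
    by_cases h : A.deg s = j
    · simp [h]
    · simp [h, (u.2 s).2 h]
  right_inv f := by
    ext s
    simp [s.2]

theorem finrank_Vg (A : KData B) (M : ℕ → Submodule K W) (c j : ℕ)
    (hfin : FiniteDimensional K (M c)) :
    Module.finrank K (Vg A M c j) = N.choose j * Module.finrank K (M c) := by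
  rw [(VgEquiv A M c j).finrank_eq, Module.finrank_pi_fintype]
  simp only [Finset.sum_const, Finset.card_univ, smul_eq_mul]
  rw [Fintype.card_subtype, A.card]

theorem finite_Vg (A : KData B) (M : ℕ → Submodule K W) (c j : ℕ)
    (hfin : FiniteDimensional K (M c)) : FiniteDimensional K (Vg A M c j) :=
  LinearEquiv.finiteDimensional (VgEquiv A M c j).symm

theorem d_mem {A : KData B} {G : GMod B W} {M : ℕ → Submodule K W}
    (hE : ∀ a c u, u ∈ M c → G.E a u ∈ M (c + 1)) {c j : ℕ} {u : A.σ → W}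
    (hu : u ∈ Vg A M c j) : eop G A.X u ∈ Vg A M (c + 1) (j + 1) := by
  intro t
  refine ⟨fun _ => ?_, fun ht => ?_⟩
  · rw [eop_apply]
    exact Submodule.sum_mem _ fun a _ => Submodule.sum_mem _ fun s _ =>
      (M _).smul_mem _ (hE a c _ (Vg_apply_mem hu s))
  · rw [eop_apply]
    refine Finset.sum_eq_zero fun a _ => Finset.sum_eq_zero fun s _ => ?_
    by_cases hX : A.X a t s = 0
    · rw [hX, zero_smul]
    · have h1 := A.X_deg a t s hX
      have h2 : A.deg s ≠ j := by
        intro h; apply ht; rw [h1, h]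
      rw [(hu s).2 h2, map_zero, smul_zero]

theorem s_mem {A : KData B} {G : GMod B W} {M : ℕ → Submodule K W}
    (hE : ∀ a c u, u ∈ M c → G.E a u ∈ M (c + 1)) (m : Fin N) {c j : ℕ} {u : A.σ → W}
    (hu : u ∈ Vg A M c (j + 1)) : eop G (A.h m) u ∈ Vg A M (c + 1) j := by
  intro t
  refine ⟨fun _ => ?_, fun ht => ?_⟩
  · rw [eop_apply]
    exact Submodule.sum_mem _ fun a _ => Submodule.sum_mem _ fun s _ =>
      (M _).smul_mem _ (hE a c _ (Vg_apply_mem hu s))
  · rw [eop_apply]
    refine Finset.sum_eq_zero fun a _ => Finset.sum_eq_zero fun s _ => ?_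
    by_cases hX : A.h m a t s = 0
    · rw [hX, zero_smul]
    · have h1 := A.h_deg m a t s hX
      have h2 : A.deg s ≠ j + 1 := by
        intro h; apply ht; omega
      rw [(hu s).2 h2, map_zero, smul_zero]

theorem s_zero {A : KData B} {G : GMod B W} {M : ℕ → Submodule K W}
    (m : Fin N) {c : ℕ} {u : A.σ → W}
    (hu : u ∈ Vg A M c 0) : eop G (A.h m) u = 0 := by
  ext t
  rw [eop_apply]
  refine Finset.sum_eq_zero fun a _ => Finset.sum_eq_zero fun s _ => ?_
  by_cases hX : A.h m a t s = 0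
  · rw [hX, zero_smul]
  · have h1 := A.h_deg m a t s hX
    have h2 : A.deg s ≠ 0 := by omega
    rw [(hu s).2 h2, map_zero, smul_zero]

theorem X_mem {A : KData B} {M : ℕ → Submodule K W}
    (hy : ∀ m c u, u ∈ M c → (X m : MvPolynomial (Fin N) K) • u ∈ M (c + 2))
    (m : Fin N) {c j : ℕ} {u : A.σ → W} (hu : u ∈ Vg A M c j) :
    (X m : MvPolynomial (Fin N) K) • u ∈ Vg A M (c + 2) j := by
  intro t
  refine ⟨fun _ => ?_, fun ht => ?_⟩
  · exact hy m c _ (Vg_apply_mem hu t)
  · rw [Pi.smul_apply, (hu t).2 ht, smul_zero]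

theorem noeth_step (G : GMod B W) [IsNoetherian (MvPolynomial (Fin N) K) W] {σ : Type}
    [Fintype σ] (Z : ℕ → Submodule K (σ → W)) (hZ : ∀ c u, u ∈ Z c → ∀ s, u s ∈ G.gr c)
    (hyZ : ∀ m c u, u ∈ Z c → (X m : MvPolynomial (Fin N) K) • u ∈ Z (c + 2)) :
    ∃ n, ∀ c, n ≤ c → ∀ z ∈ Z (c + 2), ∃ w : Fin N → (σ → W), (∀ m, w m ∈ Z c) ∧
      z = ∑ m, (X m : MvPolynomial (Fin N) K) • w m := by
  classical
  let Y : ℕ →o Submodule (MvPolynomial (Fin N) K) (σ → W) :=
    ⟨fun n => Submodule.span _ (⋃ c ∈ Set.Iic n, (Z c : Set (σ → W))), by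
      intro n m hnm
      apply Submodule.span_mono
      apply Set.biUnion_subset_biUnion_left
      exact Set.Iic_subset_Iic.2 hnm⟩
  obtain ⟨n, hn⟩ := monotone_stabilizes_iff_noetherian.2
    (inferInstance : IsNoetherian (MvPolynomial (Fin N) K) (σ → W)) Y
  refine ⟨n, ?_⟩
  let S : Set (σ → W) := {u | (∀ c, (fun s => G.pr c (u s)) ∈ Z c) ∧ ∀ c, n ≤ c →
        ∃ w : Fin N → (σ → W), (∀ m, w m ∈ Z c) ∧
          (fun s => G.pr (c + 2) (u s)) = ∑ m, (X m : MvPolynomial (Fin N) K) • w m}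
  have hSadd : ∀ u v, u ∈ S → v ∈ S → u + v ∈ S := by
    intro u v hu hv
    refine ⟨fun c => ?_, fun c hc => ?_⟩
    · have := (Z c).add_mem (hu.1 c) (hv.1 c)
      convert this using 1
      ext s; simp
    · obtain ⟨w, hw, hw'⟩ := hu.2 c hc
      obtain ⟨w', hw1, hw1'⟩ := hv.2 c hc
      refine ⟨w + w', fun m => (Z c).add_mem (hw m) (hw1 m), ?_⟩
      have : (fun s => G.pr (c + 2) ((u + v) s)) =
        (fun s => G.pr (c + 2) (u s)) + (fun s => G.pr (c + 2) (v s)) := by
        ext s; simp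
      rw [this, hw', hw1', ← Finset.sum_add_distrib]
      simp [smul_add]
  have hSK : ∀ (k : K) u, u ∈ S → (MvPolynomial.C k : MvPolynomial (Fin N) K) • u ∈ S := by
    intro k u hu
    have hk : ∀ x : W, (MvPolynomial.C k : MvPolynomial (Fin N) K) • x = k • x := fun x => by
      rw [← MvPolynomial.algebraMap_eq, algebraMap_smul]
    refine ⟨fun c => ?_, fun c hc => ?_⟩
    · have := (Z c).smul_mem k (hu.1 c)
      convert this using 1
      ext s; simp [hk]
    · obtain ⟨w, hw, hw'⟩ := hu.2 c hc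
      refine ⟨k • w, fun m => (Z c).smul_mem k (hw m), ?_⟩
      have : (fun s => G.pr (c + 2) (((MvPolynomial.C k : MvPolynomial (Fin N) K) • u) s)) =
        k • (fun s => G.pr (c + 2) (u s)) := by
        ext s; simp [hk]
      rw [this, hw', Finset.smul_sum]
      refine Finset.sum_congr rfl fun m _ => ?_
      rw [Pi.smul_apply, smul_comm]
  have hSX : ∀ (m : Fin N) u, u ∈ S → (X m : MvPolynomial (Fin N) K) • u ∈ S := by
    intro m u hu
    refine ⟨fun c => ?_, fun c hc => ?_⟩
    · by_cases hc : c < 2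
      · have : (fun s => G.pr c (((X m : MvPolynomial (Fin N) K) • u) s)) = 0 := by
          ext s
          rw [Pi.smul_apply, G.pr_y0 c m _ hc]; rfl
        rw [this]; exact (Z c).zero_mem
      · obtain ⟨c', rfl⟩ : ∃ c', c = c' + 2 := ⟨c - 2, by omega⟩
        have : (fun s => G.pr (c' + 2) (((X m : MvPolynomial (Fin N) K) • u) s)) =
            (X m : MvPolynomial (Fin N) K) • (fun s => G.pr c' (u s)) := by
          ext s
          rw [Pi.smul_apply, G.pr_y c' m _]; rfl
        rw [this]; exact hyZ m c' _ (hu.1 c')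
    · refine ⟨Pi.single m (fun s => G.pr c (u s)), fun m' => ?_, ?_⟩
      · by_cases h : m' = m
        · subst h
          rw [Pi.single_eq_same]; exact hu.1 c
        · rw [Pi.single_eq_of_ne h]; exact (Z c).zero_mem
      · rw [Finset.sum_eq_single m]
        · ext s
          rw [Pi.single_eq_same, Pi.smul_apply, G.pr_y c m _]; rfl
        · intro b _ hb
          rw [Pi.single_eq_of_ne hb, smul_zero]
        · simp
  let T : Submodule (MvPolynomial (Fin N) K) (σ → W) :=
    { carrier := S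
      add_mem' := fun {u v} hu hv => hSadd u v hu hv
      zero_mem' := by
        refine ⟨fun c => ?_, fun c hc => ⟨0, fun m => (Z c).zero_mem, ?_⟩⟩
        · have : (fun s => G.pr c ((0 : σ → W) s)) = 0 := by ext s; simp
          rw [this]; exact (Z c).zero_mem
        · ext s; simp
      smul_mem' := by
        intro p
        induction p using MvPolynomial.induction_on with
        | C k => exact fun {u} hu => hSK k u hu
        | add p q hp hq =>
          intro u hu
          rw [add_smul]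
          exact hSadd _ _ (hp hu) (hq hu)
        | mul_X p m hp =>
          intro u hu
          rw [mul_smul]
          exact hp (hSX m u hu) }
  intro c hc z hz
  have hT : Y n ≤ T := by
    apply Submodule.span_le.2
    intro u hu
    simp only [Set.mem_iUnion] at hu
    obtain ⟨c', hc', hu⟩ := hu
    have hne : ∀ c, c' ≠ c → (fun s => G.pr c (u s)) = 0 := by
      intro c hne
      ext s
      exact G.pr_ne c c' _ (hZ c' u hu s) hne
    refine ⟨fun c => ?_, fun c hc => ?_⟩
    · by_cases h : c' = c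
      · subst h
        have : (fun s => G.pr c' (u s)) = u := by
          ext s
          exact G.pr_self c' _ (hZ c' u hu s)
        rw [this]; exact hu
      · rw [hne c h]; exact (Z c).zero_mem
    · refine ⟨0, fun m => (Z c).zero_mem, ?_⟩
      rw [hne (c + 2) (by have : c' ≤ n := hc'; omega)]
      simp
  have hz1 : z ∈ Y (c + 2) := Submodule.subset_span (by
    simp only [Set.mem_iUnion]
    exact ⟨c + 2, Set.mem_Iic.2 (le_refl _), hz⟩)
  rw [← hn (c + 2) (by omega)] at hz1
  obtain ⟨w, hw, hw'⟩ := (hT hz1).2 c hc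
  refine ⟨w, hw, ?_⟩
  rw [← hw']
  ext s
  exact (G.pr_self _ _ (hZ _ _ hz s)).symm

/-- exactness in high degrees -/
theorem exact_step [IsNoetherian (MvPolynomial (Fin N) K) W]
    (A : KData B) (G : GMod B W) (M : ℕ → Submodule K W) (hM : ∀ c, M c ≤ G.gr c)
    (hE : ∀ a c u, u ∈ M c → G.E a u ∈ M (c + 1))
    (hy : ∀ m c u, u ∈ M c → (X m : MvPolynomial (Fin N) K) • u ∈ M (c + 2)) (j : ℕ) :
    ∃ n, ∀ c, n ≤ c → ∀ z ∈ Vg A M (c + 2) j, eop G A.X z = 0 →
      ∃ w : Fin N → (A.σ → W), (∀ m, w m ∈ Vg A M c j) ∧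
        z = eop G A.X (∑ m, eop G (A.h m) (w m)) := by
  obtain ⟨n, hn⟩ := noeth_step G (fun c => Vg A M c j ⊓ LinearMap.ker (eop G A.X))
    (fun c u hu s => hM c (Vg_apply_mem hu.1 s))
    (fun m c u hu => ⟨X_mem hy m hu.1, by
      have h := LinearMap.mem_ker.1 hu.2
      show eop G A.X _ = 0
      rw [eop_X, h, smul_zero]⟩)
  refine ⟨n, fun c hc z hz hz0 => ?_⟩
  obtain ⟨w, hw, hw'⟩ := hn c hc z ⟨hz, hz0⟩
  refine ⟨w, fun m => (hw m).1, ?_⟩
  rw [hw', map_sum]
  refine Finset.sum_congr rfl fun m _ => ?_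
  rw [← sd A G m (w m), LinearMap.mem_ker.1 (hw m).2, map_zero, add_zero]

theorem rank_step (A : KData B) (G : GMod B W) (M : ℕ → Submodule K W)
    (hfin : ∀ c, FiniteDimensional K (M c))
    (hE : ∀ a c u, u ∈ M c → G.E a u ∈ M (c + 1)) (c j : ℕ)
    (hex : ∀ z ∈ Vg A M (c + 1) (j + 1), eop G A.X z = 0 → ∃ u ∈ Vg A M c j, z = eop G A.X u) :
    Module.finrank K (Vg A M c j) =
      Module.finrank K (Vg A M c j ⊓ LinearMap.ker (eop G A.X) : Submodule K (A.σ → W)) +
      Module.finrank K (Vg A M (c + 1) (j + 1) ⊓ LinearMap.ker (eop G A.X) :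
        Submodule K (A.σ → W)) := by
  haveI := finite_Vg A M c j (hfin c)
  have h1 := LinearMap.finrank_range_add_finrank_ker ((eop G A.X).domRestrict (Vg A M c j))
  have h2 : LinearMap.range ((eop G A.X).domRestrict (Vg A M c j)) =
      Vg A M (c + 1) (j + 1) ⊓ LinearMap.ker (eop G A.X) := by
    ext x
    constructor
    · rintro ⟨u, rfl⟩
      exact ⟨d_mem hE u.2, dd A G u.1⟩
    · rintro ⟨hx, hx0⟩
      obtain ⟨u, hu, rfl⟩ := hex x hx hx0
      exact ⟨⟨u, hu⟩, rfl⟩
  have h3 : Module.finrank K (LinearMap.ker ((eop G A.X).domRestrict (Vg A M c j))) =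
      Module.finrank K
        (Vg A M c j ⊓ LinearMap.ker (eop G A.X) : Submodule K (A.σ → W)) := by
    rw [LinearMap.ker_domRestrict, ← Submodule.map_comap_subtype]
    exact (Submodule.equivSubtypeMap _ _).finrank_eq
  rw [← h1, h2, h3, add_comm]

theorem alt_sum (f : ℕ → ℤ) (n : ℕ) :
    ∑ j ∈ Finset.range n, (-1 : ℤ) ^ j * (f j + f (j + 1)) = f 0 - (-1) ^ n * f n := by
  induction n with
  | zero => simp
  | succ n ih =>
    rw [Finset.sum_range_succ, ih, pow_succ]
    ring

end D2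

theorem euler {K : Type*} [Field K] {N : ℕ} {B : Fin N → Matrix (Fin N) (Fin N) K}
    {W : Type*} [AddCommGroup W] [Module K W] [Module (MvPolynomial (Fin N) K) W]
    [IsScalarTower K (MvPolynomial (Fin N) K) W] [IsNoetherian (MvPolynomial (Fin N) K) W]
    (A : KData B) (G : GMod B W) (M : ℕ → Submodule K W) (hM : ∀ c, M c ≤ G.gr c)
    (hfin : ∀ c, FiniteDimensional K (M c))
    (hE : ∀ a c u, u ∈ M c → G.E a u ∈ M (c + 1))
    (hy : ∀ m c u, u ∈ M c → (X m : MvPolynomial (Fin N) K) • u ∈ M (c + 2)) :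
    ∃ c0, ∀ c, c0 ≤ c → ∑ j ∈ Finset.range (N + 1),
      (-1 : ℤ) ^ j * (N.choose j : ℤ) * (Module.finrank K (M (c + j)) : ℤ) = 0 := by
  choose n hn using exact_step A G M hM hE hy
  refine ⟨(Finset.range (N + 2)).sup n + 2, fun c hc => ?_⟩
  have hle : ∀ j, j < N + 2 → n j + 2 ≤ c := by
    intro j hj
    have := Finset.le_sup (f := n) (Finset.mem_range.2 hj)
    omega
  let f : ℕ → ℤ := fun j => (Module.finrank K
    (Vg A M (c + j) j ⊓ LinearMap.ker (eop G A.X) : Submodule K (A.σ → W)) : ℤ)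
  have h1 : ∀ j ∈ Finset.range (N + 1),
      (-1 : ℤ) ^ j * (N.choose j : ℤ) * (Module.finrank K (M (c + j)) : ℤ) =
        (-1 : ℤ) ^ j * (f j + f (j + 1)) := by
    intro j hj
    have hj' := Finset.mem_range.1 hj
    have h := rank_step A G M hfin hE (c + j) j (fun z hz hz0 => by
      obtain ⟨c', hc'⟩ : ∃ c', c + j = c' + 1 := ⟨c + j - 1, by
        have := hle j (by omega); omega⟩
      rw [hc'] at hz ⊢
      have hge : n (j + 1) ≤ c' := by
        have := hle (j + 1) (by omega); omega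
      obtain ⟨w, hw, hw'⟩ := hn (j + 1) c' hge z hz hz0
      exact ⟨_, Submodule.sum_mem _ fun m _ => s_mem hE m (hw m), hw'⟩)
    rw [finrank_Vg A M _ _ (hfin _)] at h
    have h' : (N.choose j : ℤ) * (Module.finrank K (M (c + j)) : ℤ) = f j + f (j + 1) := by
      simp only [f]
      exact_mod_cast h
    rw [mul_assoc, h']
  rw [Finset.sum_congr rfl h1, alt_sum]
  have hf0 : f 0 = 0 := by
    have hbot : (Vg A M (c + 0) 0 ⊓ LinearMap.ker (eop G A.X) : Submodule K (A.σ → W)) = ⊥ := by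
      rw [eq_bot_iff]
      rintro z ⟨hz, hz0⟩
      obtain ⟨c', hc'⟩ : ∃ c', c + 0 = c' + 2 := ⟨c - 2, by
        have := hle 0 (by omega); omega⟩
      rw [hc'] at hz
      have hge : n 0 ≤ c' := by
        have := hle 0 (by omega); omega
      obtain ⟨w, hw, hw'⟩ := hn 0 c' hge z hz hz0
      rw [Finset.sum_eq_zero (fun m _ => s_zero m (hw m)), map_zero] at hw'
      rw [hw']; exact Submodule.zero_mem _
    simp only [f]
    rw [hbot, finrank_bot]; rfl
  have hfN : f (N + 1) = 0 := by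
    have h2 := finrank_Vg A M (c + (N + 1)) (N + 1) (hfin _)
    rw [Nat.choose_succ_self, zero_mul] at h2
    haveI := finite_Vg A M (c + (N + 1)) (N + 1) (hfin _)
    have h3 := Submodule.finrank_mono (inf_le_left :
      Vg A M (c + (N + 1)) (N + 1) ⊓ LinearMap.ker (eop G A.X) ≤ Vg A M (c + (N + 1)) (N + 1))
    simp only [f]
    have h4 : Module.finrank K
      (Vg A M (c + (N + 1)) (N + 1) ⊓ LinearMap.ker (eop G A.X) : Submodule K (A.σ → W)) = 0 := by
      omega
    rw [h4]; rfl
  rw [hf0, hfN]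
  simp

end Vale.Agent.P200.Q
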