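import Mathlib

/-! D3: growth of functions whose `N`-th difference vanishes eventually. -/

set_option linter.all false

namespace Vale.Agent.P200.Q

namespace Growth

/-- forward difference -/
def D (f : ℕ → ℤ) : ℕ → ℤ := fun c => f (c + 1) - f c

theorem D_iter_succ (f : ℕ → ℤ) (n c : ℕ) :
    D^[n + 1] f c = D^[n] f (c + 1) - D^[n] f c := by
  rw [Function.iterate_succ_apply']
  rfl

theorem D_iter_sum (f : ℕ → ℤ) (n c : ℕ) :
    D^[n] f c = (-1) ^ n * ∑ j ∈ Finset.range (n + 1),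
      (-1 : ℤ) ^ j * (n.choose j : ℤ) * f (c + j) := by
  have h := fwdDiff_iter_eq_sum_shift (1 : ℕ) f n c
  have hD : D = fwdDiff (1 : ℕ) := by
    funext g c
    rfl
  rw [hD, h, Finset.mul_sum]
  apply Finset.sum_congr rfl
  intro k hk
  have hk' : k ≤ n := Nat.lt_succ_iff.mp (Finset.mem_range.mp hk)
  have e : (-1 : ℤ) ^ (n - k) = (-1) ^ n * (-1) ^ k := by
    obtain ⟨d, rfl⟩ := Nat.exists_eq_add_of_le hk'
    rw [Nat.add_sub_cancel_left, pow_add, mul_assoc, mul_comm ((-1 : ℤ) ^ d), ← mul_assoc,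
      ← pow_add, ← two_mul, pow_mul]
    norm_num
  rw [e]
  simp only [smul_eq_mul, mul_one]
  ring

theorem D_iter_shift (f : ℕ → ℤ) (a n c : ℕ) :
    D^[n] (fun c => f (c + a)) c = D^[n] f (c + a) := by
  induction n generalizing c with
  | zero => rfl
  | succ n ih =>
    rw [D_iter_succ, D_iter_succ, ih, ih]
    have e1 : c + 1 + a = c + a + 1 := by omega
    rw [e1]

theorem D_iter_add (f g : ℕ → ℤ) (n c : ℕ) :
    D^[n] (fun c => f c + g c) c = D^[n] f c + D^[n] g c := by
  induction n generalizing c with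
  | zero => rfl
  | succ n ih =>
    rw [D_iter_succ, D_iter_succ, D_iter_succ, ih, ih]
    ring

theorem D_iter_choose (a b k c : ℕ) :
    D^[k] (fun c => ((a + c).choose (b + k) : ℤ)) c = ((a + c).choose b : ℤ) := by
  induction k generalizing b c with
  | zero => rfl
  | succ k ih =>
    have e : (fun c => ((a + c).choose (b + (k + 1)) : ℤ)) =
        (fun c => ((a + c).choose ((b + 1) + k) : ℤ)) := by
      funext c
      congr 2
      ring
    rw [e, D_iter_succ, ih, ih]
    rw [← add_assoc, Nat.choose_succ_succ']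
    push_cast
    ring

theorem bound (n : ℕ) : ∀ (f : ℕ → ℤ) (c0 : ℕ), (∀ c, c0 ≤ c → D^[n + 1] f c ≤ 0) →
    ∃ K : ℕ, ∀ c, c0 ≤ c → f c ≤ (K : ℤ) * ((c : ℤ) + 1) ^ n := by
  induction n with
  | zero =>
    intro f c0 h
    refine ⟨(f c0).toNat, ?_⟩
    intro c hc
    rw [pow_zero, mul_one]
    induction c, hc using Nat.le_induction with
    | base => exact Int.self_le_toNat _
    | succ c hc ih =>
      have := h c hc
      rw [D_iter_succ] at this
      simp only [Function.iterate_zero, id] at this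
      linarith
  | succ n ih =>
    intro f c0 h
    obtain ⟨K, hK⟩ := ih (D f) c0 (fun c hc => by
      have := h c hc
      rwa [Function.iterate_succ_apply] at this)
    refine ⟨(f c0).toNat + K, ?_⟩
    have key : ∀ c, c0 ≤ c → f c ≤ (f c0).toNat + (K : ℤ) * c * ((c : ℤ) + 1) ^ n := by
      intro c hc
      induction c, hc using Nat.le_induction with
      | base =>
        have h1 : f c0 ≤ (f c0).toNat := Int.self_le_toNat _
        have h2 : (0 : ℤ) ≤ (K : ℤ) * c0 * ((c0 : ℤ) + 1) ^ n := by positivity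
        linarith
      | succ c hc ih2 =>
        have h1 := hK c hc
        have h2 : f (c + 1) = f c + D f c := by simp [D]
        rw [h2]
        have h3 : ((c : ℤ) + 1) ^ n ≤ (((c + 1 : ℕ) : ℤ) + 1) ^ n := by
          apply pow_le_pow_left₀ (by positivity)
          push_cast
          linarith
        have h4 : (K : ℤ) * c * ((c : ℤ) + 1) ^ n + K * ((c : ℤ) + 1) ^ n ≤
            (K : ℤ) * ((c + 1 : ℕ) : ℤ) * (((c + 1 : ℕ) : ℤ) + 1) ^ n := by
          calc (K : ℤ) * c * ((c : ℤ) + 1) ^ n + K * ((c : ℤ) + 1) ^ n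
              = (K : ℤ) * ((c + 1 : ℕ) : ℤ) * ((c : ℤ) + 1) ^ n := by push_cast; ring
            _ ≤ _ := by
              apply mul_le_mul_of_nonneg_left h3
              positivity
        linarith
    intro c hc
    have h1 := key c hc
    have h2 : (1 : ℤ) ≤ ((c : ℤ) + 1) ^ (n + 1) := one_le_pow₀ (by linarith [Int.natCast_nonneg c])
    have h3 : (K : ℤ) * c * ((c : ℤ) + 1) ^ n ≤ K * ((c : ℤ) + 1) ^ (n + 1) := by
      rw [pow_succ, mul_assoc]
      apply mul_le_mul_of_nonneg_left _ (by positivity)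
      rw [mul_comm]
      apply mul_le_mul_of_nonneg_left _ (by positivity)
      linarith
    have h4 : ((f c0).toNat : ℤ) ≤ ((f c0).toNat : ℤ) * ((c : ℤ) + 1) ^ (n + 1) :=
      le_mul_of_one_le_right (by positivity) h2
    push_cast
    linarith

theorem pos_of_growth (n β c0 : ℕ) (h : ℕ → ℕ)
    (l : ∀ m, (n + m).choose n ≤ h (β + 2 * m))
    (e : ∀ c, c0 ≤ c → D^[n] (fun c => (h c : ℤ)) c ≤ 0) : False := by
  rcases n with _ | n
  · have h1 := e (β + 2 * c0) (by omega)
    have h2 := l c0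
    simp only [Function.iterate_zero, id] at h1
    rw [Nat.choose_zero_right] at h2
    omega
  · obtain ⟨K, hK⟩ := bound n (fun c => (h c : ℤ)) c0 e
    set M : ℕ := (n + 1).factorial * K * (β + 2) ^ n with hM
    set m : ℕ := M + c0 with hm
    have h1 := hK (β + 2 * m) (by omega)
    have h2 := l m
    have h3 : (m + 1) ^ (n + 1) ≤ (n + 1).factorial * (n + 1 + m).choose (n + 1) := by
      have := Nat.pow_succ_le_ascFactorial (m + 1) (n + 1)
      rw [Nat.ascFactorial_eq_factorial_mul_choose] at this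
      refine le_trans this (le_of_eq ?_)
      congr 2
      ring
    have h4 : h (β + 2 * m) ≤ K * (β + 2 * m + 1) ^ n := by
      have : ((h (β + 2 * m) : ℕ) : ℤ) ≤ ((K * (β + 2 * m + 1) ^ n : ℕ) : ℤ) := by
        push_cast
        push_cast at h1
        exact h1
      exact_mod_cast this
    have h5 : (β + 2 * m + 1) ^ n ≤ ((β + 2) * (m + 1)) ^ n := by
      apply Nat.pow_le_pow_left
      nlinarith
    have h6 : (m + 1) ^ (n + 1) ≤ M * (m + 1) ^ n := by
      calc (m + 1) ^ (n + 1) ≤ (n + 1).factorial * (n + 1 + m).choose (n + 1) := h3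
        _ ≤ (n + 1).factorial * h (β + 2 * m) := Nat.mul_le_mul_left _ h2
        _ ≤ (n + 1).factorial * (K * (β + 2 * m + 1) ^ n) := Nat.mul_le_mul_left _ h4
        _ ≤ (n + 1).factorial * (K * ((β + 2) * (m + 1)) ^ n) :=
          Nat.mul_le_mul_left _ (Nat.mul_le_mul_left _ h5)
        _ = M * (m + 1) ^ n := by rw [hM, mul_pow]; ring
    rw [pow_succ, mul_comm] at h6
    have h7 : m + 1 ≤ M := Nat.le_of_mul_le_mul_right h6 (by positivity)
    omega

end Growth

open Growth in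
theorem growth_contra (N : ℕ) (hN : 1 ≤ N) (h1 h2 : ℕ → ℕ) (c0 α β1 β2 : ℕ)
    (e1 : ∀ c, c0 ≤ c → ∑ j ∈ Finset.range (N + 1),
      (-1 : ℤ) ^ j * (N.choose j : ℤ) * (h1 (c + j) : ℤ) = 0)
    (e2 : ∀ c, c0 ≤ c → ∑ j ∈ Finset.range (N + 1),
      (-1 : ℤ) ^ j * (N.choose j : ℤ) * (h2 (c + j) : ℤ) = 0)
    (l1 : ∀ m, (N - 1 + m).choose (N - 1) ≤ h1 (β1 + 2 * m))
    (l2 : ∀ m, (N - 1 + m).choose (N - 1) ≤ h2 (β2 + 2 * m))
    (hs : ∀ c, h1 c + h2 (c + α) = (N - 1 + c).choose (N - 1)) : False := by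
  obtain ⟨n, rfl⟩ := Nat.exists_eq_add_of_le hN
  rw [Nat.add_sub_cancel_left] at l1 l2 hs
  have const : ∀ h : ℕ → ℕ, (∀ c, c0 ≤ c → ∑ j ∈ Finset.range (1 + n + 1),
      (-1 : ℤ) ^ j * ((1 + n).choose j : ℤ) * (h (c + j) : ℤ) = 0) →
      ∀ c, c0 ≤ c → D^[n] (fun c => (h c : ℤ)) c = D^[n] (fun c => (h c : ℤ)) c0 := by
    intro h e c hc
    induction c, hc using Nat.le_induction with
    | base => rfl
    | succ c hc ih =>
      rw [← ih]
      have h1 := D_iter_sum (fun c => (h c : ℤ)) (n + 1) c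
      rw [D_iter_succ, add_comm n 1, e c hc, mul_zero] at h1
      linarith
  have pos : ∀ (h : ℕ → ℕ) (β : ℕ), (∀ c, c0 ≤ c → ∑ j ∈ Finset.range (1 + n + 1),
      (-1 : ℤ) ^ j * ((1 + n).choose j : ℤ) * (h (c + j) : ℤ) = 0) →
      (∀ m, (n + m).choose n ≤ h (β + 2 * m)) →
      1 ≤ D^[n] (fun c => (h c : ℤ)) c0 := by
    intro h β e l
    by_contra hlt
    refine pos_of_growth n β c0 h l ?_
    intro c hc
    rw [const h e c hc]
    omega
  have p1 := pos h1 β1 e1 l1
  have p2 := pos h2 β2 e2 l2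
  have c2 := const h2 e2 (c0 + α) (by omega)
  have s1 : D^[n] (fun c => (h1 c : ℤ) + (h2 (c + α) : ℤ)) c0 = 1 := by
    have e : (fun c => (h1 c : ℤ) + (h2 (c + α) : ℤ)) =
        (fun c => ((n + c).choose (0 + n) : ℤ)) := by
      funext c
      rw [zero_add]
      exact_mod_cast hs c
    rw [e, D_iter_choose, Nat.choose_zero_right]
    rfl
  rw [D_iter_add (fun c => (h1 c : ℤ)) (fun c => (h2 (c + α) : ℤ)),
    D_iter_shift (fun c => (h2 c : ℤ)) α] at s1
  rw [c2] at s1
  omega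

end Vale.Agent.P200.Q
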