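import Vale.Agent.P200.Q.Dom0
import Vale.Agent.P200.G.HilbBasic

/-! D4W: the graded free module with basis `e_T` over `P = K[y]`. -/

set_option linter.all false

namespace Vale.Agent.P200.Q

open MvPolynomial

universe u

variable {K : Type u} [Field K] {N : ℕ}

/-- `P`-coordinates of the order `C = P[e_1..e_N]` -/
abbrev WW (K : Type u) [Field K] (N : ℕ) := Finset (Fin N) → MvPolynomial (Fin N) K

/-- graded pieces: `y^α e_T` has degree `2|α| + |T|` -/
noncomputable def wgr (K : Type u) [Field K] (N : ℕ) (c : ℕ) : Submodule K (WW K N) where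
  carrier := {u | ∀ T, (T.card ≤ c ∧ Even (c - T.card) →
    (u T).IsHomogeneous ((c - T.card) / 2)) ∧ (¬ (T.card ≤ c ∧ Even (c - T.card)) → u T = 0)}
  add_mem' := by
    intro u v hu hv T
    refine ⟨fun h => ((hu T).1 h).add ((hv T).1 h), fun h => ?_⟩
    rw [Pi.add_apply, (hu T).2 h, (hv T).2 h, add_zero]
  zero_mem' := by
    intro T
    exact ⟨fun _ => isHomogeneous_zero _ _ _, fun _ => rfl⟩
  smul_mem' := by
    intro a u hu T
    refine ⟨fun h => ?_, fun h => ?_⟩
    · exact (homogeneousSubmodule (Fin N) K _).smul_mem a ((hu T).1 h)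
    · rw [Pi.smul_apply, (hu T).2 h, smul_zero]

/-- projections to the graded pieces -/
noncomputable def wpr (K : Type u) [Field K] (N : ℕ) (c : ℕ) : WW K N →ₗ[K] WW K N :=
  LinearMap.pi fun T => if T.card ≤ c ∧ Even (c - T.card) then
    (homogeneousComponent ((c - T.card) / 2)).comp (LinearMap.proj T) else 0

theorem wpr_apply_pos {c : ℕ} {T : Finset (Fin N)} (h : T.card ≤ c ∧ Even (c - T.card))
    (u : WW K N) : wpr K N c u T = homogeneousComponent ((c - T.card) / 2) (u T) := by
  rw [wpr, LinearMap.pi_apply, if_pos h]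
  rfl

theorem wpr_apply_neg {c : ℕ} {T : Finset (Fin N)} (h : ¬ (T.card ≤ c ∧ Even (c - T.card)))
    (u : WW K N) : wpr K N c u T = 0 := by
  rw [wpr, LinearMap.pi_apply, if_neg h]
  rfl

theorem wpr_mem (c : ℕ) (u : WW K N) : wpr K N c u ∈ wgr K N c := by
  intro T
  refine ⟨fun h => ?_, fun h => wpr_apply_neg h u⟩
  rw [wpr_apply_pos h]
  exact homogeneousComponent_isHomogeneous _ _

theorem wpr_self (c : ℕ) (u : WW K N) (hu : u ∈ wgr K N c) : wpr K N c u = u := by
  funext T
  by_cases h : T.card ≤ c ∧ Even (c - T.card)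
  · rw [wpr_apply_pos h]
    exact G.comp_self ((hu T).1 h)
  · rw [wpr_apply_neg h, (hu T).2 h]

theorem wpr_ne (c c' : ℕ) (u : WW K N) (hu : u ∈ wgr K N c') (h : c' ≠ c) :
    wpr K N c u = 0 := by
  funext T
  by_cases h1 : T.card ≤ c ∧ Even (c - T.card)
  · rw [wpr_apply_pos h1]
    by_cases h2 : T.card ≤ c' ∧ Even (c' - T.card)
    · have h3 := (hu T).1 h2
      rw [homogeneousComponent_of_mem h3, if_neg]
      · rfl
      · obtain ⟨k, hk⟩ := h1.2
        obtain ⟨l, hl⟩ := h2.2
        have := h1.1
        have := h2.1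
        omega
    · rw [(hu T).2 h2, map_zero]
      rfl
  · rw [wpr_apply_neg h1]
    rfl

theorem wpr_y (c : ℕ) (m : Fin N) (u : WW K N) :
    wpr K N (c + 2) ((X m : MvPolynomial (Fin N) K) • u) =
      (X m : MvPolynomial (Fin N) K) • wpr K N c u := by
  funext T
  by_cases h1 : T.card ≤ c ∧ Even (c - T.card)
  · have h2 : T.card ≤ c + 2 ∧ Even (c + 2 - T.card) := by
      obtain ⟨k, hk⟩ := h1.2
      have := h1.1
      exact ⟨by omega, ⟨k + 1, by omega⟩⟩
    have h3 : (c + 2 - T.card) / 2 = (c - T.card) / 2 + 1 := by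
      have := h1.1
      omega
    rw [wpr_apply_pos h2, Pi.smul_apply, Pi.smul_apply, wpr_apply_pos h1, smul_eq_mul,
      smul_eq_mul, h3, G.comp_mul_add (isHomogeneous_X K m)]
  · rw [Pi.smul_apply, wpr_apply_neg h1, smul_zero]
    by_cases h2 : T.card ≤ c + 2 ∧ Even (c + 2 - T.card)
    · rw [wpr_apply_pos h2, Pi.smul_apply, smul_eq_mul]
      refine G.comp_mul_of_lt (isHomogeneous_X K m) _ ?_
      obtain ⟨k, hk⟩ := h2.2
      have := h2.1
      by_contra h3
      apply h1
      exact ⟨by omega, ⟨k - 1, by omega⟩⟩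
    · exact wpr_apply_neg h2 _

theorem wpr_y0 (c : ℕ) (m : Fin N) (u : WW K N) (hc : c < 2) :
    wpr K N c ((X m : MvPolynomial (Fin N) K) • u) = 0 := by
  funext T
  by_cases h2 : T.card ≤ c ∧ Even (c - T.card)
  · rw [wpr_apply_pos h2, Pi.smul_apply, smul_eq_mul]
    refine G.comp_mul_of_lt (isHomogeneous_X K m) _ ?_
    obtain ⟨k, hk⟩ := h2.2
    omega
  · exact wpr_apply_neg h2 _

/-- every element is a finite sum of its components -/
theorem wpr_sum (u : WW K N) : ∃ n, ∀ m, n ≤ m → ∑ c ∈ Finset.range m, wpr K N c u = u := by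
  classical
  refine ⟨∑ T : Finset (Fin N), (2 * ((u T).totalDegree + 1) + T.card), fun m hm => ?_⟩
  funext T
  rw [Finset.sum_apply]
  have hT : 2 * ((u T).totalDegree + 1) + T.card ≤ m :=
    le_trans (Finset.single_le_sum (f := fun T : Finset (Fin N) =>
      (2 * ((u T).totalDegree + 1) + T.card)) (fun _ _ => Nat.zero_le _) (Finset.mem_univ T)) hm
  have h1 : ∑ c ∈ Finset.range m, wpr K N c u T =
      ∑ i ∈ Finset.range ((u T).totalDegree + 1), wpr K N (2 * i + T.card) u T := by
    symm
    apply Finset.sum_of_injOn (fun i => 2 * i + T.card)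
    · intro i _ j _ hij
      simp only at hij
      omega
    · intro i hi
      simp only [Finset.coe_range, Set.mem_Iio] at hi ⊢
      omega
    · intro c hc hc'
      by_cases h : T.card ≤ c ∧ Even (c - T.card)
      · rw [wpr_apply_pos h]
        apply homogeneousComponent_eq_zero
        by_contra h3
        apply hc'
        obtain ⟨k, hk⟩ := h.2
        have := h.1
        refine ⟨k, ?_, ?_⟩
        · simp only [Finset.coe_range, Set.mem_Iio]
          omega
        · simp only
          omega
      · exact wpr_apply_neg h _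
    · intro i _
      rfl
  rw [h1]
  conv_rhs => rw [← sum_homogeneousComponent (u T)]
  apply Finset.sum_congr rfl
  intro i _
  have h : T.card ≤ 2 * i + T.card ∧ Even (2 * i + T.card - T.card) :=
    ⟨by omega, ⟨i, by omega⟩⟩
  rw [wpr_apply_pos h, show (2 * i + T.card - T.card) / 2 = i by omega]

/-- the graded piece as a product -/
noncomputable def wgrEquiv (K : Type u) [Field K] (N : ℕ) (c : ℕ) :
    wgr K N c ≃ₗ[K] ((T : {T : Finset (Fin N) // T.card ≤ c ∧ Even (c - T.card)}) →
      homogeneousSubmodule (Fin N) K ((c - T.1.card) / 2)) where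
  toFun u := fun T => ⟨u.1 T.1, (u.2 T.1).1 T.2⟩
  invFun v := ⟨fun T => if h : T.card ≤ c ∧ Even (c - T.card) then (v ⟨T, h⟩).1 else 0, by
    intro T
    refine ⟨fun h => ?_, fun h => ?_⟩
    · simp only [dif_pos h]
      exact (v ⟨T, h⟩).2
    · simp only [dif_neg h]⟩
  map_add' u v := rfl
  map_smul' a u := rfl
  left_inv u := by
    apply Subtype.ext
    funext T
    by_cases h : T.card ≤ c ∧ Even (c - T.card)
    · simp only [dif_pos h]
    · simp only [dif_neg h]
      exact ((u.2 T).2 h).symm
  right_inv v := by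
    funext T
    apply Subtype.ext
    simp only [dif_pos T.2]

theorem wgr_finite (c : ℕ) : FiniteDimensional K (wgr K N c) :=
  Module.Finite.equiv (wgrEquiv K N c).symm

theorem card_fiber (c : ℕ) (T : Finset (Fin N)) :
    (((Finset.univ : Finset (Fin N)).finsuppAntidiag c).filter
      fun γ => (Finset.univ.filter fun i => Odd (γ i)) = T).card =
    if T.card ≤ c ∧ Even (c - T.card) then
      ((Finset.univ : Finset (Fin N)).finsuppAntidiag ((c - T.card) / 2)).card else 0 := by
  classical
  have key : ∀ γ : Fin N →₀ ℕ, (Finset.univ.filter fun i => Odd (γ i)) = T →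
      ∑ i, γ i = 2 * (∑ i, γ i / 2) + T.card := by
    intro γ hγ
    rw [← hγ, Finset.card_filter, Finset.mul_sum, ← Finset.sum_add_distrib]
    apply Finset.sum_congr rfl
    intro i _
    split_ifs with h
    · obtain ⟨k, hk⟩ := h
      omega
    · rw [Nat.not_odd_iff_even] at h
      obtain ⟨k, hk⟩ := h
      omega
  split_ifs with h
  · refine Finset.card_bij' (fun γ _ => Finsupp.equivFunOnFinite.symm fun i => γ i / 2)
      (fun α _ => Finsupp.equivFunOnFinite.symm fun i => 2 * α i + if i ∈ T then 1 else 0)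
      ?_ ?_ ?_ ?_
    · intro γ hγ
      rw [Finset.mem_filter, Finset.mem_finsuppAntidiag] at hγ
      rw [Finset.mem_finsuppAntidiag]
      refine ⟨?_, Finset.subset_univ _⟩
      have h1 := key γ hγ.2
      rw [hγ.1.1] at h1
      simp only [Finsupp.coe_equivFunOnFinite_symm]
      omega
    · intro α hα
      rw [Finset.mem_finsuppAntidiag] at hα
      rw [Finset.mem_filter, Finset.mem_finsuppAntidiag]
      refine ⟨⟨?_, Finset.subset_univ _⟩, ?_⟩
      · simp only [Finsupp.coe_equivFunOnFinite_symm]
        rw [Finset.sum_add_distrib, ← Finset.mul_sum, hα.1, Finset.sum_ite_mem,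
          Finset.univ_inter, Finset.sum_const, smul_eq_mul, mul_one]
        obtain ⟨k, hk⟩ := h.2
        have := h.1
        omega
      · ext i
        rw [Finset.mem_filter]
        simp only [Finsupp.coe_equivFunOnFinite_symm, Finset.mem_univ, true_and]
        by_cases hi : i ∈ T
        · simp only [hi, if_true, iff_true]
          exact ⟨α i, rfl⟩
        · simp only [hi, if_false, iff_false, Nat.not_odd_iff_even]
          exact ⟨α i, by omega⟩
    · intro γ hγ
      rw [Finset.mem_filter] at hγ
      ext i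
      simp only [Finsupp.coe_equivFunOnFinite_symm]
      by_cases hi : i ∈ T
      · have : Odd (γ i) := by
          rw [← hγ.2, Finset.mem_filter] at hi
          exact hi.2
        obtain ⟨k, hk⟩ := this
        rw [if_pos hi]
        omega
      · have : ¬ Odd (γ i) := by
          intro h'
          apply hi
          rw [← hγ.2, Finset.mem_filter]
          exact ⟨Finset.mem_univ _, h'⟩
        rw [Nat.not_odd_iff_even] at this
        obtain ⟨k, hk⟩ := this
        rw [if_neg hi]
        omega
    · intro α hα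
      ext i
      simp only [Finsupp.coe_equivFunOnFinite_symm]
      split_ifs <;> omega
  · rw [Finset.card_eq_zero, Finset.filter_eq_empty_iff]
    intro γ hγ hT
    rw [Finset.mem_finsuppAntidiag] at hγ
    have h1 := key γ hT
    rw [hγ.1] at h1
    apply h
    exact ⟨by omega, ⟨∑ i, γ i / 2, by omega⟩⟩

theorem finrank_wgr (hN : 1 ≤ N) (c : ℕ) :
    Module.finrank K (wgr K N c) = (N - 1 + c).choose (N - 1) := by
  classical
  rw [(wgrEquiv K N c).finrank_eq, Module.finrank_pi_fintype]
  have h1 : ∑ T : {T : Finset (Fin N) // T.card ≤ c ∧ Even (c - T.card)},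
      Module.finrank K (homogeneousSubmodule (Fin N) K ((c - T.1.card) / 2)) =
      ∑ T : Finset (Fin N), if T.card ≤ c ∧ Even (c - T.card) then
      ((Finset.univ : Finset (Fin N)).finsuppAntidiag ((c - T.card) / 2)).card else 0 := by
    rw [← Finset.sum_filter, Finset.sum_subtype
      (Finset.univ.filter fun T : Finset (Fin N) => T.card ≤ c ∧ Even (c - T.card))
      (p := fun T => T.card ≤ c ∧ Even (c - T.card)) (by simp)]
    apply Finset.sum_congr rfl
    intro T _
    exact G.finrank_homogeneousSubmodule _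
  rw [h1]
  have h2 : ((Finset.univ : Finset (Fin N)).finsuppAntidiag c).card =
      ∑ T : Finset (Fin N), (((Finset.univ : Finset (Fin N)).finsuppAntidiag c).filter
      fun γ => (Finset.univ.filter fun i => Odd (γ i)) = T).card :=
    Finset.card_eq_sum_card_fiberwise (f := fun γ : Fin N →₀ ℕ =>
      Finset.univ.filter fun i => Odd (γ i)) (fun _ _ => Finset.mem_univ _)
  rw [← Finset.sum_congr rfl fun T _ => card_fiber c T, ← h2,
    Finset.card_finsuppAntidiag_nat_eq_choose, Finset.card_univ, Fintype.card_fin]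
  rw [show N + c - 1 = N - 1 + c by omega, Nat.choose_symm_of_eq_add]
  omega

end Vale.Agent.P200.Q
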