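import Vale.Agent.P200.Q.Dom4
import Vale.Agent.P200.Q.Dom4W

/-! D4P: the order inside the Clifford algebra. -/

set_option linter.all false

namespace Vale.Agent.P200.Q

open MvPolynomial

universe u

variable {K : Type u} [Field K] {N : ℕ}

/-- the inclusion of the order in the Clifford algebra -/
noncomputable def Phi (B : Fin N → Matrix (Fin N) (Fin N) K) :
    WW K N →ₗ[MvPolynomial (Fin N) K] CD B :=
  ∑ T, (LinearMap.toSpanSingleton (MvPolynomial (Fin N) K) (CD B) (ceT B T)).comp
    (LinearMap.proj T)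

theorem Phi_apply (B : Fin N → Matrix (Fin N) (Fin N) K) (u : WW K N) :
    Phi B u = ∑ T, u T • ceT B T := by
  simp [Phi, LinearMap.sum_apply]

theorem P_smul_eq (B : Fin N → Matrix (Fin N) (Fin N) K) (p : MvPolynomial (Fin N) K)
    (x : CD B) : p • x = (algebraMap (MvPolynomial (Fin N) K) (LF K N) p) • x := by
  rw [algebraMap_smul]

theorem Phi_injective (B : Fin N → Matrix (Fin N) (Fin N) K) : Function.Injective (Phi B) := by
  rw [← LinearMap.ker_eq_bot, LinearMap.ker_eq_bot']
  intro u hu
  rw [Phi_apply] at hu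
  have h := (Fintype.linearIndependent_iff.1 (cd_basis B).2.1)
    (fun T => algebraMap (MvPolynomial (Fin N) K) (LF K N) (u T))
    (by simpa only [P_smul_eq] using hu)
  funext T
  exact (IsFractionRing.injective (MvPolynomial (Fin N) K) (LF K N)) (by simpa using h T)

/-- graded pieces in the Clifford algebra -/
noncomputable def gg (B : Fin N → Matrix (Fin N) (Fin N) K) (c : ℕ) : Submodule K (CD B) :=
  Submodule.span K {x | ∃ (α : Fin N →₀ ℕ) (T : Finset (Fin N)),
    2 * α.degree + T.card = c ∧ x = (monomial α (1 : K)) • ceT B T}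

theorem mem_gg_of_eq (B : Fin N → Matrix (Fin N) (Fin N) K) {c : ℕ} (α : Fin N →₀ ℕ)
    (T : Finset (Fin N)) (h : 2 * α.degree + T.card = c) :
    (monomial α (1 : K)) • ceT B T ∈ gg B c :=
  Submodule.subset_span ⟨α, T, h, rfl⟩

theorem monomial_smul_gg (B : Fin N → Matrix (Fin N) (Fin N) K) (c : ℕ) (α : Fin N →₀ ℕ)
    {g : CD B} (hg : g ∈ gg B c) : (monomial α (1 : K)) • g ∈ gg B (2 * α.degree + c) := by
  induction hg using Submodule.span_induction with
  | mem x hx =>
    obtain ⟨β, T, h, rfl⟩ := hx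
    rw [smul_smul, monomial_mul, one_mul]
    refine mem_gg_of_eq B _ T ?_
    rw [map_add]
    omega
  | zero => simp
  | add x y _ _ hx hy => rw [smul_add]; exact add_mem hx hy
  | smul k x _ hx => rw [smul_comm]; exact Submodule.smul_mem _ _ hx

theorem ce_mul_gg (B : Fin N → Matrix (Fin N) (Fin N) K) (c : ℕ) (a : Fin N)
    {g : CD B} (hg : g ∈ gg B c) : ce B a * g ∈ gg B (c + 1) := by
  induction hg using Submodule.span_induction with
  | mem x hx =>
    obtain ⟨β, T, h, rfl⟩ := hx
    rw [mul_smul_comm]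
    have := monomial_smul_gg B (T.card + 1) β (ce_mul_ceT B a T)
    have e : 2 * β.degree + (T.card + 1) = c + 1 := by omega
    rwa [e] at this
  | zero => simp
  | add x y _ _ hx hy => rw [mul_add]; exact add_mem hx hy
  | smul k x _ hx => rw [mul_smul_comm]; exact Submodule.smul_mem _ _ hx

theorem ceT_mul_gg (B : Fin N → Matrix (Fin N) (Fin N) K) (c : ℕ) (T : Finset (Fin N))
    {g : CD B} (hg : g ∈ gg B c) : ceT B T * g ∈ gg B (T.card + c) := by
  have key : ∀ l : List (Fin N), (l.map (ce B)).prod * g ∈ gg B (l.length + c) := by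
    intro l
    induction l with
    | nil => simpa using hg
    | cons a l ih =>
      rw [List.map_cons, List.prod_cons, mul_assoc, List.length_cons]
      have := ce_mul_gg B _ a ih
      have e : l.length + c + 1 = l.length + 1 + c := by omega
      rwa [e] at this
  have := key (T.sort (· ≤ ·))
  rwa [Finset.length_sort] at this

theorem gg_mul_gg (B : Fin N → Matrix (Fin N) (Fin N) K) (c c' : ℕ)
    {f g : CD B} (hf : f ∈ gg B c) (hg : g ∈ gg B c') : f * g ∈ gg B (c + c') := by
  induction hf using Submodule.span_induction with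
  | mem x hx =>
    obtain ⟨β, T, h, rfl⟩ := hx
    rw [smul_mul_assoc]
    have := monomial_smul_gg B _ β (ceT_mul_gg B c' T hg)
    have e : 2 * β.degree + (T.card + c') = c + c' := by omega
    rwa [e] at this
  | zero => simp
  | add x y _ _ hx hy => rw [add_mul]; exact add_mem hx hy
  | smul k x _ hx => rw [smul_mul_assoc]; exact Submodule.smul_mem _ _ hx

theorem Phi_mem_gg (B : Fin N → Matrix (Fin N) (Fin N) K) (c : ℕ) (u : WW K N)
    (hu : u ∈ wgr K N c) : Phi B u ∈ gg B c := by
  rw [Phi_apply]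
  refine Submodule.sum_mem _ fun T _ => ?_
  by_cases hT : T.card ≤ c ∧ Even (c - T.card)
  · have h := (hu T).1 hT
    rw [← (u T).support_sum_monomial_coeff, Finset.sum_smul]
    refine Submodule.sum_mem _ fun α hα => ?_
    have hdeg : α.degree = (c - T.card) / 2 := by
      have := h (mem_support_iff.1 hα)
      rw [← this, Finsupp.degree_eq_weight_one]
      rfl
    have e : monomial α (coeff α (u T)) = (coeff α (u T)) • monomial α (1 : K) := by
      rw [smul_monomial, smul_eq_mul, mul_one]
    rw [e, smul_assoc]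
    refine Submodule.smul_mem _ _ (mem_gg_of_eq B α T ?_)
    obtain ⟨h1, r, hr⟩ := hT
    omega
  · rw [(hu T).2 hT, zero_smul]
    exact zero_mem _

theorem exists_of_mem_gg (B : Fin N → Matrix (Fin N) (Fin N) K) (c : ℕ) {x : CD B}
    (hx : x ∈ gg B c) : ∃ w ∈ wgr K N c, Phi B w = x := by
  classical
  induction hx using Submodule.span_induction with
  | mem x hx =>
    obtain ⟨α, T, h, rfl⟩ := hx
    refine ⟨Pi.single T (monomial α (1 : K)), ?_, ?_⟩
    · intro T'
      by_cases hT : T' = T
      · subst hT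
        refine ⟨fun h2 => ?_, fun h2 => ?_⟩
        · rw [Pi.single_eq_same]
          refine isHomogeneous_monomial _ ?_
          rw [← h]
          omega
        · exfalso
          apply h2
          refine ⟨by omega, ?_⟩
          rw [← h]
          simp
      · rw [Pi.single_eq_of_ne hT]
        exact ⟨fun _ => isHomogeneous_zero _ _ _, fun _ => rfl⟩
    · rw [Phi_apply, Finset.sum_eq_single T]
      · rw [Pi.single_eq_same]
      · intro T' _ hT
        rw [Pi.single_eq_of_ne hT, zero_smul]
      · intro h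
        exact absurd (Finset.mem_univ T) h
  | zero => exact ⟨0, zero_mem _, map_zero _⟩
  | add x y _ _ hx hy =>
    obtain ⟨w1, h1, rfl⟩ := hx
    obtain ⟨w2, h2, rfl⟩ := hy
    exact ⟨w1 + w2, add_mem h1 h2, map_add _ _ _⟩
  | smul k x _ hx =>
    obtain ⟨w1, h1, rfl⟩ := hx
    refine ⟨k • w1, Submodule.smul_mem _ _ h1, ?_⟩
    have : k • w1 = (C k : MvPolynomial (Fin N) K) • w1 := by
      funext T
      rw [Pi.smul_apply, Pi.smul_apply, smul_eq_mul, ← smul_eq_C_mul]
    rw [this, map_smul]
    rw [← algebraMap_eq, algebraMap_smul]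

/-- the order is a graded ring -/
theorem Phi_mul (B : Fin N → Matrix (Fin N) (Fin N) K) (c c' : ℕ) (u v : WW K N)
    (hu : u ∈ wgr K N c) (hv : v ∈ wgr K N c') :
    ∃ w ∈ wgr K N (c + c'), Phi B w = Phi B u * Phi B v :=
  exists_of_mem_gg B _ (gg_mul_gg B c c' (Phi_mem_gg B c u hu) (Phi_mem_gg B c' v hv))

/-- clearing denominators -/
theorem exists_smul_mem (B : Fin N → Matrix (Fin N) (Fin N) K) (x : CD B) (hx : x ≠ 0) :
    ∃ (p : MvPolynomial (Fin N) K) (u : WW K N), p ≠ 0 ∧ u ≠ 0 ∧ Phi B u = p • x := by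
  classical
  have hx' : x ∈ Submodule.span (LF K N) (Set.range (ceT B)) := by
    rw [(cd_basis B).2.2]; trivial
  rw [Submodule.mem_span_range_iff_exists_fun] at hx'
  obtain ⟨c, hc⟩ := hx'
  obtain ⟨p, hp⟩ := IsLocalization.exist_integer_multiples_of_finite
    (nonZeroDivisors (MvPolynomial (Fin N) K)) c
  choose u hu using hp
  have hp0 : (p : MvPolynomial (Fin N) K) ≠ 0 := nonZeroDivisors.coe_ne_zero p
  have hPhi : Phi B u = (p : MvPolynomial (Fin N) K) • x := by
    rw [Phi_apply, ← hc, Finset.smul_sum]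
    refine Finset.sum_congr rfl fun T _ => ?_
    rw [P_smul_eq, hu T]
    rw [smul_assoc]
  refine ⟨p, u, hp0, ?_, hPhi⟩
  rintro rfl
  rw [map_zero, P_smul_eq] at hPhi
  have := smul_eq_zero.1 hPhi.symm
  rcases this with h | h
  · exact hp0 ((IsFractionRing.injective (MvPolynomial (Fin N) K) (LF K N)) (by simpa using h))
  · exact hx h

end Vale.Agent.P200.Q
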