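import Vale.Agent.P200.Q.Dom1
import Vale.Agent.P200.Q.Dom2
import Vale.Agent.P200.Q.Dom3
import Vale.Agent.P200.Q.Dom4P
import Vale.Agent.P200.G.HilbBasic

/-! D5: the Clifford algebra of a complete intersection of quadrics is a division ring. -/

set_option linter.all false

namespace Vale.Agent.P200.Q

open MvPolynomial

universe u

variable {K : Type u} [Field K] {N : ℕ}

theorem Phi_smulK (B : Fin N → Matrix (Fin N) (Fin N) K) (k : K) (u : WW K N) :
    Phi B (k • u) = algebraMap K (CD B) k * Phi B u := by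
  have : k • u = (C k : MvPolynomial (Fin N) K) • u := by
    funext T
    rw [Pi.smul_apply, Pi.smul_apply, smul_eq_mul, ← smul_eq_C_mul]
  rw [this, map_smul, ← algebraMap_eq, algebraMap_smul, Algebra.smul_def]

theorem Phi_smulX (B : Fin N → Matrix (Fin N) (Fin N) K) (m : Fin N) (u : WW K N) :
    Phi B ((X m : MvPolynomial (Fin N) K) • u) = cy B m * Phi B u := by
  rw [map_smul, Algebra.smul_def]
  rfl

/-- left multiplication by `x` on the order, if it is stable -/
theorem exists_left (B : Fin N → Matrix (Fin N) (Fin N) K) (a : Fin N) :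
    ∃ E : WW K N →ₗ[MvPolynomial (Fin N) K] WW K N,
      (∀ u, Phi B (E u) = ce B a * Phi B u) := by
  classical
  have h : ∀ T : Finset (Fin N), ∃ w : WW K N, Phi B w = ce B a * ceT B T := by
    intro T
    obtain ⟨w, -, hw⟩ := exists_of_mem_gg B _ (ce_mul_ceT B a T)
    exact ⟨w, hw⟩
  choose w hw using h
  refine ⟨∑ T, (LinearMap.toSpanSingleton (MvPolynomial (Fin N) K) (WW K N) (w T)).comp
    (LinearMap.proj T), fun u => ?_⟩
  rw [LinearMap.sum_apply, map_sum, Phi_apply, Finset.mul_sum]
  refine Finset.sum_congr rfl fun T _ => ?_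
  rw [LinearMap.comp_apply, LinearMap.toSpanSingleton_apply, map_smul, hw, mul_smul_comm]
  rfl

/-- right multiplication by a homogeneous element of the order -/
theorem exists_right (B : Fin N → Matrix (Fin N) (Fin N) K) (α : ℕ) (a : WW K N)
    (ha : a ∈ wgr K N α) :
    ∃ R : WW K N →ₗ[MvPolynomial (Fin N) K] WW K N,
      (∀ u, Phi B (R u) = Phi B u * Phi B a) := by
  classical
  have h : ∀ T : Finset (Fin N), ∃ w : WW K N, Phi B w = ceT B T * Phi B a := by
    intro T
    obtain ⟨w, -, hw⟩ := exists_of_mem_gg B _ (ceT_mul_gg B α T (Phi_mem_gg B α a ha))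
    exact ⟨w, hw⟩
  choose w hw using h
  refine ⟨∑ T, (LinearMap.toSpanSingleton (MvPolynomial (Fin N) K) (WW K N) (w T)).comp
    (LinearMap.proj T), fun u => ?_⟩
  rw [LinearMap.sum_apply, map_sum, Phi_apply, Finset.sum_mul]
  refine Finset.sum_congr rfl fun T _ => ?_
  rw [LinearMap.comp_apply, LinearMap.toSpanSingleton_apply, map_smul, hw, smul_mul_assoc]
  rfl

/-- the order as a graded module over itself -/
noncomputable def gmodC (B : Fin N → Matrix (Fin N) (Fin N) K) : GMod B (WW K N) where
  E := fun a => (exists_left B a).choose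
  gr := wgr K N
  pr := wpr K N
  pr_self := wpr_self
  pr_ne := wpr_ne
  pr_y := wpr_y
  pr_y0 := wpr_y0
  cliff := by
    intro a b u
    apply Phi_injective B
    rw [map_add, (exists_left B a).choose_spec, (exists_left B b).choose_spec,
      (exists_left B b).choose_spec, (exists_left B a).choose_spec, ← mul_assoc, ← mul_assoc,
      ← add_mul, ce_cliff, Finset.sum_mul, map_sum]
    refine Finset.sum_congr rfl fun m _ => ?_
    rw [Phi_smulK, Phi_smulX, mul_assoc]
  sq := by
    intro a u
    apply Phi_injective B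
    rw [(exists_left B a).choose_spec, (exists_left B a).choose_spec, ← mul_assoc, ce_sq,
      Finset.sum_mul, map_sum]
    refine Finset.sum_congr rfl fun m _ => ?_
    rw [Phi_smulK, Phi_smulX, mul_assoc]

theorem gmodC_E (B : Fin N → Matrix (Fin N) (Fin N) K) (a : Fin N) (u : WW K N) :
    Phi B ((gmodC B).E a u) = ce B a * Phi B u := (exists_left B a).choose_spec u

theorem gmodC_E_mem (B : Fin N → Matrix (Fin N) (Fin N) K) (a : Fin N) (c : ℕ) (u : WW K N)
    (hu : u ∈ wgr K N c) : (gmodC B).E a u ∈ wgr K N (c + 1) := by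
  obtain ⟨w, hw, hw2⟩ := exists_of_mem_gg B _ (ce_mul_gg B c a (Phi_mem_gg B c u hu))
  have : (gmodC B).E a u = w := Phi_injective B (by rw [gmodC_E, hw2])
  rw [this]; exact hw

theorem smulX_mem (c : ℕ) (m : Fin N) (u : WW K N) (hu : u ∈ wgr K N c) :
    (X m : MvPolynomial (Fin N) K) • u ∈ wgr K N (c + 2) := by
  have := wpr_mem (c + 2) ((X m : MvPolynomial (Fin N) K) • u)
  rwa [wpr_y, wpr_self c u hu] at this

/-- lower bound for the growth of a nonzero graded `P`-submodule -/
theorem lower_bound (hN : 1 ≤ N) (M : ℕ → Submodule K (WW K N))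
    (hfin : ∀ c, FiniteDimensional K (M c))
    (hy : ∀ m c u, u ∈ M c → (X m : MvPolynomial (Fin N) K) • u ∈ M (c + 2))
    (β : ℕ) (b : WW K N) (hb : b ∈ M β) (hb0 : b ≠ 0) (m : ℕ) :
    (N - 1 + m).choose (N - 1) ≤ Module.finrank K (M (β + 2 * m)) := by
  have hmon : ∀ (n : ℕ) (α : Fin N →₀ ℕ), α.degree = n →
      (monomial α (1 : K)) • b ∈ M (β + 2 * n) := by
    intro n
    induction n with
    | zero =>
      intro α hα
      have : α = 0 := (Finsupp.degree_eq_zero_iff α).1 hα
      subst this
      simpa using hb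
    | succ n ih =>
      intro α hα
      have : α ≠ 0 := by rintro rfl; simp at hα
      obtain ⟨i, hi⟩ := Finsupp.ne_iff.1 this
      simp only [Finsupp.coe_zero, Pi.zero_apply] at hi
      have hle : Finsupp.single i 1 ≤ α := by
        rw [Finsupp.single_le_iff]; omega
      have e : α = Finsupp.single i 1 + (α - Finsupp.single i 1) := by
        rw [add_tsub_cancel_of_le hle]
      have hd : (α - Finsupp.single i 1).degree = n := by
        have := congrArg Finsupp.degree e
        rw [map_add, hα, Finsupp.degree_single] at this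
        omega
      have h2 := hy i _ _ (ih _ hd)
      rw [smul_smul, X, monomial_mul, one_mul, ← e] at h2
      have e2 : β + 2 * n + 2 = β + 2 * (n + 1) := by ring
      rwa [e2] at h2
  have hmap : ∀ p ∈ homogeneousSubmodule (Fin N) K m, p • b ∈ M (β + 2 * m) := by
    intro p hp
    rw [← p.support_sum_monomial_coeff, Finset.sum_smul]
    refine Submodule.sum_mem _ fun α hα => ?_
    have hdeg : α.degree = m := by
      have := hp (mem_support_iff.1 hα)
      rw [← this, Finsupp.degree_eq_weight_one]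
      rfl
    have e : monomial α (coeff α p) = (coeff α p) • monomial α (1 : K) := by
      rw [smul_monomial, smul_eq_mul, mul_one]
    rw [e, smul_assoc]
    exact Submodule.smul_mem _ _ (hmon m α hdeg)
  let f : homogeneousSubmodule (Fin N) K m →ₗ[K] M (β + 2 * m) :=
    LinearMap.codRestrict _ (((LinearMap.toSpanSingleton (MvPolynomial (Fin N) K) (WW K N)
      b).restrictScalars K).domRestrict _) (fun p => hmap p.1 p.2)
  have hf : Function.Injective f := by
    rw [← LinearMap.ker_eq_bot, LinearMap.ker_eq_bot']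
    intro p hp
    have h1 : (p : MvPolynomial (Fin N) K) • b = 0 := congrArg Subtype.val hp
    obtain ⟨T, hT⟩ := Function.ne_iff.1 hb0
    have h2 : (p : MvPolynomial (Fin N) K) * b T = 0 := congrFun h1 T
    rcases mul_eq_zero.1 h2 with h3 | h3
    · exact Subtype.ext h3
    · exact absurd h3 hT
  have h1 := LinearMap.finrank_le_finrank_of_injective hf
  rw [G.finrank_homogeneousSubmodule, Finset.card_finsuppAntidiag_nat_eq_choose] at h1
  have e : (Finset.univ : Finset (Fin N)).card + m - 1 = N - 1 + m := by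
    rw [Finset.card_univ, Fintype.card_fin]; omega
  rw [e] at h1
  refine le_trans (le_of_eq ?_) h1
  rw [← Nat.choose_symm_add, add_comm]

theorem no_hom_zero_div (B : Fin N → Matrix (Fin N) (Fin N) K) (hN : 1 ≤ N) (A : KData B)
    (α β : ℕ) (a b : WW K N) (ha : a ∈ wgr K N α) (hb : b ∈ wgr K N β) (ha0 : a ≠ 0)
    (hb0 : b ≠ 0) : Phi B b * Phi B a ≠ 0 := by
  intro hab
  obtain ⟨R, hR⟩ := exists_right B α a ha
  have hRmem : ∀ c, ∀ u ∈ wgr K N c, R u ∈ wgr K N (c + α) := by
    intro c u hu
    obtain ⟨w, hw, hw2⟩ := Phi_mul B c α u a hu ha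
    have : R u = w := Phi_injective B (by rw [hR, hw2])
    rw [this]; exact hw
  have hfinW : ∀ c, FiniteDimensional K (wgr K N c) := wgr_finite
  let RK : WW K N →ₗ[K] WW K N := R.restrictScalars K
  let M1 : ℕ → Submodule K (WW K N) := fun c => wgr K N c ⊓ LinearMap.ker RK
  let M2 : ℕ → Submodule K (WW K N) := fun c =>
    if α ≤ c then (wgr K N (c - α)).map RK else ⊥
  have hfin1 : ∀ c, FiniteDimensional K (M1 c) := fun c =>
    Submodule.finiteDimensional_of_le inf_le_left
  have hM2 : ∀ c, M2 (c + α) = (wgr K N c).map RK := by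
    intro c
    simp [M2]
  have hM2le : ∀ c, M2 c ≤ wgr K N c := by
    intro c
    by_cases h : α ≤ c
    · simp only [M2, if_pos h]
      rintro x ⟨u, hu, rfl⟩
      have := hRmem _ u hu
      rwa [Nat.sub_add_cancel h] at this
    · simp only [M2, if_neg h]
      exact bot_le
  have hfin2 : ∀ c, FiniteDimensional K (M2 c) := fun c =>
    Submodule.finiteDimensional_of_le (hM2le c)
  have hE1 : ∀ a' c u, u ∈ M1 c → (gmodC B).E a' u ∈ M1 (c + 1) := by
    intro a' c u hu
    refine ⟨gmodC_E_mem B a' c u hu.1, ?_⟩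
    have h0 : R u = 0 := hu.2
    show R _ = 0
    apply Phi_injective B
    rw [hR, gmodC_E, mul_assoc, ← hR, h0]
    simp
  have hy1 : ∀ m c u, u ∈ M1 c → (X m : MvPolynomial (Fin N) K) • u ∈ M1 (c + 2) := by
    intro m c u hu
    refine ⟨smulX_mem c m u hu.1, ?_⟩
    have h0 : R u = 0 := hu.2
    show R _ = 0
    rw [map_smul, h0, smul_zero]
  have hE2 : ∀ a' c u, u ∈ M2 c → (gmodC B).E a' u ∈ M2 (c + 1) := by
    intro a' c u hu
    by_cases h : α ≤ c
    · simp only [M2, if_pos h] at hu
      obtain ⟨v, hv, rfl⟩ := hu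
      have h' : α ≤ c + 1 := by omega
      simp only [M2, if_pos h']
      refine ⟨(gmodC B).E a' v, ?_, ?_⟩
      · have := gmodC_E_mem B a' _ v hv
        have e : c - α + 1 = c + 1 - α := by omega
        rwa [e] at this
      · show R _ = (gmodC B).E a' (R v)
        apply Phi_injective B
        rw [hR, gmodC_E, gmodC_E, hR, mul_assoc]
    · simp only [M2, if_neg h] at hu
      have : u = 0 := hu
      subst this
      rw [map_zero]
      exact zero_mem _
  have hy2 : ∀ m c u, u ∈ M2 c → (X m : MvPolynomial (Fin N) K) • u ∈ M2 (c + 2) := by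
    intro m c u hu
    by_cases h : α ≤ c
    · simp only [M2, if_pos h] at hu
      obtain ⟨v, hv, rfl⟩ := hu
      have h' : α ≤ c + 2 := by omega
      simp only [M2, if_pos h']
      refine ⟨(X m : MvPolynomial (Fin N) K) • v, ?_, ?_⟩
      · have := smulX_mem _ m v hv
        have e : c - α + 2 = c + 2 - α := by omega
        rwa [e] at this
      · show R _ = (X m : MvPolynomial (Fin N) K) • (R v)
        rw [map_smul]
    · simp only [M2, if_neg h] at hu
      have : u = 0 := hu
      subst this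
      rw [smul_zero]
      exact zero_mem _
  obtain ⟨c1, e1⟩ := euler A (gmodC B) M1 (fun c => inf_le_left) hfin1 hE1 hy1
  obtain ⟨c2, e2⟩ := euler A (gmodC B) M2 hM2le hfin2 hE2 hy2
  have hb1 : b ∈ M1 β := by
    refine ⟨hb, ?_⟩
    show R b = 0
    apply Phi_injective B
    rw [hR, hab, map_zero]
  have ha2 : a ∈ M2 α := by
    simp only [M2, le_refl, if_true, Nat.sub_self]
    obtain ⟨w, hw, hw2⟩ := exists_of_mem_gg B 0 (x := (1 : CD B))
      (by simpa [ceT] using mem_gg_of_eq B (c := 0) 0 ∅ (by simp))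
    refine ⟨w, hw, ?_⟩
    show R w = a
    apply Phi_injective B
    rw [hR, hw2, one_mul]
  refine growth_contra N hN (fun c => Module.finrank K (M1 c)) (fun c => Module.finrank K (M2 c))
    (max c1 c2) α β α (fun c hc => e1 c (le_trans (le_max_left _ _) hc))
    (fun c hc => e2 c (le_trans (le_max_right _ _) hc))
    (lower_bound hN M1 hfin1 hy1 β b hb1 hb0)
    (lower_bound hN M2 hfin2 hy2 α a ha2 ha0) ?_
  intro c
  show Module.finrank K (M1 c) + Module.finrank K (M2 (c + α)) = _
  rw [← finrank_wgr (K := K) hN c, hM2 c]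
  have h1 := LinearMap.finrank_range_add_finrank_ker (RK.domRestrict (wgr K N c))
  rw [LinearMap.range_domRestrict, LinearMap.ker_domRestrict] at h1
  have h2 : Module.finrank K (Submodule.comap (wgr K N c).subtype (LinearMap.ker RK)) =
      Module.finrank K (M1 c) := by
    rw [(Submodule.equivSubtypeMap (wgr K N c)
      (Submodule.comap (wgr K N c).subtype (LinearMap.ker RK))).finrank_eq,
      Submodule.map_comap_subtype]
  rw [h2] at h1
  omega

theorem exists_top (u : WW K N) (hu : u ≠ 0) :
    ∃ c, wpr K N c u ≠ 0 ∧ ∀ c', c < c' → wpr K N c' u = 0 := by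
  classical
  obtain ⟨n, hn⟩ := wpr_sum u
  have hz : ∀ c, n ≤ c → wpr K N c u = 0 := by
    intro c hc
    have h1 := hn c hc
    have h2 := hn (c + 1) (by omega)
    rw [Finset.sum_range_succ, h1] at h2
    simpa using h2
  by_contra hcon
  push Not at hcon
  have hall : ∀ k c, n ≤ c + k → wpr K N c u = 0 := by
    intro k
    induction k with
    | zero => intro c hc; exact hz c (by simpa using hc)
    | succ k ih =>
      intro c hc
      by_contra hne
      obtain ⟨c', h1, h2⟩ := hcon c hne
      exact h2 (ih c' (by omega))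
  apply hu
  rw [← hn n le_rfl]
  exact Finset.sum_eq_zero fun c _ => hall n c (by omega)

theorem cd_noZeroDivisors (B : Fin N → Matrix (Fin N) (Fin N) K) (hN : 1 ≤ N) (A : KData B) :
    NoZeroDivisors (CD B) := by
  classical
  refine ⟨fun {x z} hxz => ?_⟩
  by_contra hcon
  push Not at hcon
  obtain ⟨hx, hz⟩ := hcon
  obtain ⟨p, u, hp, hu, hpu⟩ := exists_smul_mem B x hx
  obtain ⟨q, v, hq, hv, hqv⟩ := exists_smul_mem B z hz
  have h0 : Phi B u * Phi B v = 0 := by
    rw [hpu, hqv, smul_mul_smul_comm, hxz, smul_zero]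
  obtain ⟨c1, h1, h1'⟩ := exists_top u hu
  obtain ⟨c2, h2, h2'⟩ := exists_top v hv
  obtain ⟨n1, hn1⟩ := wpr_sum u
  obtain ⟨n2, hn2⟩ := wpr_sum v
  have hw : ∀ c c', ∃ w ∈ wgr K N (c + c'),
      Phi B w = Phi B (wpr K N c u) * Phi B (wpr K N c' v) :=
    fun c c' => Phi_mul B c c' _ _ (wpr_mem c u) (wpr_mem c' v)
  choose w hw1 hw2 using hw
  have hsum : ∑ c ∈ Finset.range (max n1 (c1 + 1)), ∑ c' ∈ Finset.range (max n2 (c2 + 1)),
      w c c' = 0 := by
    apply Phi_injective B
    have hu' : Phi B u = ∑ c ∈ Finset.range (max n1 (c1 + 1)), Phi B (wpr K N c u) := by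
      rw [← map_sum, hn1 _ (le_max_left _ _)]
    have hv' : Phi B v = ∑ c ∈ Finset.range (max n2 (c2 + 1)), Phi B (wpr K N c v) := by
      rw [← map_sum, hn2 _ (le_max_left _ _)]
    rw [map_zero, ← h0, hu', hv', Finset.sum_mul, map_sum]
    refine Finset.sum_congr rfl fun c _ => ?_
    rw [map_sum, Finset.mul_sum]
    exact Finset.sum_congr rfl fun c' _ => hw2 c c'
  have hwz : ∀ c c', (c1 < c ∨ c2 < c') → w c c' = 0 := by
    intro c c' h
    apply Phi_injective B
    rw [hw2, map_zero]
    rcases h with h | h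
    · rw [h1' c h, map_zero, zero_mul]
    · rw [h2' c' h, map_zero, mul_zero]
  have hpr := congrArg (wpr K N (c1 + c2)) hsum
  rw [map_zero, map_sum, Finset.sum_eq_single c1, map_sum, Finset.sum_eq_single c2,
    wpr_self _ _ (hw1 c1 c2)] at hpr
  · have h3 := hw2 c1 c2
    rw [hpr, map_zero] at h3
    exact no_hom_zero_div B hN A c2 c1 _ _ (wpr_mem c2 v) (wpr_mem c1 u) h2 h1 h3.symm
  · intro c' _ hc'
    exact wpr_ne _ _ _ (hw1 c1 c') (by omega)
  · intro h
    exact absurd (Finset.mem_range.2 (lt_of_lt_of_le (Nat.lt_succ_self c2) (le_max_right _ _))) h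
  · intro c _ hc
    rw [map_sum]
    refine Finset.sum_eq_zero fun c' _ => ?_
    by_cases hcc : c + c' = c1 + c2
    · rw [hwz c c' (by omega), map_zero]
    · exact wpr_ne _ _ _ (hw1 c c') hcc
  · intro h
    exact absurd (Finset.mem_range.2 (lt_of_lt_of_le (Nat.lt_succ_self c1) (le_max_right _ _))) h

/-- OUTPUT of the block. -/
theorem exists_divisionRing (B : Fin N → Matrix (Fin N) (Fin N) K)
    (F : Fin N → MvPolynomial (Fin N) K)
    (hF : ∀ m, F m = ∑ a, ∑ b, C (B m a b) * X a * X b)
    (hsyz : ∀ g : Fin N → MvPolynomial (Fin N) K, ∑ m, F m * g m = 0 →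
      ∀ m, g m ∈ Ideal.span (Set.range F))
    (hdim : ∀ j, hilb (Ideal.span (Set.range F)) j = N.choose j) :
    ∃ (D : Type u) (_ : DivisionRing D) (_ : Algebra K D) (e y : Fin N → D),
      (∀ m z, y m * z = z * y m) ∧
      (∀ a b, e a * e b + e b * e a = ∑ m, algebraMap K D (B m a b + B m b a) * y m) ∧
      (∀ a, e a * e a = ∑ m, algebraMap K D (B m a a) * y m) ∧
      LinearIndependent K (fun T : Finset (Fin N) => ((T.sort (· ≤ ·)).map e).prod) := by
  obtain ⟨A⟩ := exists_kdata B F hF hsyz hdim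
  rcases Nat.eq_zero_or_pos N with hN | hN
  · subst hN
    refine ⟨K, inferInstance, inferInstance, fun i => i.elim0, fun i => i.elim0,
      fun i => i.elim0, fun i => i.elim0, fun i => i.elim0, ?_⟩
    rw [linearIndependent_unique_iff]
    simp
  · have hnz := cd_noZeroDivisors B hN A
    have hfd := (cd_basis B).1
    have hli := (cd_basis B).2.1
    have hnt : Nontrivial (CD B) := ⟨⟨ceT B ∅, 0, hli.ne_zero ∅⟩⟩
    have hdom : IsDomain (CD B) := NoZeroDivisors.to_isDomain _
    refine ⟨CD B, divisionRingOfFiniteDimensional (LF K N) (CD B), inferInstance, ce B, cy B,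
      ?_, ?_, ?_, ?_⟩
    · intro m z
      exact Algebra.commutes _ _
    · exact ce_cliff B
    · exact ce_sq B
    · refine LinearIndependent.restrict_scalars ?_ hli
      intro r s hrs
      simpa using hrs

end Vale.Agent.P200.Q
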