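import Vale.Agent.P200.G.CLMain

/-! From a shadow-closed family of finite sets to the growth inequality. -/

namespace Vale.Agent.P200.Q

open MvPolynomial Vale.Agent.P200.G

variable {K : Type*} [Field K] {n : ℕ}

/-- The indicator exponent. -/
def ind (T : Finset (Fin n)) : Fin n → ℕ := fun i => if i ∈ T then 1 else 0

theorem ind_injective : Function.Injective (ind (n := n)) := by
  intro S T h
  ext i
  have h1 := congrFun h i
  unfold ind at h1
  by_cases hS : i ∈ S <;> by_cases hT : i ∈ T <;> simp [hS, hT] at h1 ⊢

theorem sum_ind (T : Finset (Fin n)) : ∑ i, ind T i = T.card := by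
  unfold ind
  rw [Finset.sum_ite_mem, Finset.univ_inter, Finset.sum_const, smul_eq_mul, mul_one]

theorem ind_mem_boxD {T : Finset (Fin n)} {d : ℕ} (h : T.card = d) :
    ind T ∈ boxD (fun _ : Fin n => 2) d := by
  rw [mem_boxD]
  constructor
  · intro i
    unfold ind
    split_ifs <;> omega
  · rw [sum_ind, h]

theorem card_boxD_two (d : ℕ) : (boxD (fun _ : Fin n => 2) d).card = n.choose d := by
  have h1 : boxD (fun _ : Fin n => 2) d =
      (Finset.univ.powersetCard d).image (ind (n := n)) := by
    ext m
    rw [Finset.mem_image]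
    constructor
    · intro hm
      obtain ⟨h1, h2⟩ := mem_boxD.1 hm
      have h3 : ind (Finset.univ.filter fun i => m i = 1) = m := by
        funext i
        have := h1 i
        unfold ind
        simp only [Finset.mem_filter, Finset.mem_univ, true_and]
        split_ifs with h <;> omega
      refine ⟨Finset.univ.filter fun i => m i = 1, ?_, h3⟩
      rw [Finset.mem_powersetCard]
      refine ⟨Finset.subset_univ _, ?_⟩
      have h4 := sum_ind (Finset.univ.filter fun i => m i = 1)
      rw [h3, h2] at h4
      exact h4.symm
    · rintro ⟨T, hT, rfl⟩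
      exact ind_mem_boxD (Finset.mem_powersetCard.1 hT).2
  rw [h1, Finset.card_image_of_injective _ ind_injective, Finset.card_powersetCard,
    Finset.card_univ, Fintype.card_fin]

theorem egh_of_leading (I : Ideal (MvPolynomial (Fin n) K))
    (M : ℕ → Finset (Finset (Fin n))) (hM : ∀ d, ∀ T ∈ M d, T.card = d)
    (hcard : ∀ d, (M d).card + hilb I d = n.choose d)
    (hsh : ∀ d, ∀ T ∈ M d, ∀ i ∉ T, insert i T ∈ M (d + 1)) : EGH (fun _ => 2) I := by
  classical
  intro d
  have hsub : (M d).image (ind (n := n)) ⊆ boxD (fun _ : Fin n => 2) d := by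
    intro m hm
    obtain ⟨T, hT, rfl⟩ := Finset.mem_image.1 hm
    exact ind_mem_boxD (hM d T hT)
  have h1 := clementsLindstrom (fun _ : Fin n => 2) (fun _ _ _ => le_rfl) d _ hsub
  rw [Finset.card_image_of_injective _ ind_injective] at h1
  have h2 : upShadow (fun _ : Fin n => 2) ((M d).image (ind (n := n))) ⊆
      (M (d + 1)).image (ind (n := n)) := by
    intro y hy
    obtain ⟨hy1, m, hm, i, rfl⟩ := mem_upShadow.1 hy
    obtain ⟨T, hT, rfl⟩ := Finset.mem_image.1 hm
    have hi : i ∉ T := by
      intro hi
      have h3 := hy1 i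
      rw [Function.update_self] at h3
      unfold ind at h3
      rw [if_pos hi] at h3
      omega
    refine Finset.mem_image.2 ⟨insert i T, hsh d T hT i hi, ?_⟩
    funext j
    rcases eq_or_ne j i with rfl | hj
    · rw [Function.update_self]
      unfold ind
      rw [if_pos (Finset.mem_insert_self _ _), if_neg hi]
    · rw [Function.update_of_ne hj]
      unfold ind
      simp [Finset.mem_insert, hj]
  have h3 := Finset.card_le_card h2
  rw [Finset.card_image_of_injective _ ind_injective] at h3
  have h4 := hcard d
  have h5 := hcard (d + 1)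
  rw [card_boxD_two, card_boxD_two]
  have h6 : n.choose d - hilb I d = (M d).card := by omega
  rw [h6]
  omega

end Vale.Agent.P200.Q
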