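import Mathlib

/-! Leading index sets over a division ring, and an exterior-algebra argument. -/

namespace Vale.Agent.P200.Q

open Module

section Echelon

variable {D ι : Type*} [DivisionRing D] [Fintype ι]

private def trunc (w : ι → ℕ) (J : Submodule D (ι → D)) (m : ℕ) : Submodule D (ι → D) :=
  J ⊓ ⨅ t : {t : ι // m ≤ w t}, LinearMap.ker (LinearMap.proj (R := D) (φ := fun _ : ι => D) t.1)

omit [Fintype ι] in
private theorem mem_trunc {w : ι → ℕ} {J : Submodule D (ι → D)} {m : ℕ} {c : ι → D} :
    c ∈ trunc w J m ↔ c ∈ J ∧ ∀ t, m ≤ w t → c t = 0 := by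
  simp [trunc]

theorem echelon (w : ι → ℕ) (hw : Function.Injective w) (J : Submodule D (ι → D)) :
    ∃ M : Finset ι, (∀ t, t ∈ M ↔ ∃ c ∈ J, c t ≠ 0 ∧ ∀ t', w t < w t' → c t' = 0) ∧
      M.card = finrank D J := by
  classical
  set P : ι → Prop := fun t => ∃ c ∈ J, c t ≠ 0 ∧ ∀ t', w t < w t' → c t' = 0 with hP
  have key : ∀ m, finrank D (trunc w J m) = (Finset.univ.filter fun t => w t < m ∧ P t).card := by
    intro m
    induction m with
    | zero =>
      have h1 : trunc w J 0 = ⊥ := by
        rw [Submodule.eq_bot_iff]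
        intro c hc
        funext t
        exact (mem_trunc.1 hc).2 t (Nat.zero_le _)
      rw [h1, finrank_bot]
      simp
    | succ m ih =>
      by_cases hex : ∃ t, w t = m
      · obtain ⟨t, ht⟩ := hex
        let f : ↥(trunc w J (m + 1)) →ₗ[D] D :=
          (LinearMap.proj (R := D) (φ := fun _ : ι => D) t).domRestrict _
        have hf := LinearMap.finrank_range_add_finrank_ker f
        have hle : trunc w J m ≤ trunc w J (m + 1) := by
          intro c hc
          rw [mem_trunc] at hc ⊢
          exact ⟨hc.1, fun t ht => hc.2 t (by omega)⟩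
        have hker : LinearMap.ker f = (trunc w J m).comap (trunc w J (m + 1)).subtype := by
          ext ⟨c, hc⟩
          rw [LinearMap.mem_ker, Submodule.mem_comap]
          have hfc : f ⟨c, hc⟩ = c t := rfl
          rw [hfc, Submodule.subtype_apply, mem_trunc]
          rw [mem_trunc] at hc
          constructor
          · intro h
            refine ⟨hc.1, fun t' ht' => ?_⟩
            rcases ht'.eq_or_lt with h' | h'
            · rw [← ht] at h'
              rw [← hw h']
              exact h
            · exact hc.2 t' h'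
          · intro h
            exact h.2 t ht.ge
        have hk2 : finrank D (LinearMap.ker f) = finrank D (trunc w J m) := by
          rw [hker]
          exact LinearEquiv.finrank_eq (Submodule.comapSubtypeEquivOfLe hle)
        have hsplit : (Finset.univ.filter fun t => w t < m + 1 ∧ P t) =
            (Finset.univ.filter fun t => w t < m ∧ P t) ∪ (if P t then {t} else ∅) := by
          ext s
          rw [Finset.mem_union, Finset.mem_filter, Finset.mem_filter]
          constructor
          · rintro ⟨-, h1, h2⟩
            rcases Nat.lt_succ_iff_lt_or_eq.1 h1 with h | h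
            · exact Or.inl ⟨Finset.mem_univ _, h, h2⟩
            · have : s = t := hw (by rw [h, ht])
              subst this
              right
              rw [if_pos h2]
              exact Finset.mem_singleton_self _
          · rintro (⟨-, h1, h2⟩ | h)
            · exact ⟨Finset.mem_univ _, by omega, h2⟩
            · split_ifs at h with hPt
              · rw [Finset.mem_singleton] at h
                subst h
                exact ⟨Finset.mem_univ _, by omega, hPt⟩
              · exact absurd h (Finset.notMem_empty _)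
        have hdisj : Disjoint (Finset.univ.filter fun t => w t < m ∧ P t)
            (if P t then {t} else ∅) := by
          split_ifs
          · rw [Finset.disjoint_singleton_right, Finset.mem_filter]
            rintro ⟨-, h, -⟩
            omega
          · exact Finset.disjoint_empty_right _
        rw [hsplit, Finset.card_union_of_disjoint hdisj, ← ih, ← hk2, ← hf, add_comm]
        congr 1
        by_cases hPt : P t
        · rw [if_pos hPt, Finset.card_singleton]
          obtain ⟨c, hcJ, hct, hc0⟩ := hPt
          have hcm : c ∈ trunc w J (m + 1) := mem_trunc.2 ⟨hcJ, fun t' ht' => hc0 t' (by omega)⟩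
          have htop : LinearMap.range f = ⊤ := by
            rw [eq_top_iff]
            rintro x -
            refine ⟨(x * (c t)⁻¹) • ⟨c, hcm⟩, ?_⟩
            rw [map_smul]
            change (x * (c t)⁻¹) • c t = x
            rw [smul_eq_mul, mul_assoc, inv_mul_cancel₀ hct, mul_one]
          rw [htop, finrank_top, finrank_self]
        · rw [if_neg hPt, Finset.card_empty]
          have hbot : LinearMap.range f = ⊥ := by
            rw [LinearMap.range_eq_bot]
            ext ⟨c, hc⟩
            have hfc : f ⟨c, hc⟩ = c t := rfl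
            rw [hfc, LinearMap.zero_apply]
            rw [mem_trunc] at hc
            by_contra h0
            exact hPt ⟨c, hc.1, h0, fun t' ht' => hc.2 t' (by omega)⟩
          rw [hbot, finrank_bot]
      · have h1 : trunc w J (m + 1) = trunc w J m := by
          ext c
          rw [mem_trunc, mem_trunc]
          constructor
          · rintro ⟨h1, h2⟩
            refine ⟨h1, fun t ht => ?_⟩
            rcases ht.eq_or_lt with h' | h'
            · exact absurd ⟨t, h'.symm⟩ hex
            · exact h2 t h'
          · rintro ⟨h1, h2⟩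
            exact ⟨h1, fun t ht => h2 t (by omega)⟩
        rw [h1, ih]
        congr 1
        ext t
        rw [Finset.mem_filter, Finset.mem_filter]
        constructor
        · rintro ⟨h1, h2, h3⟩
          exact ⟨h1, by omega, h3⟩
        · rintro ⟨h1, h2, h3⟩
          refine ⟨h1, ?_, h3⟩
          rcases Nat.lt_succ_iff_lt_or_eq.1 h2 with h | h
          · exact h
          · exact absurd ⟨t, h⟩ hex
  refine ⟨Finset.univ.filter P, fun t => by simp [hP], ?_⟩
  have h1 : trunc w J (Finset.univ.sup w + 1) = J := by
    ext c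
    rw [mem_trunc]
    refine ⟨fun h => h.1, fun h => ⟨h, fun t ht => ?_⟩⟩
    have := Finset.le_sup (f := w) (Finset.mem_univ t)
    omega
  have h2 := key (Finset.univ.sup w + 1)
  rw [h1] at h2
  rw [h2]
  congr 1
  ext t
  rw [Finset.mem_filter, Finset.mem_filter]
  have := Finset.le_sup (f := w) (Finset.mem_univ t)
  constructor
  · rintro ⟨h1, h2⟩
    exact ⟨h1, by omega, h2⟩
  · rintro ⟨h1, h2, h3⟩
    exact ⟨h1, h3⟩

end Echelon

section Ext

variable {D R : Type*} [DivisionRing D] [Ring R] [Module D R] [IsScalarTower D R R] {n : ℕ}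

/-- Product of a list of the generators. -/
def pr (ξ : Fin n → R) (l : List (Fin n)) : R := (l.map ξ).prod

/-- The product attached to a finite set. -/
noncomputable def xi (ξ : Fin n → R) (T : Finset (Fin n)) : R := pr ξ T.toList

theorem pr_nil (ξ : Fin n → R) : pr ξ [] = 1 := rfl

theorem pr_cons (ξ : Fin n → R) (i : Fin n) (l : List (Fin n)) : pr ξ (i :: l) = ξ i * pr ξ l := by
  simp [pr]

theorem pr_append (ξ : Fin n → R) (l l' : List (Fin n)) : pr ξ (l ++ l') = pr ξ l * pr ξ l' := by
  simp [pr]

theorem pr_perm {ξ : Fin n → R} (hanti : ∀ i j, ξ i * ξ j = -(ξ j * ξ i)) {l l' : List (Fin n)}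
    (h : l.Perm l') : pr ξ l = pr ξ l' ∨ pr ξ l = -pr ξ l' := by
  induction h with
  | nil => exact Or.inl rfl
  | cons x _ ih =>
    rw [pr_cons, pr_cons]
    rcases ih with h | h
    · exact Or.inl (by rw [h])
    · exact Or.inr (by rw [h, mul_neg])
  | swap x y l =>
    right
    rw [pr_cons, pr_cons, pr_cons, pr_cons, ← mul_assoc, ← mul_assoc, hanti, neg_mul]
  | trans _ _ ih1 ih2 =>
    rcases ih1 with h1 | h1 <;> rcases ih2 with h2 | h2
    · exact Or.inl (by rw [h1, h2])
    · exact Or.inr (by rw [h1, h2])
    · exact Or.inr (by rw [h1, h2])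
    · exact Or.inl (by rw [h1, h2, neg_neg])

theorem pr_not_nodup {ξ : Fin n → R} (hsq : ∀ i, ξ i * ξ i = 0)
    (hanti : ∀ i j, ξ i * ξ j = -(ξ j * ξ i)) {l : List (Fin n)} (h : ¬ l.Nodup) :
    pr ξ l = 0 := by
  obtain ⟨a, ha⟩ := List.exists_duplicate_iff_not_nodup.2 h
  have h2 : [a, a].Sublist l := List.duplicate_iff_sublist.1 ha
  obtain ⟨l', hl'⟩ : ∃ l', l.Perm ([a, a] ++ l') := by
    exact h2.exists_perm_append
  have h3 : pr ξ ([a, a] ++ l') = 0 := by
    rw [pr_append, pr_cons, pr_cons, pr_nil, mul_one, hsq, zero_mul]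
  rcases pr_perm hanti hl' with h | h
  · rw [h, h3]
  · rw [h, h3, neg_zero]

theorem xi_mul_of_notMem {ξ : Fin n → R} (hanti : ∀ i j, ξ i * ξ j = -(ξ j * ξ i))
    {T : Finset (Fin n)} {i : Fin n} (hi : i ∉ T) :
    xi ξ T * ξ i = xi ξ (insert i T) ∨ xi ξ T * ξ i = -xi ξ (insert i T) := by
  have h1 : xi ξ T * ξ i = pr ξ (T.toList ++ [i]) := by
    rw [pr_append, pr_cons, pr_nil, mul_one]
    rfl
  have h2 : (T.toList ++ [i]).Perm (insert i T).toList := by
    have h3 := Finset.toList_insert hi
    exact (List.perm_append_singleton i T.toList).trans h3.symm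
  rw [h1]
  exact pr_perm hanti h2

theorem xi_mul_of_mem {ξ : Fin n → R} (hsq : ∀ i, ξ i * ξ i = 0)
    (hanti : ∀ i j, ξ i * ξ j = -(ξ j * ξ i))
    {T : Finset (Fin n)} {i : Fin n} (hi : i ∈ T) : xi ξ T * ξ i = 0 := by
  have h1 : xi ξ T * ξ i = pr ξ (T.toList ++ [i]) := by
    rw [pr_append, pr_cons, pr_nil, mul_one]
    rfl
  rw [h1]
  apply pr_not_nodup hsq hanti
  intro h
  rw [List.nodup_append] at h
  exact h.2.2 i (Finset.mem_toList.2 hi) i (by simp) rfl

theorem xi_mul_xi_compl {ξ : Fin n → R} (hsq : ∀ i, ξ i * ξ i = 0)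
    (hanti : ∀ i j, ξ i * ξ j = -(ξ j * ξ i)) {T T0 : Finset (Fin n)}
    (hcard : T.card = T0.card) (hne : T ≠ T0) : xi ξ T * xi ξ T0ᶜ = 0 := by
  have h1 : xi ξ T * xi ξ T0ᶜ = pr ξ (T.toList ++ T0ᶜ.toList) := by
    rw [pr_append]
    rfl
  rw [h1]
  apply pr_not_nodup hsq hanti
  intro h
  rw [List.nodup_append] at h
  have h2 : T ⊆ T0 := by
    intro a ha
    by_contra h0
    exact h.2.2 a (Finset.mem_toList.2 ha) a (Finset.mem_toList.2 (Finset.mem_compl.2 h0)) rfl
  exact hne (Finset.eq_of_subset_of_card_le h2 hcard.ge)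

theorem xi_mul_xi_compl_self {ξ : Fin n → R} 
    (hanti : ∀ i j, ξ i * ξ j = -(ξ j * ξ i)) (htop : pr ξ (List.finRange n) ≠ 0)
    (T : Finset (Fin n)) : xi ξ T * xi ξ Tᶜ ≠ 0 := by
  have h1 : xi ξ T * xi ξ Tᶜ = pr ξ (T.toList ++ Tᶜ.toList) := by
    rw [pr_append]
    rfl
  have h2 : (T.toList ++ Tᶜ.toList).Perm (List.finRange n) := by
    rw [List.perm_ext_iff_of_nodup]
    · intro a
      simp only [List.mem_append, Finset.mem_toList, Finset.mem_compl, List.mem_finRange,
        iff_true]
      exact em _
    · rw [List.nodup_append]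
      refine ⟨Finset.nodup_toList _, Finset.nodup_toList _, ?_⟩
      intro a ha b hb hab
      subst hab
      exact (Finset.mem_compl.1 (Finset.mem_toList.1 hb)) (Finset.mem_toList.1 ha)
    · exact List.nodup_finRange n
  rw [h1]
  intro h0
  rcases pr_perm hanti h2 with h | h
  · exact htop (by rw [← h, h0])
  · exact htop (by rw [← neg_eq_zero, ← h, h0])

/-- independence of the products in one degree -/
theorem xi_indep {ξ : Fin n → R} (hsq : ∀ i, ξ i * ξ i = 0)
    (hanti : ∀ i j, ξ i * ξ j = -(ξ j * ξ i)) (htop : pr ξ (List.finRange n) ≠ 0)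
    {d : ℕ} {c : Finset (Fin n) → D} (hc : ∀ T, T.card ≠ d → c T = 0)
    (h : ∑ T, c T • xi ξ T = 0) (T0 : Finset (Fin n)) : c T0 = 0 := by
  classical
  by_cases hd : T0.card = d
  · have h1 : (∑ T, c T • xi ξ T) * xi ξ T0ᶜ = 0 := by rw [h, zero_mul]
    rw [Finset.sum_mul, Finset.sum_eq_single T0] at h1
    · rw [smul_mul_assoc] at h1
      rcases smul_eq_zero.1 h1 with h2 | h2
      · exact h2
      · exact absurd h2 (xi_mul_xi_compl_self hanti htop T0)
    · intro T _ hT
      by_cases hTd : T.card = d
      · rw [smul_mul_assoc, xi_mul_xi_compl hsq hanti (hTd.trans hd.symm) hT, smul_zero]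
      · rw [hc T hTd, zero_smul, zero_mul]
    · intro h
      exact absurd (Finset.mem_univ _) h
  · exact hc T0 hd

private def wt (T : Finset (Fin n)) : ℕ := ∑ i ∈ T, 2 ^ i.1

private theorem wt_injective : Function.Injective (wt (n := n)) := by
  intro S T h
  have h1 : ∀ U : Finset (Fin n), wt U = ∑ i ∈ U.map Fin.valEmbedding, 2 ^ i := by
    intro U
    rw [Finset.sum_map]
    rfl
  rw [h1, h1] at h
  exact Finset.map_injective _ (Finset.geomSum_injective le_rfl h)

private theorem wt_insert {T : Finset (Fin n)} {i : Fin n} (hi : i ∉ T) :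
    wt (insert i T) = 2 ^ i.1 + wt T := Finset.sum_insert hi

theorem ext_leading {ξ : Fin n → R} (hsq : ∀ i, ξ i * ξ i = 0)
    (hanti : ∀ i j, ξ i * ξ j = -(ξ j * ξ i)) (htop : pr ξ (List.finRange n) ≠ 0)
    (Rg : ℕ → Submodule D R) (hfin : ∀ d, Module.Finite D (Rg d))
    (hdim : ∀ d, finrank D (Rg d) = n.choose d)
    (hmem : ∀ T : Finset (Fin n), xi ξ T ∈ Rg T.card)
    (J : ℕ → Submodule D R) (hJ : ∀ d, J d ≤ Rg d)
    (hmul : ∀ d i, ∀ u ∈ J d, u * ξ i ∈ J (d + 1)) :
    ∃ M : ℕ → Finset (Finset (Fin n)), (∀ d, ∀ T ∈ M d, T.card = d) ∧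
      (∀ d, (M d).card = finrank D (J d)) ∧
      ∀ d, ∀ T ∈ M d, ∀ i ∉ T, insert i T ∈ M (d + 1) := by
  classical
  let L : (Finset (Fin n) → D) →ₗ[D] R := Fintype.linearCombination D (xi ξ)
  have hL : ∀ c, L c = ∑ T, c T • xi ξ T := fun c => Fintype.linearCombination_apply _ _ _
  let V : ℕ → Submodule D (Finset (Fin n) → D) := fun d =>
    ⨅ t : {T : Finset (Fin n) // T.card ≠ d},
      LinearMap.ker (LinearMap.proj (R := D) (φ := fun _ : Finset (Fin n) => D) t.1)
  have hV : ∀ d c, c ∈ V d ↔ ∀ T, T.card ≠ d → c T = 0 := by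
    intro d c
    simp [V]
  have hinj : ∀ d, ∀ c ∈ V d, L c = 0 → c = 0 := by
    intro d c hc h0
    funext T
    exact xi_indep hsq hanti htop ((hV d c).1 hc) (by rw [← hL]; exact h0) T
  -- the image of `V d` is `Rg d`
  have himg : ∀ d, (V d).map L = Rg d := by
    intro d
    have hle : (V d).map L ≤ Rg d := by
      rintro _ ⟨c, hc, rfl⟩
      rw [hL]
      apply Submodule.sum_mem
      intro T _
      by_cases hT : T.card = d
      · subst hT
        exact Submodule.smul_mem _ _ (hmem T)
      · rw [(hV d c).1 hc T hT, zero_smul]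
        exact Submodule.zero_mem _
    refine Submodule.eq_of_le_of_finrank_le hle ?_
    rw [hdim]
    have h1 : finrank D ((V d).map L) = finrank D (V d) := by
      let g : ↥(V d) →ₗ[D] R := L.domRestrict (V d)
      have hg : Function.Injective g := by
        rw [← LinearMap.ker_eq_bot, LinearMap.ker_eq_bot']
        rintro ⟨c, hc⟩ h0
        exact Subtype.ext (hinj d c hc h0)
      have h2 : (V d).map L = LinearMap.range g := by
        rw [LinearMap.range_domRestrict]
      rw [h2]
      exact LinearMap.finrank_range_of_inj hg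
    rw [h1]
    -- dimension of `V d`
    let e : {T : Finset (Fin n) // T.card = d} → ↥(V d) := fun T =>
      ⟨Pi.single T.1 1, (hV d _).2 fun S hS => Pi.single_eq_of_ne (by
        rintro rfl
        exact hS T.2) _⟩
    have hli : LinearIndependent D e := by
      have h3 : LinearIndependent D (fun T : {T : Finset (Fin n) // T.card = d} =>
          (Pi.single T.1 (1 : D) : Finset (Fin n) → D)) :=
        (Pi.linearIndependent_single_one (Finset (Fin n)) D).comp _ Subtype.val_injective
      exact LinearIndependent.of_comp (V d).subtype h3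
    have h4 := hli.fintype_card_le_finrank
    refine le_trans (le_of_eq ?_) h4
    rw [Fintype.card_finset_len, Fintype.card_fin]
  let J' : ℕ → Submodule D (Finset (Fin n) → D) := fun d => (J d).comap L ⊓ V d
  have hJ' : ∀ d, finrank D (J' d) = finrank D (J d) := by
    intro d
    let g : ↥(J' d) →ₗ[D] R := L.domRestrict (J' d)
    have hg : Function.Injective g := by
      rw [← LinearMap.ker_eq_bot, LinearMap.ker_eq_bot']
      rintro ⟨c, hc⟩ h0
      exact Subtype.ext (hinj d c hc.2 h0)
    have h2 : J d = LinearMap.range g := by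
      rw [LinearMap.range_domRestrict]
      ext u
      constructor
      · intro hu
        have h3 := hJ d hu
        rw [← himg d] at h3
        obtain ⟨c, hc, rfl⟩ := h3
        exact ⟨c, ⟨hu, hc⟩, rfl⟩
      · rintro ⟨c, hc, rfl⟩
        exact hc.1
    rw [h2]
    exact (LinearMap.finrank_range_of_inj hg).symm
  choose M hM hMc using fun d => echelon (wt (n := n)) wt_injective (J' d)
  refine ⟨M, ?_, fun d => (hMc d).trans (hJ' d), ?_⟩
  · intro d T hT
    obtain ⟨c, hc, h0, -⟩ := (hM d T).1 hT
    by_contra h
    exact h0 ((hV d c).1 hc.2 T h)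
  · intro d T hT i hi
    obtain ⟨c, hc, hcT, hc0⟩ := (hM d T).1 hT
    -- signs
    have hsgn : ∀ U : Finset (Fin n), ∃ ε : D, ε ≠ 0 ∧ (i ∉ U → xi ξ U * ξ i =
        ε • xi ξ (insert i U)) := by
      intro U
      by_cases hU : i ∈ U
      · exact ⟨1, one_ne_zero, fun h => absurd hU h⟩
      · rcases xi_mul_of_notMem hanti hU with h | h
        · exact ⟨1, one_ne_zero, fun _ => by rw [h, one_smul]⟩
        · exact ⟨-1, neg_ne_zero.2 one_ne_zero, fun _ => by rw [h, neg_smul, one_smul]⟩
    choose ε hε0 hε using hsgn
    rw [hM]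
    refine ⟨fun U => if i ∈ U then c (U.erase i) * ε (U.erase i) else 0, ⟨?_, ?_⟩, ?_, ?_⟩
    · refine Submodule.mem_comap.2 ?_
      have h1 : L (fun U => if i ∈ U then c (U.erase i) * ε (U.erase i) else 0) =
          L c * ξ i := by
        rw [hL, hL, Finset.sum_mul]
        have h2 : ∑ U : Finset (Fin n), c U • xi ξ U * ξ i =
            ∑ U ∈ Finset.univ.filter (fun U : Finset (Fin n) => i ∉ U),
              c U • xi ξ U * ξ i := by
          rw [Finset.sum_filter_of_ne]
          intro U _ h3 hU
          apply h3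
          rw [smul_mul_assoc, xi_mul_of_mem hsq hanti hU, smul_zero]
        have h3 : ∑ U : Finset (Fin n),
            (if i ∈ U then c (U.erase i) * ε (U.erase i) else 0) • xi ξ U =
            ∑ U ∈ Finset.univ.filter (fun U : Finset (Fin n) => i ∈ U),
              (c (U.erase i) * ε (U.erase i)) • xi ξ U := by
          rw [Finset.sum_filter]
          apply Finset.sum_congr rfl
          intro U _
          split_ifs
          · rfl
          · rw [zero_smul]
        rw [h2, h3]
        refine Finset.sum_nbij' (fun U => U.erase i) (fun U => insert i U) ?_ ?_ ?_ ?_ ?_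
        · intro U _
          simp
        · intro U _
          simp
        · intro U hU
          exact Finset.insert_erase (Finset.mem_filter.1 hU).2
        · intro U hU
          exact Finset.erase_insert (Finset.mem_filter.1 hU).2
        · intro U hU
          have hU' := (Finset.mem_filter.1 hU).2
          rw [smul_mul_assoc, hε (U.erase i) (Finset.notMem_erase _ _),
            Finset.insert_erase hU', smul_smul]
      rw [h1]
      exact hmul d i _ hc.1
    · refine (hV _ _).2 ?_
      intro U hU
      change (if i ∈ U then c (U.erase i) * ε (U.erase i) else 0) = 0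
      split_ifs with h
      · rw [(hV d c).1 hc.2 (U.erase i), zero_mul]
        rw [Finset.card_erase_of_mem h]
        have := Finset.card_pos.2 ⟨i, h⟩
        omega
      · rfl
    · change (if i ∈ insert i T then c ((insert i T).erase i) * ε ((insert i T).erase i)
        else 0) ≠ 0
      rw [if_pos (Finset.mem_insert_self _ _), Finset.erase_insert hi]
      exact mul_ne_zero hcT (hε0 T)
    · intro U hU
      change (if i ∈ U then c (U.erase i) * ε (U.erase i) else 0) = 0
      split_ifs with h
      · rw [hc0 (U.erase i), zero_mul]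
        have h1 := wt_insert (Finset.notMem_erase i U)
        rw [Finset.insert_erase h] at h1
        rw [wt_insert hi, h1] at hU
        omega
      · rfl

end Ext

end Vale.Agent.P200.Q
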