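import Vale.Agent.P200.Q.Tens
import Vale.Agent.P200.Q.Ech
import Vale.Agent.P200.Q.Count
import Vale.Agent.P200.G.HilbBasic

/-! The exterior algebra argument: EGH for quadrics from a suitable division ring. -/

namespace Vale.Agent.P200.Q

open MvPolynomial Vale.Agent.P200.G TensorProduct Module Pointwise

variable {K : Type*} [Field K] {n : ℕ}

/-- rank-nullity for the restriction of a map to a submodule -/
theorem finrank_map_add {V W : Type*} [AddCommGroup V] [Module K V] [AddCommGroup W] [Module K W]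
    (φ : V →ₗ[K] W) (U : Submodule K V) [Module.Finite K U] :
    finrank K (U.map φ) + finrank K (U ⊓ LinearMap.ker φ : Submodule K V) =
      finrank K U := by
  have h2 : finrank K (LinearMap.range (φ.domRestrict U)) +
      finrank K (LinearMap.ker (φ.domRestrict U)) = finrank K U :=
    LinearMap.finrank_range_add_finrank_ker (φ.domRestrict U)
  have h4 : (LinearMap.ker (φ.domRestrict U)).map U.subtype = U ⊓ LinearMap.ker φ := by
    ext p
    constructor
    · rintro ⟨q, hq, rfl⟩
      exact ⟨q.2, hq⟩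
    · rintro ⟨hp, hpk⟩
      exact ⟨⟨p, hp⟩, hpk, rfl⟩
  rw [← h4, Submodule.finrank_map_subtype_eq, ← LinearMap.range_domRestrict]
  exact h2

theorem egh_core {D A : Type*} [DivisionRing D] [Algebra K D] [CommRing A] [Algebra K A]
    (b : Fin n → Fin n → Fin n → K) (f : Fin n → MvPolynomial (Fin n) K)
    (hf : ∀ m, f m = ∑ k, ∑ l, C (b m k l) * (X k * X l))
    (hdim : ∀ d, hilb (Ideal.span (Set.range f)) d = n.choose d)
    (E Y : Fin n → Fin n → D)
    (hE : ∀ i k l, E i k * E i l + E i l * E i k = ∑ m, (b m k l + b m l k) • Y i m)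
    (hE0 : ∀ i k, E i k * E i k = ∑ m, b m k k • Y i m)
    (hEE : ∀ i j k l, i ≠ j → E i k * E j l + E j l * E i k = 0)
    (hli : LinearIndependent K fun κ : Fin n → Fin n => (List.ofFn fun i => E i (κ i)).prod)
    (π : MvPolynomial (Fin n) K →ₐ[K] A) (hπ : ∀ g, π g = 0 ↔ g ∈ Ideal.span (Set.range f))
    (I : Ideal (MvPolynomial (Fin n) K)) (hfI : ∀ m, f m ∈ I) :
    EGH (fun _ => 2) I := by
  classical
  set I0 := Ideal.span (Set.range f) with hI0
  let x : Fin n → A := fun k => π (X k)
  have hI0I : I0 ≤ I := by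
    rw [hI0, Ideal.span_le]
    rintro _ ⟨m, rfl⟩
    exact hfI m
  let Ag : ℕ → Submodule K A := fun d => (homogeneousSubmodule (Fin n) K d).map π.toLinearMap
  let Ig : ℕ → Submodule K A := fun d => (piece I d).map π.toLinearMap
  have hfinA : ∀ d, Module.Finite K (Ag d) := fun d => Module.Finite.map _ _
  have hfinP : ∀ d, Module.Finite K (piece I d) := fun d =>
    Submodule.finiteDimensional_of_le (piece_le I d)
  have hkerI : ∀ d, piece I d ⊓ LinearMap.ker π.toLinearMap = piece I0 d := by
    intro d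
    ext g
    rw [Submodule.mem_inf, mem_piece, mem_piece, LinearMap.mem_ker]
    constructor
    · rintro ⟨⟨-, h2⟩, h3⟩
      exact ⟨(hπ g).1 h3, h2⟩
    · rintro ⟨h1, h2⟩
      exact ⟨⟨hI0I h1, h2⟩, (hπ g).2 h1⟩
  have hkerA : ∀ d, homogeneousSubmodule (Fin n) K d ⊓ LinearMap.ker π.toLinearMap =
      piece I0 d := by
    intro d
    ext g
    rw [Submodule.mem_inf, mem_piece, LinearMap.mem_ker]
    constructor
    · rintro ⟨h2, h3⟩
      exact ⟨(hπ g).1 h3, h2⟩
    · rintro ⟨h1, h2⟩
      exact ⟨h2, (hπ g).2 h1⟩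
  have hdimA : ∀ d, finrank K (Ag d) = n.choose d := by
    intro d
    have h1 := finrank_map_add π.toLinearMap (homogeneousSubmodule (Fin n) K d)
    rw [hkerA] at h1
    have h2 := finrank_piece_add_hilb I0 d
    rw [hdim] at h2
    change finrank K (Ag d) + _ = _ at h1
    omega
  have hdimI : ∀ d, finrank K (Ig d) + hilb I d = n.choose d := by
    intro d
    have h1 := finrank_map_add π.toLinearMap (piece I d)
    rw [hkerI] at h1
    have h2 := finrank_piece_add_hilb I0 d
    have h3 := finrank_piece_add_hilb I d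
    rw [hdim] at h2
    change finrank K (Ig d) + _ = _ at h1
    omega
  -- multiplication by a variable
  have hxA : ∀ d, ∀ w ∈ Ag d, ∀ k, w * x k ∈ Ag (d + 1) := by
    rintro d _ ⟨g, hg, rfl⟩ k
    refine ⟨g * X k, ?_, ?_⟩
    · exact IsHomogeneous.mul (φ := g) hg (isHomogeneous_X K k)
    · change π (g * X k) = π g * π (X k)
      rw [map_mul]
  have hxI : ∀ d, ∀ w ∈ Ig d, ∀ k, w * x k ∈ Ig (d + 1) := by
    rintro d _ ⟨g, hg, rfl⟩ k
    have hg' := mem_piece.1 hg
    refine ⟨g * X k, mem_piece.2 ⟨I.mul_mem_right _ hg'.1,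
      IsHomogeneous.mul (φ := g) hg'.2 (isHomogeneous_X K k)⟩, ?_⟩
    change π (g * X k) = π g * π (X k)
    rw [map_mul]
  -- the exterior generators
  let ξ : Fin n → D ⊗[K] A := fun i => ∑ k, E i k ⊗ₜ[K] x k
  have hξ : ∀ i, ξ i = ∑ k, E i k ⊗ₜ[K] x k := fun i => rfl
  have hx : ∀ k, x k = π (X k) := fun k => rfl
  have hmulξ : ∀ i j, ξ i * ξ j = ∑ k, ∑ l, (E i k * E j l) ⊗ₜ[K] (x k * x l) := by
    intro i j
    rw [hξ, hξ, Finset.sum_mul_sum]
    simp only [Algebra.TensorProduct.tmul_mul_tmul]
  have hsq : ∀ i, ξ i * ξ i = 0 := by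
    intro i
    rw [hmulξ]
    have h1 := sum_alt (K := K) (fun k l => E i k * E i l - ∑ m, b m k l • Y i m) x
      (fun k l => by
        have h2 := hE i k l
        have h3 : ∑ m, (b m k l + b m l k) • Y i m =
            ∑ m, b m k l • Y i m + ∑ m, b m l k • Y i m := by
          rw [← Finset.sum_add_distrib]
          exact Finset.sum_congr rfl fun m _ => add_smul _ _ _
        rw [h3] at h2
        rw [sub_add_sub_comm, h2, sub_self])
      (fun k => by rw [hE0, sub_self])
    have h2 : ∑ k, ∑ l, (∑ m, b m k l • Y i m) ⊗ₜ[K] (x k * x l) = (0 : D ⊗[K] A) := by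
      have h3 : ∀ m, ∑ k, ∑ l, b m k l • (x k * x l) = 0 := by
        intro m
        have h4 : π (f m) = 0 := (hπ _).2 (Ideal.subset_span ⟨m, rfl⟩)
        rw [hf, map_sum] at h4
        rw [← h4]
        refine Finset.sum_congr rfl fun k _ => ?_
        rw [map_sum]
        refine Finset.sum_congr rfl fun l _ => ?_
        rw [map_mul, map_mul, ← algebraMap_eq, AlgHom.commutes, Algebra.smul_def, hx, hx]
      calc ∑ k, ∑ l, (∑ m, b m k l • Y i m) ⊗ₜ[K] (x k * x l)
          = ∑ k, ∑ l, ∑ m, Y i m ⊗ₜ[K] (b m k l • (x k * x l)) := by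
            refine Finset.sum_congr rfl fun k _ => Finset.sum_congr rfl fun l _ => ?_
            rw [TensorProduct.sum_tmul]
            refine Finset.sum_congr rfl fun m _ => ?_
            rw [TensorProduct.smul_tmul]
        _ = ∑ m, Y i m ⊗ₜ[K] (∑ k, ∑ l, b m k l • (x k * x l)) := by
            have h5 : ∀ k : Fin n, ∑ l, ∑ m, Y i m ⊗ₜ[K] (b m k l • (x k * x l)) =
                ∑ m, ∑ l, Y i m ⊗ₜ[K] (b m k l • (x k * x l)) := fun k => Finset.sum_comm
            rw [Finset.sum_congr rfl fun k _ => h5 k, Finset.sum_comm]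
            refine Finset.sum_congr rfl fun m _ => ?_
            rw [TensorProduct.tmul_sum]
            refine Finset.sum_congr rfl fun k _ => ?_
            rw [TensorProduct.tmul_sum]
        _ = 0 := by
            refine Finset.sum_eq_zero fun m _ => ?_
            rw [h3, TensorProduct.tmul_zero]
    have h3 : ∑ k, ∑ l, (E i k * E i l) ⊗ₜ[K] (x k * x l) =
        ∑ k, ∑ l, (E i k * E i l - ∑ m, b m k l • Y i m) ⊗ₜ[K] (x k * x l) +
        ∑ k, ∑ l, (∑ m, b m k l • Y i m) ⊗ₜ[K] (x k * x l) := by
      rw [← Finset.sum_add_distrib]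
      refine Finset.sum_congr rfl fun k _ => ?_
      rw [← Finset.sum_add_distrib]
      refine Finset.sum_congr rfl fun l _ => ?_
      rw [← TensorProduct.add_tmul, sub_add_cancel]
    rw [h3, h1, h2, add_zero]
  have hanti : ∀ i j, ξ i * ξ j = -(ξ j * ξ i) := by
    intro i j
    rcases eq_or_ne i j with rfl | hij
    · rw [hsq, neg_zero]
    · rw [eq_neg_iff_add_eq_zero, hmulξ, hmulξ]
      rw [Finset.sum_comm (f := fun k l => (E j k * E i l) ⊗ₜ[K] (x k * x l)),
        ← Finset.sum_add_distrib]
      refine Finset.sum_eq_zero fun k _ => ?_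
      rw [← Finset.sum_add_distrib]
      refine Finset.sum_eq_zero fun l _ => ?_
      rw [mul_comm (x l) (x k), ← TensorProduct.add_tmul, hEE i j k l hij,
        TensorProduct.zero_tmul]
  -- the top product is nonzero
  have htop : pr ξ (List.finRange n) ≠ 0 := by
    obtain ⟨κ, hκ⟩ : ∃ κ : Fin n → Fin n, ∏ i, x (κ i) ≠ 0 := by
      by_contra hcon
      push Not at hcon
      have h1 : Ag n = ⊥ := by
        rw [Submodule.eq_bot_iff]
        rintro _ ⟨g, hg, rfl⟩
        have hg2 : g ∈ homogeneousSubmodule (Fin n) K n := hg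
        rw [← homogeneousSubmodule_one_pow, homogeneousSubmodule_one_eq_span_X,
          Submodule.span_pow] at hg2
        have h2 : Submodule.span K ((Set.range (X : Fin n → MvPolynomial (Fin n) K)) ^ n) ≤
            LinearMap.ker π.toLinearMap := by
          rw [Submodule.span_le]
          intro p hp
          obtain ⟨φ, rfl⟩ := Set.mem_pow.1 hp
          rw [List.prod_ofFn]
          have h3 : ∀ i, ∃ j, X j = (φ i : MvPolynomial (Fin n) K) := fun i => (φ i).2
          choose κ hκ using h3
          change π _ = 0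
          rw [map_prod, ← hcon κ]
          refine Finset.prod_congr rfl fun i _ => ?_
          rw [← hκ i]
        exact h2 hg2
      have h2 := hdimA n
      rw [h1, finrank_bot, Nat.choose_self] at h2
      exact zero_ne_one h2
    have h1 : pr ξ (List.finRange n) = (List.ofFn fun i => ∑ k, E i k ⊗ₜ[K] x k).prod := by
      rw [List.ofFn_eq_map]
      rfl
    rw [h1, prod_sum_tmul]
    exact sum_tmul_ne_zero hli _ κ hκ
  -- degrees of the products
  have hdeg : ∀ l : List (Fin n), pr ξ l ∈ (Ag l.length).baseChange D := by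
    intro l
    induction l with
    | nil =>
      rw [pr_nil, Algebra.TensorProduct.one_def]
      refine Submodule.tmul_mem_baseChange_of_mem _ ⟨1, ?_, ?_⟩
      · exact isHomogeneous_one _ _
      · exact map_one π
    | cons i l ih =>
      rw [pr_cons, List.length_cons, hξ, Finset.sum_mul]
      refine Submodule.sum_mem _ fun k _ => ?_
      refine tmul_mul_mem_baseChange (fun w hw => ?_) _ ih
      rw [mul_comm]
      exact hxA _ w hw k
  obtain ⟨M, hM1, hM2, hM3⟩ := ext_leading (D := D) hsq hanti htop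
    (fun d => (Ag d).baseChange D)
    (fun d => Module.Finite.of_surjective ((Ag d).toBaseChange D)
        (Submodule.toBaseChange_surjective D _))
    (fun d => by rw [finrank_baseChange_submodule, hdimA])
    (fun T => by
      have h1 := hdeg T.toList
      rw [Finset.length_toList] at h1
      exact h1)
    (fun d => (Ig d).baseChange D)
    (fun d => by
      exact Submodule.baseChange_mono _ (Submodule.map_mono (piece_le I d)))
    (fun d i u hu => mul_mem_baseChange (E i) (hxI d) hu)
  refine egh_of_leading I M hM1 (fun d => ?_) hM3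
  rw [hM2, finrank_baseChange_submodule, hdimI]

theorem egh_of_division {D : Type*} [DivisionRing D] [Algebra K D]
    (b : Fin n → Fin n → Fin n → K) (f : Fin n → MvPolynomial (Fin n) K)
    (hf : ∀ m, f m = ∑ k, ∑ l, C (b m k l) * (X k * X l))
    (hdim : ∀ d, hilb (Ideal.span (Set.range f)) d = n.choose d)
    (E Y : Fin n → Fin n → D)
    (hE : ∀ i k l, E i k * E i l + E i l * E i k = ∑ m, (b m k l + b m l k) • Y i m)
    (hE0 : ∀ i k, E i k * E i k = ∑ m, b m k k • Y i m)
    (hEE : ∀ i j k l, i ≠ j → E i k * E j l + E j l * E i k = 0)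
    (hli : LinearIndependent K fun κ : Fin n → Fin n => (List.ofFn fun i => E i (κ i)).prod)
    (I : Ideal (MvPolynomial (Fin n) K)) (hfI : ∀ m, f m ∈ I) :
    EGH (fun _ => 2) I :=
  egh_core b f hf hdim E Y hE hE0 hEE hli (Ideal.Quotient.mkₐ K (Ideal.span (Set.range f)))
    (fun _ => Ideal.Quotient.eq_zero_iff_mem) I hfI

end Vale.Agent.P200.Q
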