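import Vale.Agent.P200.Q.Blocks
import Vale.Agent.P200.Q.Dom5
import Vale.Agent.P200.Q.Ext

/-! The division ring attached to several copies of a complete intersection of quadrics. -/

namespace Vale.Agent.P200.Q

open MvPolynomial Vale.Agent.P200.G

universe u

variable {K : Type u} [Field K]

/-- `r` copies of a complete intersection of `s` quadrics: a division ring with pairwise
anticommuting generic points. -/
theorem exists_blocks [Infinite K] (r : ℕ) {s : ℕ} (b : Fin s → Fin s → Fin s → K)
    (g : Fin s → MvPolynomial (Fin s) K)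
    (hg : ∀ m, g m = ∑ k, ∑ l, C (b m k l) * (X k * X l))
    (hm : IsMPrimary (Ideal.span (Set.range g))) :
    ∃ (D : Type u) (_ : DivisionRing D) (_ : Algebra K D) (e : Fin (r * s) → D)
      (Y : Fin r → Fin s → D),
      (∀ i m z, Y i m * z = z * Y i m) ∧
      (∀ i k l, e (bl (i, k)) * e (bl (i, l)) + e (bl (i, l)) * e (bl (i, k)) =
        ∑ m, (b m k l + b m l k) • Y i m) ∧
      (∀ i k, e (bl (i, k)) * e (bl (i, k)) = ∑ m, b m k k • Y i m) ∧
      (∀ i j k l, i ≠ j →
        e (bl (i, k)) * e (bl (j, l)) + e (bl (j, l)) * e (bl (i, k)) = 0) ∧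
      LinearIndependent K (fun T : Finset (Fin (r * s)) => ((T.sort (· ≤ ·)).map e).prod) := by
  have hF := sysF_eq (r := r) b g hg
  have hhom : ∀ p, (sysF r g p).IsHomogeneous 2 := by
    intro p
    unfold sysF
    apply IsHomogeneous.rename_isHomogeneous
    rw [hg]
    exact isHomogeneous_of_coeffs _
  have hprim := isMPrimary_sysF (r := r) g hm
  have hreg := isRegSeq_of_isMPrimary (fun _ => 2) (fun _ => by norm_num) (sysF r g) hhom hprim
  have hdim : ∀ j, hilb (Ideal.span (Set.range (sysF r g))) j = (r * s).choose j := by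
    intro j
    rw [hilb_span_eq_card_boxD (fun _ => 2) (fun _ => by norm_num) (sysF r g) hhom hprim,
      card_boxD_two]
  obtain ⟨D, hD1, hD2, e, y, h1, h2, h3, h4⟩ := exists_divisionRing (sysB r b) (sysF r g) hF
    (fun G hG => syz_of_isRegSeq _ hreg G hG) hdim
  refine ⟨D, hD1, hD2, e, fun i m => y (bl (i, m)), fun i m z => h1 _ z, ?_, ?_, ?_, h4⟩
  · intro i k l
    rw [h2, sum_bl, Finset.sum_eq_single i]
    · refine Finset.sum_congr rfl fun m _ => ?_
      rw [sysB_apply, sysB_apply, if_pos ⟨rfl, rfl⟩, if_pos ⟨rfl, rfl⟩, Algebra.smul_def]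
    · intro j _ hj
      refine Finset.sum_eq_zero fun m _ => ?_
      rw [sysB_apply, sysB_apply, if_neg fun h => hj h.1.symm, if_neg fun h => hj h.1.symm,
        add_zero, map_zero, zero_mul]
    · intro h
      exact absurd (Finset.mem_univ _) h
  · intro i k
    rw [h3, sum_bl, Finset.sum_eq_single i]
    · refine Finset.sum_congr rfl fun m _ => ?_
      rw [sysB_apply, if_pos ⟨rfl, rfl⟩, Algebra.smul_def]
    · intro j _ hj
      refine Finset.sum_eq_zero fun m _ => ?_
      rw [sysB_apply, if_neg fun h => hj h.1.symm, map_zero, zero_mul]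
    · intro h
      exact absurd (Finset.mem_univ _) h
  · intro i j k l hij
    rw [h2, sum_bl]
    refine Finset.sum_eq_zero fun i' _ => Finset.sum_eq_zero fun m _ => ?_
    rw [sysB_apply, sysB_apply, if_neg fun h => hij (h.1.trans h.2.symm),
      if_neg fun h => hij (h.2.trans h.1.symm), add_zero, map_zero, zero_mul]

/-- strictly increasing lists of generators give independent products -/
theorem linearIndependent_lists {D : Type*} [DivisionRing D] [Algebra K D] {N : ℕ}
    {e : Fin N → D}
    (h : LinearIndependent K (fun T : Finset (Fin N) => ((T.sort (· ≤ ·)).map e).prod))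
    {ι : Type*} (L : ι → List (Fin N)) (hL : ∀ i, (L i).Pairwise (· < ·))
    (hinj : Function.Injective L) : LinearIndependent K fun i => ((L i).map e).prod := by
  classical
  have hnd : ∀ i, (L i).Nodup := fun i => (hL i).imp fun h => ne_of_lt h
  have h1 : ∀ i, (L i).toFinset.sort (· ≤ ·) = L i := by
    intro i
    rw [List.toFinset_sort _ (hnd i)]
    exact (hL i).imp fun h => le_of_lt h
  have h2 : Function.Injective fun i => (L i).toFinset := by
    intro i j hij
    apply hinj
    rw [← h1 i, ← h1 j]
    have h3 : (L i).toFinset = (L j).toFinset := hij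
    rw [h3]
  have h3 := h.comp (fun i => (L i).toFinset) h2
  have h4 : (fun i => ((L i).map e).prod) =
      (fun T : Finset (Fin N) => ((T.sort (· ≤ ·)).map e).prod) ∘ fun i => (L i).toFinset := by
    funext i
    change _ = (((L i).toFinset.sort (· ≤ ·)).map e).prod
    rw [h1]
  rw [h4]
  exact h3

theorem bl_lt {r s : ℕ} {i j : Fin r} (h : i < j) (k l : Fin s) : bl (i, k) < bl (j, l) := by
  rw [Fin.lt_def, finProdFinEquiv_apply_val, finProdFinEquiv_apply_val]
  have h1 := k.2
  have h2 : (i : ℕ) + 1 ≤ j := h
  have h3 : s * ((i : ℕ) + 1) ≤ s * j := Nat.mul_le_mul_left _ h2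
  rw [mul_add, mul_one] at h3
  change (k : ℕ) + s * i < l + s * j
  omega

theorem bl_lt' {r s : ℕ} (i : Fin r) {k l : Fin s} (h : k < l) : bl (i, k) < bl (i, l) := by
  rw [Fin.lt_def, finProdFinEquiv_apply_val, finProdFinEquiv_apply_val]
  have h2 : (k : ℕ) < l := h
  change (k : ℕ) + s * i < l + s * i
  omega

/-- anticommuting version -/
theorem exists_anti [Infinite K] {n : ℕ} (b : Fin n → Fin n → Fin n → K)
    (f : Fin n → MvPolynomial (Fin n) K)
    (hf : ∀ m, f m = ∑ k, ∑ l, C (b m k l) * (X k * X l))
    (hm : IsMPrimary (Ideal.span (Set.range f))) :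
    ∃ (D : Type u) (_ : DivisionRing D) (_ : Algebra K D) (E Y : Fin n → Fin n → D),
      (∀ i m z, Y i m * z = z * Y i m) ∧
      (∀ i j, i ≠ j → ∀ k l, E i k * E j l + E j l * E i k = 0) ∧
      (∀ i k l, E i k * E i l + E i l * E i k = ∑ m, (b m k l + b m l k) • Y i m) ∧
      (∀ i k, E i k * E i k = ∑ m, b m k k • Y i m) ∧
      LinearIndependent K
        (fun κ : Fin n → Fin n => (List.ofFn fun i => E i (κ i)).prod) := by
  obtain ⟨D, hD1, hD2, e, Y, h1, h2, h3, h4, h5⟩ := exists_blocks n b f hf hm
  refine ⟨D, hD1, hD2, fun i k => e (bl (i, k)), Y, h1, fun i j hij k l => h4 i j k l hij,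
    h2, h3, ?_⟩
  have h6 := linearIndependent_lists h5 (fun κ : Fin n → Fin n => List.ofFn fun i => bl (i, κ i))
    (fun κ => by
      rw [List.pairwise_ofFn]
      intro i j hij
      exact bl_lt hij _ _)
    (fun κ κ' h => by
      have h7 := List.ofFn_injective h
      funext i
      have h8 := congrFun h7 i
      have h9 := bl.injective h8
      exact congrArg Prod.snd h9)
  convert h6 using 2 with κ
  rw [List.map_ofFn]
  rfl

/-- **EGH for complete intersections of quadrics**: growth inequality for every homogeneous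
ideal containing `n` quadrics in `n` variables without common zeros. -/
theorem base_quad [Infinite K] {n : ℕ} (f : Fin n → MvPolynomial (Fin n) K)
    (hf : ∀ i, (f i).IsHomogeneous 2) (hm : IsMPrimary (Ideal.span (Set.range f)))
    (I : Ideal (MvPolynomial (Fin n) K)) (hfI : ∀ i, f i ∈ I) : EGH (fun _ => 2) I := by
  choose b hb using fun m => exists_coeffs (hf m)
  obtain ⟨D, hD1, hD2, E, Y, -, h2, h3, h4, h5⟩ := exists_anti b f hb hm
  refine egh_of_division b f hb (fun d => ?_) E Y h3 h4 (fun i j k l hij => h2 i j hij k l) h5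
    I hfI
  rw [hilb_span_eq_card_boxD (fun _ => 2) (fun _ => by norm_num) f hf hm, card_boxD_two]

/-- extension of a system of quadrics by the square of a new variable -/
noncomputable def extSys {n : ℕ} (f : Fin n → MvPolynomial (Fin n) K) :
    Fin (n + 1) → MvPolynomial (Fin (n + 1)) K :=
  Fin.snoc (α := fun _ => MvPolynomial (Fin (n + 1)) K)
    (fun m => rename Fin.castSucc (f m)) (X (Fin.last n) * X (Fin.last n))

/-- coefficients of the extended system -/
def extCoef {n : ℕ} (b : Fin n → Fin n → Fin n → K) (m k l : Fin (n + 1)) : K :=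
  Fin.lastCases (motive := fun _ => K)
    (if k = Fin.last n ∧ l = Fin.last n then 1 else 0)
    (fun m => Fin.lastCases (motive := fun _ => K) 0
      (fun k => Fin.lastCases (motive := fun _ => K) 0 (fun l => b m k l) l) k) m

theorem extCoef_last {n : ℕ} (b : Fin n → Fin n → Fin n → K) (k l : Fin (n + 1)) :
    extCoef b (Fin.last n) k l = if k = Fin.last n ∧ l = Fin.last n then 1 else 0 := by
  simp [extCoef]

theorem extCoef_ccc {n : ℕ} (b : Fin n → Fin n → Fin n → K) (m k l : Fin n) :
    extCoef b m.castSucc k.castSucc l.castSucc = b m k l := by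
  simp [extCoef]

theorem extCoef_cl {n : ℕ} (b : Fin n → Fin n → Fin n → K) (m : Fin n) (l : Fin (n + 1)) :
    extCoef b m.castSucc (Fin.last n) l = 0 := by
  simp [extCoef]

theorem extCoef_ccl {n : ℕ} (b : Fin n → Fin n → Fin n → K) (m k : Fin n) :
    extCoef b m.castSucc k.castSucc (Fin.last n) = 0 := by
  simp [extCoef]

theorem extSys_eq {n : ℕ} (b : Fin n → Fin n → Fin n → K) (f : Fin n → MvPolynomial (Fin n) K)
    (hf : ∀ m, f m = ∑ k, ∑ l, C (b m k l) * (X k * X l)) (m : Fin (n + 1)) :
    extSys f m = ∑ k, ∑ l, C (extCoef b m k l) * (X k * X l) := by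
  refine Fin.lastCases ?_ (fun m => ?_) m
  · rw [Finset.sum_eq_single (Fin.last n), Finset.sum_eq_single (Fin.last n)]
    · rw [extCoef_last, if_pos ⟨rfl, rfl⟩, map_one, one_mul]
      simp [extSys]
    · intro l _ hl
      rw [extCoef_last, if_neg fun h => hl h.2, map_zero, zero_mul]
    · intro h
      exact absurd (Finset.mem_univ _) h
    · intro k _ hk
      refine Finset.sum_eq_zero fun l _ => ?_
      rw [extCoef_last, if_neg fun h => hk h.1, map_zero, zero_mul]
    · intro h
      exact absurd (Finset.mem_univ _) h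
  · rw [Fin.sum_univ_castSucc, Finset.sum_eq_zero (s := Finset.univ)
      (f := fun l => C (extCoef b m.castSucc (Fin.last n) l) * (X (Fin.last n) * X l))
      (fun l _ => by rw [extCoef_cl, map_zero, zero_mul]), add_zero]
    have h1 : extSys f m.castSucc = rename Fin.castSucc (f m) := by simp [extSys]
    rw [h1, hf, map_sum]
    refine Finset.sum_congr rfl fun k _ => ?_
    rw [Fin.sum_univ_castSucc, extCoef_ccl, map_zero, zero_mul, add_zero, map_sum]
    refine Finset.sum_congr rfl fun l _ => ?_
    rw [extCoef_ccc, map_mul, map_mul, rename_C, rename_X, rename_X]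

theorem isMPrimary_extSys {n : ℕ} (f : Fin n → MvPolynomial (Fin n) K)
    (h : IsMPrimary (Ideal.span (Set.range f))) :
    IsMPrimary (Ideal.span (Set.range (extSys f))) := by
  obtain ⟨M, hM⟩ := h
  refine isMPrimary_of_pow_mem (M + 2) fun p => ?_
  refine Fin.lastCases ?_ (fun k => ?_) p
  · rw [pow_add, pow_two]
    refine Ideal.mul_mem_left _ _ (Ideal.subset_span ⟨Fin.last n, ?_⟩)
    simp [extSys]
  · have h1 : (X k : MvPolynomial (Fin n) K) ^ (M + 2) ∈ Ideal.span (Set.range f) := by
      refine hM (M + 2) (by omega) _ ?_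
      have := (isHomogeneous_X K k).pow (M + 2)
      simpa using this
    have h2 := Ideal.mem_map_of_mem (rename (R := K) (Fin.castSucc : Fin n → Fin (n + 1))) h1
    rw [map_pow, rename_X, Ideal.map_span] at h2
    refine Ideal.span_mono ?_ h2
    rintro _ ⟨_, ⟨m, rfl⟩, rfl⟩
    exact ⟨m.castSucc, by simp [extSys]⟩

/-- Commuting version: a division ring with pairwise commuting generic points. -/
theorem exists_point [Infinite K] {n : ℕ} (b : Fin n → Fin n → Fin n → K)
    (f : Fin n → MvPolynomial (Fin n) K)
    (hf : ∀ m, f m = ∑ k, ∑ l, C (b m k l) * (X k * X l))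
    (hm : IsMPrimary (Ideal.span (Set.range f))) :
    ∃ (D : Type u) (_ : DivisionRing D) (_ : Algebra K D) (E Y : Fin n → Fin n → D),
      (∀ i m z, Y i m * z = z * Y i m) ∧
      (∀ i j, i ≠ j → ∀ k l, E i k * E j l = E j l * E i k) ∧
      (∀ i k l, E i k * E i l + E i l * E i k = ∑ m, (b m k l + b m l k) • Y i m) ∧
      (∀ i k, E i k * E i k = ∑ m, b m k k • Y i m) ∧
      LinearIndependent K
        (fun κ : Fin n → Fin n => (List.ofFn fun i => E i (κ i)).prod) := by
  obtain ⟨D, hD1, hD2, e, Y, h1, h2, h3, h4, h5⟩ :=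
    exists_blocks n (extCoef b) (extSys f) (extSys_eq b f hf) (isMPrimary_extSys f hm)
  -- the extra generators
  have hu : ∀ i : Fin n, e (bl (i, Fin.last n)) * e (bl (i, Fin.last n)) = Y i (Fin.last n) := by
    intro i
    rw [h3, Fin.sum_univ_castSucc, extCoef_last, if_pos ⟨rfl, rfl⟩, one_smul]
    rw [Finset.sum_eq_zero fun m _ => by rw [extCoef_cl, zero_smul], zero_add]
  have hau : ∀ (i : Fin n) (k : Fin n), e (bl (i, k.castSucc)) * e (bl (i, Fin.last n)) =
      -(e (bl (i, Fin.last n)) * e (bl (i, k.castSucc))) := by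
    intro i k
    rw [eq_neg_iff_add_eq_zero, h2]
    refine Finset.sum_eq_zero fun m _ => ?_
    refine Fin.lastCases ?_ (fun m => ?_) m
    · rw [extCoef_last, extCoef_last, if_neg (fun h => (Fin.castSucc_lt_last k).ne h.1),
        if_neg (fun h => (Fin.castSucc_lt_last k).ne h.2), add_zero, zero_smul]
    · rw [extCoef_ccl, extCoef_cl, add_zero, zero_smul]
  have hanti : ∀ i j, i ≠ j → ∀ k l, e (bl (i, k)) * e (bl (j, l)) =
      -(e (bl (j, l)) * e (bl (i, k))) := by
    intro i j hij k l
    rw [eq_neg_iff_add_eq_zero]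
    exact h4 i j k l hij
  have hsumY : ∀ i (c : Fin (n + 1) → K), c (Fin.last n) = 0 →
      ∑ m, c m • Y i m = ∑ m : Fin n, c m.castSucc • Y i m.castSucc := by
    intro i c hc
    rw [Fin.sum_univ_castSucc, hc, zero_smul, add_zero]
  -- products of two new generators in a block
  have hpp : ∀ i (k l : Fin n), (e (bl (i, k.castSucc)) * e (bl (i, Fin.last n))) *
      (e (bl (i, l.castSucc)) * e (bl (i, Fin.last n))) =
      -(e (bl (i, k.castSucc)) * e (bl (i, l.castSucc)) * Y i (Fin.last n)) := by
    intro i k l
    rw [← hu i]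
    have h6 := hau i l
    have h7 : e (bl (i, Fin.last n)) * e (bl (i, l.castSucc)) =
        -(e (bl (i, l.castSucc)) * e (bl (i, Fin.last n))) := by rw [h6, neg_neg]
    calc (e (bl (i, k.castSucc)) * e (bl (i, Fin.last n))) *
        (e (bl (i, l.castSucc)) * e (bl (i, Fin.last n)))
        = e (bl (i, k.castSucc)) * (e (bl (i, Fin.last n)) *
          e (bl (i, l.castSucc))) * e (bl (i, Fin.last n)) := by simp only [mul_assoc]
      _ = _ := by rw [h7]; simp only [mul_neg, neg_mul, mul_assoc]
  refine ⟨D, hD1, hD2, fun i k => e (bl (i, k.castSucc)) * e (bl (i, Fin.last n)),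
    fun i m => -(Y i m.castSucc * Y i (Fin.last n)), ?_, ?_, ?_, ?_, ?_⟩
  · intro i m z
    rw [neg_mul, mul_neg, mul_assoc, h1 i (Fin.last n) z, ← mul_assoc, h1 i m.castSucc z,
      mul_assoc]
  · intro i j hij k l
    have e1 := hanti i j hij
    have e2 : ∀ k l, e (bl (i, k)) * e (bl (j, l)) = -(e (bl (j, l)) * e (bl (i, k))) := e1
    calc (e (bl (i, k.castSucc)) * e (bl (i, Fin.last n))) *
          (e (bl (j, l.castSucc)) * e (bl (j, Fin.last n)))
        = e (bl (i, k.castSucc)) * (e (bl (i, Fin.last n)) * e (bl (j, l.castSucc))) *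
            e (bl (j, Fin.last n)) := by simp only [mul_assoc]
      _ = -((e (bl (i, k.castSucc)) * e (bl (j, l.castSucc))) *
            (e (bl (i, Fin.last n)) * e (bl (j, Fin.last n)))) := by
          rw [e2 (Fin.last n) l.castSucc]; simp only [mul_neg, neg_mul, mul_assoc]
      _ = -((e (bl (j, l.castSucc)) * e (bl (i, k.castSucc))) *
            (e (bl (j, Fin.last n)) * e (bl (i, Fin.last n)))) := by
          rw [e2 k.castSucc l.castSucc, e2 (Fin.last n) (Fin.last n), neg_mul_neg]
      _ = -(e (bl (j, l.castSucc)) * (e (bl (i, k.castSucc)) *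
            e (bl (j, Fin.last n))) * e (bl (i, Fin.last n))) := by simp only [mul_assoc]
      _ = (e (bl (j, l.castSucc)) * e (bl (j, Fin.last n))) *
          (e (bl (i, k.castSucc)) * e (bl (i, Fin.last n))) := by
          rw [e2 k.castSucc (Fin.last n)]; simp only [mul_neg, neg_mul, mul_assoc, neg_neg]
  · intro i k l
    change (e (bl (i, k.castSucc)) * e (bl (i, Fin.last n))) *
      (e (bl (i, l.castSucc)) * e (bl (i, Fin.last n))) +
      (e (bl (i, l.castSucc)) * e (bl (i, Fin.last n))) *
      (e (bl (i, k.castSucc)) * e (bl (i, Fin.last n))) = _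
    rw [hpp, hpp, ← neg_add, ← add_mul, h2,
      hsumY i (fun m => extCoef b m k.castSucc l.castSucc + extCoef b m l.castSucc k.castSucc)
        (by
          rw [extCoef_last, extCoef_last, if_neg (fun h => (Fin.castSucc_lt_last k).ne h.1),
            if_neg (fun h => (Fin.castSucc_lt_last l).ne h.1), add_zero]),
      Finset.sum_mul, ← Finset.sum_neg_distrib]
    refine Finset.sum_congr rfl fun m _ => ?_
    rw [extCoef_ccc, extCoef_ccc, smul_mul_assoc, smul_neg]
  · intro i k
    change (e (bl (i, k.castSucc)) * e (bl (i, Fin.last n))) *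
      (e (bl (i, k.castSucc)) * e (bl (i, Fin.last n))) = _
    rw [hpp, h3, hsumY i (fun m => extCoef b m k.castSucc k.castSucc)
        (by
          rw [extCoef_last, if_neg (fun h => (Fin.castSucc_lt_last k).ne h.1)]),
      Finset.sum_mul, ← Finset.sum_neg_distrib]
    refine Finset.sum_congr rfl fun m _ => ?_
    rw [extCoef_ccc, smul_mul_assoc, smul_neg]
  · have h6 := linearIndependent_lists h5
      (fun κ : Fin n → Fin n => (List.finRange n).flatMap fun i =>
        [bl (i, (κ i).castSucc), bl (i, Fin.last n)])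
      (fun κ => by
        rw [List.pairwise_flatMap]
        constructor
        · intro i _
          rw [List.pairwise_pair]
          exact bl_lt' i (Fin.castSucc_lt_last _)
        · have h7 : (List.finRange n).Pairwise (· < ·) := List.pairwise_lt_finRange n
          refine h7.imp ?_
          intro i j hij x hx y hy
          have hx' : ∃ k, x = bl (i, k) := by
            rcases List.mem_cons.1 hx with h | h
            · exact ⟨_, h⟩
            · exact ⟨_, List.mem_singleton.1 h⟩
          have hy' : ∃ k, y = bl (j, k) := by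
            rcases List.mem_cons.1 hy with h | h
            · exact ⟨_, h⟩
            · exact ⟨_, List.mem_singleton.1 h⟩
          obtain ⟨k, rfl⟩ := hx'
          obtain ⟨l, rfl⟩ := hy'
          exact bl_lt hij _ _)
      (fun κ κ' h => by
        funext i
        have h7 : bl (i, (κ i).castSucc) ∈ (List.finRange n).flatMap fun i =>
            [bl (i, (κ i).castSucc), bl (i, Fin.last n)] := by
          rw [List.mem_flatMap]
          exact ⟨i, List.mem_finRange i, List.mem_cons_self⟩
        have h8 : ((List.finRange n).flatMap fun i =>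
            [bl (i, (κ i).castSucc), bl (i, Fin.last n)]) =
            (List.finRange n).flatMap fun i =>
            [bl (i, (κ' i).castSucc), bl (i, Fin.last n)] := h
        rw [h8, List.mem_flatMap] at h7
        obtain ⟨j, -, hj⟩ := h7
        rcases List.mem_cons.1 hj with h | h
        · have h9 := bl.injective h
          rw [Prod.mk.injEq] at h9
          obtain ⟨rfl, h10⟩ := h9
          exact Fin.castSucc_injective _ h10
        · have h9 := bl.injective (List.mem_singleton.1 h)
          rw [Prod.mk.injEq] at h9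
          exact absurd h9.2 (Fin.castSucc_lt_last _).ne)
    have h7 : ∀ (g : Fin n → List (Fin (n * (n + 1)))) (l : List (Fin n)),
        ((l.flatMap g).map e).prod = (l.map fun i => ((g i).map e).prod).prod := by
      intro g l
      induction l with
      | nil => rfl
      | cons i l ih =>
        rw [List.flatMap_cons, List.map_append, List.prod_append, ih, List.map_cons,
          List.prod_cons]
    convert h6 using 2 with κ
    rw [h7, List.ofFn_eq_map]
    simp

end Vale.Agent.P200.Q
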