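import Vale.Agent.P200.G.Final
import Vale.Agent.P200.Q.Induct
import Vale.Agent.P200.B.Final

/-! EGH for regular sequences of quadrics (and more) in any number of variables, over every
field. -/

namespace Vale.Agent.P200.Q

open MvPolynomial Vale.Agent.P200.G

variable {K : Type*} [Field K] {n c : ℕ}

theorem admissible_ext (h : c ≤ n) (a : Fin c → ℕ) (N : ℕ)
    (T : Finset (Fin c)) (hT : Admissible a T) :
    Admissible (extDeg h a N) (T.map (Fin.castLEEmb h)) := by
  constructor
  intro i hi hcard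
  obtain ⟨i0, hi0, rfl⟩ := Finset.mem_map.mp hi
  simp only [Fin.castLEEmb_apply] at hcard ⊢
  rw [filter_map_castLE, Finset.card_map] at hcard
  rw [filter_map_castLE, Finset.sum_map, extDeg_castLE]
  simp only [Fin.castLEEmb_apply, extDeg_castLE]
  rcases hT.grow i0 hi0 hcard with h1 | h1
  · exact Or.inl h1
  · refine Or.inr fun j hj hji => ?_
    obtain ⟨j0, hj0, rfl⟩ := Finset.mem_map.mp hj
    simp only [Fin.castLEEmb_apply, extDeg_castLE] at hji ⊢
    exact h1 j0 hj0 hji

/-- **Main theorem.** -/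
theorem egh_final_quad (K : Type*) [Field K] {n c : ℕ} (h : c ≤ n) (a : Fin c → ℕ)
    (ha : Monotone a) (h2 : ∀ i, 2 ≤ a i) (f : Fin c → MvPolynomial (Fin n) K)
    (hf : ∀ i, (f i).IsHomogeneous (a i)) (hreg : IsRegularSeq f) (T : Finset (Fin c))
    (hT : Admissible a T)
    (hsplit : ∀ i, i ∉ T →
      SplitsLinear (a i) (MvPolynomial.map (algebraMap K (AlgebraicClosure K)) (f i)))
    (I : Ideal (MvPolynomial (Fin n) K)) (hI : HomIdeal I) (hfI : ∀ i, f i ∈ I) :
    ∃ J : Ideal (MvPolynomial (Fin n) K), J.restrictScalars K = lexPlusPowers h a I := by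
  set L := AlgebraicClosure K with hL
  have hinf : Infinite L := IsAlgClosed.instInfinite
  set fL : Fin c → MvPolynomial (Fin n) L := fun i => MvPolynomial.map (algebraMap K L) (f i)
    with hfL
  set IL : Ideal (MvPolynomial (Fin n) L) := I.map (MvPolynomial.map (σ := Fin n) (algebraMap K L))
    with hIL
  have hILhom : HomIdeal IL := homIdeal_baseChange hI
  have hregL : IsRegSeq fL := isRegSeq_baseChange f a hf hreg
  have hfLhom : ∀ i, (fL i).IsHomogeneous (a i) := fun i => (hf i).map _
  have hfIL : ∀ i, fL i ∈ IL := fun i => Ideal.mem_map_of_mem _ (hfI i)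
  obtain ⟨l, hl, hlm⟩ := exists_linear_extension h a (fun i => by have := h2 i; omega) fL hfLhom
    hregL
  apply lexPlusPowers_isIdeal_of_growth
  intro d
  set N := d + 2 + ∑ i, a i with hN
  refine ⟨N, by omega, ?_⟩
  set A := extDeg h a N with hA
  have haN : ∀ i, a i ≤ N := by
    intro i
    have := Finset.single_le_sum (fun j _ => Nat.zero_le (a j)) (Finset.mem_univ i)
    omega
  set F : Fin n → MvPolynomial (Fin n) L := fun i =>
    if hi : i.1 < c then fL ⟨i.1, hi⟩ else (l ⟨i.1 - c, by omega⟩) ^ N with hF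
  have hFhom : ∀ i, (F i).IsHomogeneous (A i) := by
    intro i
    by_cases hi : i.1 < c
    · simp only [hF, hA, extDeg, hi, dif_pos]
      exact hfLhom _
    · simp only [hF, hA, extDeg, hi, dif_neg, not_false_iff]
      have := (hl ⟨i.1 - c, by omega⟩).pow N
      rwa [one_mul] at this
  have hFprim : IsMPrimary (Ideal.span (Set.range F)) := by
    rw [isMPrimary_iff_radical] at hlm ⊢
    intro i
    have h3 : Ideal.span (Set.range fL) ⊔ Ideal.span (Set.range l) ≤
        (Ideal.span (Set.range F)).radical := by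
      apply sup_le
      · rw [Ideal.span_le]
        rintro _ ⟨j, rfl⟩
        apply Ideal.le_radical
        apply Ideal.subset_span
        refine ⟨Fin.castLE h j, ?_⟩
        simp [hF]
      · rw [Ideal.span_le]
        rintro _ ⟨j, rfl⟩
        refine ⟨N, Ideal.subset_span ⟨⟨j.1 + c, by omega⟩, ?_⟩⟩
        simp [hF]
    have h4 := Ideal.radical_mono h3 (hlm i)
    rwa [Ideal.radical_idem] at h4
  set S : Set (MvPolynomial (Fin n) L) := Set.range fun j => l j ^ N with hS
  have hShom : ∀ g ∈ S, g.IsHomogeneous N := by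
    rintro _ ⟨j, rfl⟩
    have := (hl j).pow N
    rwa [one_mul] at this
  set I' := IL ⊔ Ideal.span S with hI'
  have hI'hom : HomIdeal I' := G.homIdeal_sup hILhom (G.homIdeal_span fun g hg => ⟨N, hShom g hg⟩)
  have hFI' : ∀ i, F i ∈ I' := by
    intro i
    by_cases hi : i.1 < c
    · simp only [hF, hi, dif_pos]
      exact Ideal.mem_sup_left (hfIL _)
    · simp only [hF, hi, dif_neg, not_false_iff]
      exact Ideal.mem_sup_right (Ideal.subset_span ⟨_, rfl⟩)
  have hA2 : ∀ i, 2 ≤ A i := by
    intro i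
    by_cases hi : i.1 < c
    · simp only [hA, extDeg, hi, dif_pos]; exact h2 _
    · simp only [hA, extDeg, hi, dif_neg, not_false_iff]; omega
  have hspl : ∀ i, i ∉ T.map (Fin.castLEEmb h) → SplitsLinear (A i) (F i) := by
    intro i hi
    by_cases hic : i.1 < c
    · have h3 : (⟨i.1, hic⟩ : Fin c) ∉ T := fun hmem =>
        hi (Finset.mem_map.mpr ⟨⟨i.1, hic⟩, hmem, rfl⟩)
      simp only [hF, hA, extDeg, hic, dif_pos]
      exact hsplit _ h3
    · simp only [hF, hA, extDeg, hic, dif_neg, not_false_iff]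
      exact splitsLinear_pow_fin (hl _) N
  have key := egh_main_quad (base3 L) n A (monotone_extDeg h a ha haN) hA2 F hFhom hFprim
    (T.map (Fin.castLEEmb h)) (admissible_ext h a N T hT) hspl I' hI'hom hFI' d
  have e1 : hilb I' d = hilb I d := by
    rw [hI', hilb_sup_span_high hILhom S hShom (by omega), hIL, hilb_baseChange I hI]
  have e2 : hilb I' (d + 1) = hilb I (d + 1) := by
    rw [hI', hilb_sup_span_high hILhom S hShom (by omega), hIL, hilb_baseChange I hI]
  rw [e1, e2] at key
  exact key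

/-- The hypothesis on the regular sequence. -/
def Case {K : Type*} [Field K] {n c : ℕ} (a : Fin c → ℕ)
    (f : Fin c → MvPolynomial (Fin n) K) : Prop :=
  ∃ T : Finset (Fin c),
    (∀ i ∈ T, 3 ≤ (T.filter fun j => j < i).card →
      ∑ j ∈ T.filter (fun j => j < i), (a j - 1) < a i ∨ ∀ j ∈ T, j ≤ i → a j = 2) ∧
    ∀ i, i ∉ T →
      SplitsLinear (a i) (MvPolynomial.map (algebraMap K (AlgebraicClosure K)) (f i))

/-- The hypothesis for a prefix of the sequence. -/
theorem case_prefix {c' : ℕ} (h' : c' ≤ c) {a : Fin c → ℕ}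
    {f : Fin c → MvPolynomial (Fin n) K} (hcase : Case a f) :
    Case (fun i : Fin c' => a (Fin.castLE h' i)) (fun i : Fin c' => f (Fin.castLE h' i)) := by
  obtain ⟨T, hT, hs⟩ := hcase
  refine ⟨Finset.univ.filter fun i => Fin.castLE h' i ∈ T, ?_, ?_⟩
  · intro i hi h3
    rw [Finset.mem_filter] at hi
    have key : ((Finset.univ.filter fun i => Fin.castLE h' i ∈ T).filter fun j => j < i).map
        (Fin.castLEEmb h') = T.filter fun j => j < Fin.castLE h' i := by
      ext j
      simp only [Finset.mem_map, Finset.mem_filter, Finset.mem_univ, true_and]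
      constructor
      · rintro ⟨k, ⟨hk, hki⟩, rfl⟩
        exact ⟨hk, hki⟩
      · rintro ⟨hj, hji⟩
        have hj' : j.1 < c' := lt_trans hji i.2
        exact ⟨⟨j.1, hj'⟩, ⟨hj, hji⟩, rfl⟩
    have h1 := hT _ hi.2
    rw [← key, Finset.card_map, Finset.sum_map] at h1
    rcases h1 h3 with h2 | h2
    · exact Or.inl h2
    · refine Or.inr fun j hj hji => h2 _ (Finset.mem_filter.1 hj).2 ?_
      exact hji
  · intro i hi
    apply hs
    intro hiT
    exact hi (by simp [hiT])

theorem case_of_le_three (hc : c ≤ 3) (a : Fin c → ℕ) (f : Fin c → MvPolynomial (Fin n) K) :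
    Case a f := by
  refine ⟨Finset.univ, ?_, fun i hi => absurd (Finset.mem_univ i) hi⟩
  intro i _ hcard
  have h1 : (Finset.univ.filter fun j : Fin c => j < i).card = i.1 := by
    have : (Finset.univ.filter fun j : Fin c => j < i) = Finset.Iio i := by
      ext j; simp
    rw [this, Fin.card_Iio]
  rw [h1] at hcard
  have := i.2
  omega

theorem case_of_quadrics (a : Fin c → ℕ) (ha : ∀ i, a i = 2)
    (f : Fin c → MvPolynomial (Fin n) K) : Case a f :=
  ⟨Finset.univ, fun _ _ _ => Or.inr fun j _ _ => ha j,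
    fun i hi => absurd (Finset.mem_univ i) hi⟩

/-- The conjecture of Eisenbud, Green and Harris for these sequences. -/
theorem egh_case (h : c ≤ n) (a : Fin c → ℕ)
    (ha : Monotone a) (h2 : ∀ i, 2 ≤ a i) (f : Fin c → MvPolynomial (Fin n) K)
    (hf : ∀ i, (f i).IsHomogeneous (a i)) (hreg : IsRegularSeq f) (hcase : Case a f) :
    B.EGHfor h a f := by
  intro I hI hfI
  obtain ⟨T, hT, hs⟩ := hcase
  exact egh_final_quad K h a ha h2 f hf hreg T ⟨hT⟩ hs I hI hfI

theorem egh_and_lpp (h : c ≤ n) (a : Fin c → ℕ)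
    (ha : Monotone a) (h2 : ∀ i, 2 ≤ a i) (f : Fin c → MvPolynomial (Fin n) K)
    (hf : ∀ i, (f i).IsHomogeneous (a i)) (hreg : IsRegularSeq f) (hcase : Case a f)
    (I : Ideal (MvPolynomial (Fin n) K)) (hI : ∀ g ∈ I, ∀ d, homogeneousComponent d g ∈ I)
    (hfI : ∀ i, f i ∈ I) :
    ∃ J : Ideal (MvPolynomial (Fin n) K),
      J.restrictScalars K = lexPlusPowers h a I ∧
      (∀ j, bettiNumber I 1 j ≤ bettiNumber J 1 j) ∧
      (∀ j, bettiNumber I n j ≤ bettiNumber J n j) ∧
      (n ≤ 3 → ∀ p j, bettiNumber I p j ≤ bettiNumber J p j) := by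
  have hpos : ∀ i, 1 ≤ a i := fun i => le_trans one_le_two (h2 i)
  have hE : ∀ (c' : ℕ) (h' : c' ≤ c), B.EGHfor (h'.trans h)
      (fun i : Fin c' => a (Fin.castLE h' i)) (fun i : Fin c' => f (Fin.castLE h' i)) := by
    intro c' h'
    exact egh_case (h'.trans h) _ (fun i j hij => ha (by exact hij)) (fun i => h2 _) _
      (fun i => hf _) (B.regular_castLE hreg h') (case_prefix h' hcase)
  obtain ⟨J, hJ⟩ := egh_case h a ha h2 f hf hreg hcase I hI hfI
  simp only [B.bettiNumber_eq]
  exact ⟨J, hJ, B.betti_one_le h a ha hpos f hf hreg hE I hI hfI J hJ,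
    B.betti_top_le h a ha hpos f hf hreg (hE c le_rfl) I hI hfI J hJ,
    fun hn => B.lpp_le_three hn h a ha hpos f hf hreg hE I hI hfI J hJ⟩

end Vale.Agent.P200.Q
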