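import Vale.Agent.P200.Q.Small3

/-! Single degrees: growth from degree `2` to degree `3` for all regular sequences. -/

namespace Vale.Agent.P200.Q

open MvPolynomial Vale.Agent.P200.G

/-! ### the numerical statements over algebraically closed fields -/

/-- all forms split -/
theorem egh_all_split {K : Type*} [Field K] [Infinite K] : ∀ (n : ℕ) (a : Fin n → ℕ),
    Monotone a → (∀ i, 1 ≤ a i) →
    ∀ f : Fin n → MvPolynomial (Fin n) K, (∀ i, (f i).IsHomogeneous (a i)) →
      IsMPrimary (Ideal.span (Set.range f)) → (∀ i, SplitsLinear (a i) (f i)) →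
      ∀ I : Ideal (MvPolynomial (Fin n) K), HomIdeal I → (∀ i, f i ∈ I) → EGH a I := by
  intro n
  induction n with
  | zero =>
    intro a _ _ f hf hm _ I _ hfI d
    exact egh_large_small a (fun i => i.elim0) f hf hm I hfI d (by simp)
  | succ n ih =>
    intro a ha hpos f hf hm hs I hI hfI
    set k : Fin (n + 1) := 0
    refine egh_of_linear_factors a ha hpos k I hI (f k) (hs k)
      (ne_zero_of_isMPrimary a hpos f hf hm k) (hfI k) ?_
    intro l hl hl0 hdvd J hJ hIJ hlJ
    obtain ⟨φ, hφ⟩ := exists_eliminates hl hl0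
    have h1 := ih (fun i => a (k.succAbove i)) (fun i j hij => ha (by
        exact (Fin.strictMono_succAbove k).monotone hij)) (fun i => hpos _)
      (fun i => φ (f (k.succAbove i))) (fun i => hφ.homog _ _ (hf _))
      (hφ.isMPrimary k f hm hdvd) (fun i => hφ.splitsLinear (hs _))
      (J.map φ) (hφ.homIdeal_map hJ) (fun i => Ideal.mem_map_of_mem _ (hIJ (hfI _)))
    rw [egh_iff_num] at h1
    have h3 : hilb (J.map φ) = hilb J := funext fun d => hφ.hilb_map hlJ d
    rwa [h3] at h1

/-- growth in degrees `0`, `1` and `2` for all degrees of the forms -/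
theorem growth_le_two {K : Type*} [Field K] [IsAlgClosed K] {n : ℕ}
    (a : Fin n → ℕ) (ha : Monotone a) (h2 : ∀ i, 2 ≤ a i)
    (f : Fin n → MvPolynomial (Fin n) K) (hf : ∀ i, (f i).IsHomogeneous (a i))
    (hm : IsMPrimary (Ideal.span (Set.range f))) (I : Ideal (MvPolynomial (Fin n) K))
    (hfI : ∀ i, f i ∈ I) (d : ℕ) (hd : d ≤ 2) :
    up a d ((boxD a d).card - hilb I d) + hilb I (d + 1) ≤ (boxD a (d + 1)).card := by
  classical
  have hinf : Infinite K := IsAlgClosed.instInfinite
  have hpos : ∀ i, 1 ≤ a i := fun i => le_trans (by norm_num) (h2 i)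
  have hspan : Ideal.span (Set.range f) ≤ I := by
    rw [Ideal.span_le]
    rintro _ ⟨i, rfl⟩
    exact hfI i
  obtain rfl | rfl | rfl : d = 0 ∨ d = 1 ∨ d = 2 := by omega
  · by_cases h0 : hilb I 0 = 0
    · have h1 : (1 : MvPolynomial (Fin n) K) ∈ I :=
        (hilb_eq_zero_iff.1 h0) 1 (isHomogeneous_one _ _)
      have h3 : hilb I (0 + 1) = 0 := hilb_eq_zero_iff.2 fun g _ => by
        have := I.mul_mem_left g h1
        rwa [mul_one] at this
      rw [h3, add_zero]
      exact up_le_card _ _ _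
    · have h1 : (boxD a 0).card - hilb I 0 = 0 := by
        rw [card_boxD_zero hpos]
        omega
      rw [h1, up_zero, zero_add, ← hilb_span_eq_card_boxD a hpos f hf hm]
      exact hilb_antitone hspan _
  · refine growth_step a ha hpos f hf hm I hfI 1 le_rfl 3 (by norm_num) ?_
    intro a' hmono c1 c2 _ F hF hFm hFs I' hI' hFI'
    have h3 : ∀ i, a' i = 1 ∨ a' i = 3 := fun i => c2 i (h2 i)
    refine egh_all_split n a' hmono (fun i => by rcases h3 i with h | h <;> omega) F hF hFm
      (fun i => ?_) I' hI' hFI' 1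
    rcases h3 i with h | h
    · have h4 := hF i
      rw [h] at h4 ⊢
      exact ⟨fun _ => F i, fun _ => h4, by simp⟩
    · exact hFs i h
  · refine growth_step a ha hpos f hf hm I hfI 2 (by norm_num) 4 (by norm_num) ?_
    intro a' hmono c1 c2 _ F hF hFm hFs I' hI' hFI'
    have h3 : ∀ i, a' i = 2 ∨ a' i = 4 := by
      intro i
      rcases Nat.lt_or_ge 2 (a i) with h | h
      · exact c2 i h
      · have := h2 i
        rw [c1 i h]
        omega
    refine egh_main_small (base3 K) n a' hmono (fun i => by rcases h3 i with h | h <;> omega)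
      F hF hFm (Finset.univ.filter fun i => a' i ≠ 4) ⟨?_⟩
      (fun i hi => hFs i (by simpa using hi)) I' hI' hFI' 2
    intro i hi _
    refine Or.inr (Or.inl fun j hj _ => ?_)
    rw [Finset.mem_filter] at hj
    exact (h3 j).resolve_right hj.2

/-- growth in the last degrees -/
theorem growth_top {K : Type*} [Field K] [IsAlgClosed K] {n : ℕ}
    (a : Fin n → ℕ) (ha : Monotone a) (h2 : ∀ i, 2 ≤ a i)
    (f : Fin n → MvPolynomial (Fin n) K) (hf : ∀ i, (f i).IsHomogeneous (a i))
    (hm : IsMPrimary (Ideal.span (Set.range f))) (I : Ideal (MvPolynomial (Fin n) K))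
    (hI : HomIdeal I) (hfI : ∀ i, f i ∈ I) (d : ℕ) (hd : ∑ i, (a i - 1) ≤ d + 3) :
    up a d ((boxD a d).card - hilb I d) + hilb I (d + 1) ≤ (boxD a (d + 1)).card := by
  have hinf : Infinite K := IsAlgClosed.instInfinite
  have hpos : ∀ i, 1 ≤ a i := fun i => le_trans (by norm_num) (h2 i)
  rcases Nat.lt_or_ge (∑ i, (a i - 1)) (d + 1) with hd2 | hd2
  · exact egh_large_small a hpos f hf hm I hfI d hd2
  refine egh_dual a hpos f hf hm I hI hfI d hd2 ?_
  have h5 := growth_le_two a ha h2 f hf hm (colonIdeal (Ideal.span (Set.range f)) I)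
    (fun i h _ => Ideal.mul_mem_right _ _ (Ideal.subset_span ⟨i, rfl⟩))
    (∑ i, (a i - 1) - d - 1) (by omega)
  have h6 : ∑ i, (a i - 1) - d - 1 + 1 = ∑ i, (a i - 1) - d := by omega
  rwa [h6] at h5

/-! ### the literal statements -/

variable {K : Type*} [Field K] {n c : ℕ}

/-- exponents of degree `d` of the monomials in the lex-plus-powers space -/
theorem lexPart_eq (h : c ≤ n) (a : Fin c → ℕ) (I : Ideal (MvPolynomial (Fin n) K)) (d : ℕ) :
    lexPart h a I d = restrictSupport K {m | m ∈ lppSet K h a I ∧ ∑ i, m i = d} := by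
  apply le_antisymm
  · apply sup_le
    · rw [degPart_powerIdeal]
      apply restrictSupport_mono
      rintro m ⟨hm, hm2⟩
      exact ⟨Or.inl hm, hm2⟩
    · rw [Submodule.span_le]
      rintro _ ⟨m, ⟨hm, hm2⟩, rfl⟩
      show monomial m (1 : K) ∈ restrictSupport K _
      rw [monomial_mem_restrictSupport]
      left
      have h1 : ∑ i, m i = d := hm.2
      refine ⟨Or.inr ?_, h1⟩
      rw [h1]
      exact ⟨hm, hm2⟩
  · rw [restrictSupport_eq_span, Submodule.span_le]
    rintro _ ⟨m, ⟨hm, hmd⟩, rfl⟩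
    show monomial m (1 : K) ∈ lexPart h a I d
    rcases hm with hm | hm
    · apply Submodule.mem_sup_left
      rw [degPart_powerIdeal, monomial_mem_restrictSupport]
      exact Or.inl ⟨hm, hmd⟩
    · apply Submodule.mem_sup_right
      rw [hmd] at hm
      exact Submodule.subset_span ⟨m, hm, rfl⟩

/-- numerical growth in degree `d` gives the inclusion `S_1 J_d ⊆ J_{d+1}` -/
theorem mul_mem_lexPart (h : c ≤ n) (a : Fin c → ℕ)
    (I : Ideal (MvPolynomial (Fin n) K)) (d N : ℕ) (hN : d + 2 ≤ N)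
    (hg : up (extDeg h a N) d ((boxD (extDeg h a N) d).card - hilb I d) + hilb I (d + 1) ≤
        (boxD (extDeg h a N) (d + 1)).card)
    (g : MvPolynomial (Fin n) K) (hgJ : g ∈ lexPart h a I d) (i : Fin n) :
    X i * g ∈ lexPart h a I (d + 1) := by
  classical
  rw [lexPart_eq, mem_restrictSupport_iff] at hgJ ⊢
  intro m' hm'
  have hm'2 : m' ∈ (g * X i).support := by rwa [mul_comm] at hm'
  rw [support_mul_X, Finset.mem_map] at hm'2
  obtain ⟨m, hm, rfl⟩ := hm'2
  obtain ⟨hml, hmd⟩ := hgJ hm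
  have hsum : ∑ j, (addRightEmbedding (Finsupp.single i 1) m : Fin n →₀ ℕ) j = d + 1 := by
    simp only [addRightEmbedding_apply, Finsupp.add_apply, Finset.sum_add_distrib]
    rw [hmd]
    congr 1
    rw [Finset.sum_eq_single i]
    · simp
    · intro j _ hj
      rw [Finsupp.single_eq_of_ne hj]
    · intro hi
      exact absurd (Finset.mem_univ i) hi
  refine ⟨?_, hsum⟩
  rw [addRightEmbedding_apply] at hsum ⊢
  by_cases hin : ∃ j, a j ≤ (m + Finsupp.single i 1 : Fin n →₀ ℕ) (Fin.castLE h j)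
  · exact Or.inl hin
  · right
    have hm' : ¬ ∃ j, a j ≤ m (Fin.castLE h j) := by
      rintro ⟨j, hj⟩
      exact hin ⟨j, hj.trans (by simp)⟩
    rcases hml with hm | ⟨hm1, hm2⟩
    · exact absurd hm hm'
    · rw [hmd] at hm1 hm2
      set A := extDeg h a N with hA
      push Not at hin
      have hout : m + Finsupp.single i 1 ∈ outside h a (d + 1) := ⟨hin, hsum⟩
      rw [hsum]
      refine ⟨hout, ?_⟩
      have h1 : (m : Fin n → ℕ) ∈ lexSeg A d ((boxD A d).card - hilb I d) := by
        rw [lexSeg, Finset.mem_filter]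
        refine ⟨(mem_outside_iff h a (by omega) m).mp hm1, ?_⟩
        rw [← qdim_eq h a I (by omega), ← ncard_larger h a (by omega)]
        exact hm2
      have hfun : ((m + Finsupp.single i 1 : Fin n →₀ ℕ) : Fin n → ℕ) =
          Function.update (m : Fin n → ℕ) i (m i + 1) := by
        funext j
        by_cases hj : j = i
        · subst hj; simp
        · rw [Function.update_of_ne hj, Finsupp.add_apply, Finsupp.single_eq_of_ne hj, add_zero]
      have h2 : ((m + Finsupp.single i 1 : Fin n →₀ ℕ) : Fin n → ℕ) ∈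
          upShadow A (lexSeg A d ((boxD A d).card - hilb I d)) := by
        rw [mem_upShadow]
        refine ⟨?_, m, h1, i, hfun⟩
        exact (mem_boxD.mp ((mem_outside_iff h a (by omega) _).mp hout)).1
      rw [upShadow_lexSeg] at h2
      have h3 := lexSeg_mono (a := A) (d := d + 1)
        (show up A d ((boxD A d).card - hilb I d) ≤ (boxD A (d + 1)).card - hilb I (d + 1) by
          omega) h2
      rw [lexSeg, Finset.mem_filter, ← qdim_eq h a I (by omega), ← ncard_larger h a (by omega)]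
        at h3
      exact h3.2

/-- **Degrees 2 and 3.**  For every regular sequence of forms of degrees at least `2` and every
homogeneous ideal containing it, `S_1 J_d ⊆ J_{d+1}` for `d ≤ 2`. -/
theorem lexPart_growth_le_two (h : c ≤ n) (a : Fin c → ℕ)
    (ha : Monotone a) (h2 : ∀ i, 2 ≤ a i) (f : Fin c → MvPolynomial (Fin n) K)
    (hf : ∀ i, (f i).IsHomogeneous (a i)) (hreg : IsRegularSeq f)
    (I : Ideal (MvPolynomial (Fin n) K)) (hI : ∀ g ∈ I, ∀ d, homogeneousComponent d g ∈ I)
    (hfI : ∀ i, f i ∈ I) (d : ℕ) (hd : d ≤ 2) (g : MvPolynomial (Fin n) K)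
    (hg : g ∈ lexPart h a I d) (i : Fin n) : X i * g ∈ lexPart h a I (d + 1) := by
  set N := d + 2 + ∑ i, a i with hN
  have haN : ∀ i, a i ≤ N := by
    intro i
    have := Finset.single_le_sum (fun j _ => Nat.zero_le (a j)) (Finset.mem_univ i)
    omega
  refine mul_mem_lexPart h a I d N (by omega) ?_ g hg i
  refine growth_transfer K h a h2 f hf hreg I hI hfI d N (by omega) ?_
  intro F hF hFm _ _ I' _ hFI'
  exact growth_le_two _ (monotone_extDeg h a ha haN) (two_le_extDeg h a h2 (by omega)) F hF hFm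
    I' hFI' d hd

theorem extDeg_self (a : Fin n → ℕ) (N : ℕ) : extDeg le_rfl a N = a := by
  funext i
  simp [extDeg]

/-- **The last degrees**, for `c = n`. -/
theorem lexPart_growth_top (a : Fin n → ℕ)
    (ha : Monotone a) (h2 : ∀ i, 2 ≤ a i) (f : Fin n → MvPolynomial (Fin n) K)
    (hf : ∀ i, (f i).IsHomogeneous (a i)) (hreg : IsRegularSeq f)
    (I : Ideal (MvPolynomial (Fin n) K)) (hI : ∀ g ∈ I, ∀ d, homogeneousComponent d g ∈ I)
    (hfI : ∀ i, f i ∈ I) (d : ℕ) (hd : ∑ i, (a i - 1) ≤ d + 3) (g : MvPolynomial (Fin n) K)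
    (hg : g ∈ lexPart le_rfl a I d) (i : Fin n) : X i * g ∈ lexPart le_rfl a I (d + 1) := by
  refine mul_mem_lexPart le_rfl a I d (d + 2) le_rfl ?_ g hg i
  refine growth_transfer K le_rfl a h2 f hf hreg I hI hfI d (d + 2) le_rfl ?_
  intro F hF hFm _ _ I' hI' hFI'
  rw [extDeg_self] at hF ⊢
  exact growth_top a ha h2 F hF hFm I' hI' hFI' d hd

/-- The lex-plus-powers space in degree `e` does not see forms of larger degree. -/
theorem lexPart_castLE {c' : ℕ} (h : c ≤ n) (h' : c' ≤ c) (a : Fin c → ℕ)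
    (I : Ideal (MvPolynomial (Fin n) K)) (e : ℕ) (he : ∀ i : Fin c, c' ≤ i.1 → e < a i) :
    lexPart (h'.trans h) (fun i : Fin c' => a (Fin.castLE h' i)) I e = lexPart h a I e := by
  have hiff : ∀ m : Fin n →₀ ℕ, ∑ i, m i = e →
      ((∃ i : Fin c', a (Fin.castLE h' i) ≤ m (Fin.castLE (h'.trans h) i)) ↔
        ∃ i : Fin c, a i ≤ m (Fin.castLE h i)) := by
    intro m hm
    constructor
    · rintro ⟨i, hi⟩
      exact ⟨Fin.castLE h' i, hi⟩
    · rintro ⟨i, hi⟩
      have h1 : m (Fin.castLE h i) ≤ ∑ j, m j :=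
        Finset.single_le_sum (f := fun j => m j) (fun _ _ => Nat.zero_le _) (Finset.mem_univ _)
      have h2 : i.1 < c' := by
        by_contra hcon
        have := he i (by omega)
        omega
      exact ⟨⟨i.1, h2⟩, hi⟩
  have hP : degPart (powerIdeal K (h'.trans h) fun i : Fin c' => a (Fin.castLE h' i)) e =
      degPart (powerIdeal K h a) e := by
    rw [degPart_powerIdeal, degPart_powerIdeal]
    congr 1
    ext m
    constructor
    · rintro ⟨h1, h2⟩
      exact ⟨(hiff m h2).1 h1, h2⟩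
    · rintro ⟨h1, h2⟩
      exact ⟨(hiff m h2).2 h1, h2⟩
  have hO : outside (h'.trans h) (fun i : Fin c' => a (Fin.castLE h' i)) e = outside h a e := by
    ext m
    constructor
    · rintro ⟨h1, h2⟩
      refine ⟨fun i => ?_, h2⟩
      by_contra hcon
      obtain ⟨j, hj⟩ := (hiff m h2).2 ⟨i, not_lt.1 hcon⟩
      exact absurd (h1 j) (not_lt.2 hj)
    · rintro ⟨h1, h2⟩
      exact ⟨fun i => h1 (Fin.castLE h' i), h2⟩
  have hq : qdim (h'.trans h) (fun i : Fin c' => a (Fin.castLE h' i)) I e = qdim h a I e := by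
    rw [qdim, qdim, hP]
  rw [lexPart, lexPart, hP, hO, hq]

theorem mem_lexPart_iff (h : c ≤ n) (a : Fin c → ℕ) (I : Ideal (MvPolynomial (Fin n) K))
    (d : ℕ) (g : MvPolynomial (Fin n) K) :
    g ∈ lexPart h a I d ↔ g ∈ lexPlusPowers h a I ∧ g.IsHomogeneous d := by
  rw [lexPart_eq, lexPlusPowers_eq, mem_restrictSupport_iff, mem_restrictSupport_iff,
    isHomogeneous_iff_support]
  constructor
  · intro H
    exact ⟨fun m hm => (H hm).1, fun m hm => (H hm).2⟩
  · rintro ⟨H1, H2⟩ m hm
    exact ⟨H1 hm, H2 m hm⟩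

/-- **Low degrees.**  If the first `c'` forms are of one of the known types, and the other forms
have degree at least `d + 2`, then `S_1 J_d ⊆ J_{d+1}`. -/
theorem lexPart_growth_low {c' : ℕ} (h : c ≤ n) (h' : c' ≤ c) (a : Fin c → ℕ)
    (ha : Monotone a) (h2 : ∀ i, 2 ≤ a i) (f : Fin c → MvPolynomial (Fin n) K)
    (hf : ∀ i, (f i).IsHomogeneous (a i)) (hreg : IsRegularSeq f)
    (hcase : CaseS (fun i : Fin c' => a (Fin.castLE h' i)) (fun i : Fin c' => f (Fin.castLE h' i)))
    (I : Ideal (MvPolynomial (Fin n) K)) (hI : ∀ g ∈ I, ∀ d, homogeneousComponent d g ∈ I)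
    (hfI : ∀ i, f i ∈ I) (d : ℕ) (hd : ∀ i : Fin c, c' ≤ i.1 → d + 1 < a i)
    (g : MvPolynomial (Fin n) K) (hg : g ∈ lexPart h a I d) (i : Fin n) :
    X i * g ∈ lexPart h a I (d + 1) := by
  obtain ⟨J, hJ⟩ := egh_caseS (h'.trans h) _ (fun i j hij => ha (by exact hij)) (fun i => h2 _) _
      (fun i => hf _) (B.regular_castLE hreg h') hcase I hI (fun i => hfI _)
  rw [← lexPart_castLE h h' a I (d + 1) hd, mem_lexPart_iff]
  rw [← lexPart_castLE h h' a I d (fun i hi => by have := hd i hi; omega), mem_lexPart_iff] at hg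
  refine ⟨?_, ?_⟩
  · rw [← hJ] at hg ⊢
    exact J.mul_mem_left _ hg.1
  · rw [add_comm]
    exact (isHomogeneous_X K i).mul hg.2

end Vale.Agent.P200.Q
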