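import Vale.Agent.P200.Q.Dom0
import Vale.Agent.P200.Q.Count
import Vale.Agent.P200.G.CAReg

/-! Blocks of a complete intersection of quadrics: syzygies, and several copies of the
variables. -/

namespace Vale.Agent.P200.Q

open MvPolynomial Vale.Agent.P200.G

variable {K : Type*} [Field K]

/-- syzygies of a regular sequence have coefficients in the ideal -/
theorem syz_of_isRegSeq {R : Type*} [CommRing R] : ∀ {c : ℕ} (f : Fin c → R) (_ : IsRegSeq f)
    (g : Fin c → R), ∑ i, f i * g i = 0 → ∀ i, g i ∈ Ideal.span (Set.range f) := by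
  intro c
  induction c with
  | zero => intro f _ g _ i; exact i.elim0
  | succ c ih =>
    intro f hf g hg
    have himg : f '' {j | j < Fin.last c} = Set.range fun i : Fin c => f i.castSucc := by
      ext x
      constructor
      · rintro ⟨j, hj, rfl⟩
        exact ⟨j.castPred (ne_of_lt hj), by simp⟩
      · rintro ⟨i, rfl⟩
        exact ⟨i.castSucc, Fin.castSucc_lt_last i, rfl⟩
    have himg2 : ∀ i : Fin c, f '' {j | j < i.castSucc} =
        (fun i : Fin c => f i.castSucc) '' {j | j < i} := by
      intro i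
      ext x
      constructor
      · rintro ⟨j, hj, rfl⟩
        have hj' : j < i.castSucc := hj
        have hne : j ≠ Fin.last c := by
          rintro rfl
          exact absurd (Fin.castSucc_lt_last i) (not_lt.2 hj'.le)
        refine ⟨j.castPred hne, ?_, by simp⟩
        change j.castPred hne < i
        rw [Fin.lt_def] at hj' ⊢
        exact hj'
      · rintro ⟨j, hj, rfl⟩
        exact ⟨j.castSucc, hj, rfl⟩
    have hreg : IsRegSeq fun i : Fin c => f i.castSucc := by
      intro i x hx
      have h1 := hf i.castSucc x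
      rw [himg2] at h1
      exact h1 hx
    rw [Fin.sum_univ_castSucc] at hg
    have hlast : g (Fin.last c) ∈ Ideal.span (Set.range fun i : Fin c => f i.castSucc) := by
      have h1 := hf (Fin.last c) (g (Fin.last c))
      rw [himg] at h1
      apply h1
      have h2 : f (Fin.last c) * g (Fin.last c) = -∑ i : Fin c, f i.castSucc * g i.castSucc := by
        rw [eq_neg_iff_add_eq_zero, add_comm]
        exact hg
      rw [h2]
      refine Ideal.neg_mem_iff _ |>.2 (Ideal.sum_mem _ fun i _ => ?_)
      exact Ideal.mul_mem_right _ _ (Ideal.subset_span ⟨i, rfl⟩)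
    have hmono : Ideal.span (Set.range fun i : Fin c => f i.castSucc) ≤
        Ideal.span (Set.range f) := by
      apply Ideal.span_mono
      rintro _ ⟨i, rfl⟩
      exact ⟨_, rfl⟩
    obtain ⟨h, hh⟩ := (Ideal.mem_span_range_iff_exists_fun).1 hlast
    have h3 : ∑ i : Fin c, f i.castSucc * (g i.castSucc + h i * f (Fin.last c)) = 0 := by
      rw [← hg, ← hh, Finset.mul_sum, ← Finset.sum_add_distrib]
      refine Finset.sum_congr rfl fun i _ => ?_
      ring
    have h4 := ih (fun i : Fin c => f i.castSucc) hreg _ h3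
    intro i
    refine Fin.lastCases ?_ (fun i => ?_) i
    · exact hmono hlast
    · have h5 := hmono (h4 i)
      have h6 : h i * f (Fin.last c) ∈ Ideal.span (Set.range f) :=
        Ideal.mul_mem_left _ _ (Ideal.subset_span ⟨_, rfl⟩)
      have h7 := Ideal.sub_mem _ h5 h6
      rwa [add_sub_cancel_right] at h7

/-- a quadric is a combination of products of variables -/
theorem exists_coeffs {n : ℕ} {g : MvPolynomial (Fin n) K} (hg : g.IsHomogeneous 2) :
    ∃ b : Fin n → Fin n → K, g = ∑ k, ∑ l, C (b k l) * (X k * X l) := by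
  have h1 : g ∈ Submodule.span K (Set.range fun p : Fin n × Fin n =>
      (X p.1 * X p.2 : MvPolynomial (Fin n) K)) := by
    have h2 : g ∈ homogeneousSubmodule (Fin n) K 2 := hg
    rw [← homogeneousSubmodule_one_pow, homogeneousSubmodule_one_eq_span_X, pow_two,
      Submodule.span_mul_span] at h2
    refine Submodule.span_mono ?_ h2
    rintro _ ⟨_, ⟨i, rfl⟩, _, ⟨j, rfl⟩, rfl⟩
    exact ⟨(i, j), rfl⟩
  obtain ⟨c, hc⟩ := (Submodule.mem_span_range_iff_exists_fun K).1 h1
  refine ⟨fun k l => c (k, l), ?_⟩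
  rw [← hc, ← Finset.univ_product_univ, Finset.sum_product]
  refine Finset.sum_congr rfl fun k _ => Finset.sum_congr rfl fun l _ => ?_
  rw [smul_eq_C_mul]

theorem isHomogeneous_of_coeffs {n : ℕ} (b : Fin n → Fin n → K) :
    (∑ k, ∑ l, C (b k l) * (X k * X l) : MvPolynomial (Fin n) K).IsHomogeneous 2 := by
  refine IsHomogeneous.sum _ _ _ fun k _ => IsHomogeneous.sum _ _ _ fun l _ => ?_
  have h1 := (isHomogeneous_C (Fin n) (b k l)).mul
    ((isHomogeneous_X K k).mul (isHomogeneous_X K l))
  simpa using h1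

/-- enough to have powers of the variables -/
theorem isMPrimary_of_pow_mem {n : ℕ} {I : Ideal (MvPolynomial (Fin n) K)} (M : ℕ)
    (h : ∀ i, (X i : MvPolynomial (Fin n) K) ^ M ∈ I) : IsMPrimary I := by
  refine ⟨n * M + 1, fun d hd g hg => ?_⟩
  rw [g.as_sum]
  refine I.sum_mem fun m hm => ?_
  have h1 : ∑ i, m i = d := by
    have h2 := hg (mem_support_iff.1 hm)
    rw [← h2, Finsupp.weight_apply, Finsupp.sum_fintype]
    · simp
    · simp
  obtain ⟨i, hi⟩ : ∃ i, M ≤ m i := by
    by_contra hcon
    push Not at hcon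
    have h3 : ∑ i, m i ≤ ∑ _i : Fin n, M := Finset.sum_le_sum fun i _ => (hcon i).le
    rw [Finset.sum_const, Finset.card_univ, Fintype.card_fin, smul_eq_mul] at h3
    omega
  have h4 : monomial m (coeff m g) =
      monomial (m - Finsupp.single i M) (coeff m g) * (X i) ^ M := by
    rw [X_pow_eq_monomial, monomial_mul, mul_one]
    congr 1
    rw [tsub_add_cancel_of_le]
    rwa [Finsupp.single_le_iff]
  rw [h4]
  exact I.mul_mem_left _ (h i)

section Blocks

variable {r s : ℕ}

/-- block decomposition of the index set -/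
abbrev bl : Fin r × Fin s ≃ Fin (r * s) := finProdFinEquiv

/-- The copies of a system. -/
noncomputable def sysF (r : ℕ) (g : Fin s → MvPolynomial (Fin s) K) (p : Fin (r * s)) :
    MvPolynomial (Fin (r * s)) K :=
  rename (fun k => bl ((bl.symm p).1, k)) (g (bl.symm p).2)

/-- coefficients of the copies -/
noncomputable def sysB (r : ℕ) (b : Fin s → Fin s → Fin s → K) (p : Fin (r * s)) :
    Matrix (Fin (r * s)) (Fin (r * s)) K := fun x y =>
  if (bl.symm x).1 = (bl.symm p).1 ∧ (bl.symm y).1 = (bl.symm p).1 then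
    b (bl.symm p).2 (bl.symm x).2 (bl.symm y).2 else 0

theorem sysB_apply (b : Fin s → Fin s → Fin s → K) (i j j' : Fin r) (m k l : Fin s) :
    sysB r b (bl (i, m)) (bl (j, k)) (bl (j', l)) =
      if j = i ∧ j' = i then b m k l else 0 := by
  simp only [sysB, Equiv.symm_apply_apply]

theorem sum_bl {M : Type*} [AddCommMonoid M] (F : Fin (r * s) → M) :
    ∑ p, F p = ∑ i : Fin r, ∑ k : Fin s, F (bl (i, k)) := by
  rw [← bl.sum_comp, ← Finset.univ_product_univ, Finset.sum_product]

theorem sysF_eq (b : Fin s → Fin s → Fin s → K) (g : Fin s → MvPolynomial (Fin s) K)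
    (hg : ∀ m, g m = ∑ k, ∑ l, C (b m k l) * (X k * X l)) (p : Fin (r * s)) :
    sysF r g p = ∑ x, ∑ y, C (sysB r b p x y) * X x * X y := by
  obtain ⟨⟨i, m⟩, rfl⟩ := bl.surjective p
  rw [sum_bl]
  rw [Finset.sum_eq_single i]
  · unfold sysF
    rw [Equiv.symm_apply_apply, hg, map_sum]
    refine Finset.sum_congr rfl fun k _ => ?_
    rw [map_sum, sum_bl, Finset.sum_eq_single i]
    · refine Finset.sum_congr rfl fun l _ => ?_
      rw [sysB_apply, if_pos ⟨rfl, rfl⟩, map_mul, map_mul, rename_C, rename_X, rename_X, mul_assoc]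
    · intro j _ hj
      refine Finset.sum_eq_zero fun l _ => ?_
      rw [sysB_apply, if_neg fun h => hj h.2, map_zero, zero_mul, zero_mul]
    · intro h
      exact absurd (Finset.mem_univ _) h
  · intro j _ hj
    refine Finset.sum_eq_zero fun k _ => Finset.sum_eq_zero fun y _ => ?_
    obtain ⟨⟨j', l⟩, rfl⟩ := bl.surjective y
    rw [sysB_apply, if_neg fun h => hj h.1, map_zero, zero_mul, zero_mul]
  · intro h
    exact absurd (Finset.mem_univ _) h

theorem isMPrimary_sysF (g : Fin s → MvPolynomial (Fin s) K)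
    (h : IsMPrimary (Ideal.span (Set.range g))) :
    IsMPrimary (Ideal.span (Set.range (sysF r g))) := by
  obtain ⟨M, hM⟩ := h
  refine isMPrimary_of_pow_mem M fun p => ?_
  obtain ⟨⟨i, k⟩, rfl⟩ := bl.surjective p
  have h1 : (X k : MvPolynomial (Fin s) K) ^ M ∈ Ideal.span (Set.range g) := by
    refine hM M le_rfl _ ?_
    have := (isHomogeneous_X K k).pow M
    simpa using this
  have h2 := Ideal.mem_map_of_mem (rename (R := K) fun l => bl (i, l)) h1
  rw [map_pow, rename_X, Ideal.map_span] at h2
  refine Ideal.span_mono ?_ h2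
  rintro _ ⟨_, ⟨m, rfl⟩, rfl⟩
  exact ⟨bl (i, m), by unfold sysF; rw [Equiv.symm_apply_apply]⟩

end Blocks

end Vale.Agent.P200.Q
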