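import Mathlib
import Vale.Agent.P200.Defs

/-!
EGH for quadrics, block DOMAIN: definitions.
`KData B`: the homotopy matrices of the complete intersection of the quadrics
`F_m = ∑ B_m[a,b] x_a x_b`.
`GMod B W`: graded modules over the Clifford algebra of `∑ y_m F_m` over `P = K[y_0..y_(N-1)]`.
-/

set_option linter.all false

namespace Vale.Agent.P200.Q

open MvPolynomial

/-- matrices of the multiplications by the variables (`X`) and of the homotopies (`h`) on a
graded `N`-dimensional complete intersection of quadrics with a homogeneous basis `σ` -/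
structure KData {K : Type*} [Field K] {N : ℕ} (B : Fin N → Matrix (Fin N) (Fin N) K) where
  σ : Type
  fin : Fintype σ
  dec : DecidableEq σ
  deg : σ → ℕ
  X : Fin N → Matrix σ σ K
  h : Fin N → Fin N → Matrix σ σ K
  X_deg : ∀ a t s, X a t s ≠ 0 → deg t = deg s + 1
  h_deg : ∀ m a t s, h m a t s ≠ 0 → deg s = deg t + 1
  comm : ∀ a b, X a * X b = X b * X a
  rel : ∀ l, ∑ a, ∑ b, B l a b • (X a * X b) = 0
  symm : ∀ m a b, X a * h m b + h m a * X b = X b * h m a + h m b * X a
  htpy : ∀ l m, ∑ a, ∑ b, B l a b • (X a * h m b + h m a * X b) = if l = m then 1 else 0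
  card : ∀ j, (Finset.univ.filter fun s => deg s = j).card = N.choose j

attribute [instance] KData.fin KData.dec

/-- graded modules over the Clifford algebra of `∑ y_m F_m` (`y_m = X m` of degree `2`,
`E a` of degree `1`) -/
structure GMod {K : Type*} [Field K] {N : ℕ} (B : Fin N → Matrix (Fin N) (Fin N) K)
    (W : Type*) [AddCommGroup W] [Module K W] [Module (MvPolynomial (Fin N) K) W] where
  E : Fin N → W →ₗ[MvPolynomial (Fin N) K] W
  gr : ℕ → Submodule K W
  pr : ℕ → W →ₗ[K] W
  pr_self : ∀ c u, u ∈ gr c → pr c u = u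
  pr_ne : ∀ c c' u, u ∈ gr c' → c' ≠ c → pr c u = 0
  pr_y : ∀ c m u, pr (c + 2) ((X m : MvPolynomial (Fin N) K) • u) =
    (X m : MvPolynomial (Fin N) K) • pr c u
  pr_y0 : ∀ c m u, c < 2 → pr c ((X m : MvPolynomial (Fin N) K) • u) = 0
  cliff : ∀ a b u, E a (E b u) + E b (E a u) =
    ∑ m, (B m a b + B m b a) • ((X m : MvPolynomial (Fin N) K) • u)
  sq : ∀ a u, E a (E a u) = ∑ m, B m a a • ((X m : MvPolynomial (Fin N) K) • u)

end Vale.Agent.P200.Q
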