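import Vale.Agent.P200.Q.Dom0
import Vale.Agent.P200.G.HilbBasic

/-! D1: homotopy matrices. -/

set_option linter.all false

namespace Vale.Agent.P200.Q

open MvPolynomial Vale.Agent.P200.G

/-- coordinates on one degree piece of `S / I` -/
theorem d1_exists_coord {K : Type*} [Field K] {N : ℕ} (I : Ideal (MvPolynomial (Fin N) K))
    (j : ℕ) {r : ℕ} (hr : hilb I j = r) :
    ∃ (q : MvPolynomial (Fin N) K →ₗ[K] (Fin r → K)) (b : Fin r → MvPolynomial (Fin N) K),
      (∀ i, (b i).IsHomogeneous j) ∧ (∀ i, q (b i) = Pi.single i 1) ∧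
      (∀ u, q u = 0 ↔ homogeneousComponent j u ∈ I) := by
  classical
  let A := homogeneousSubmodule (Fin N) K j
  let P : Submodule K A := (piece I j).comap A.subtype
  have hP : Module.finrank K (A ⧸ P) = r := by
    have h1 := Submodule.finrank_quotient_add_finrank P
    have h2 : Module.finrank K P = Module.finrank K (piece I j) := by
      exact (Submodule.comapSubtypeEquivOfLe (piece_le I j)).finrank_eq
    have h3 := finrank_piece_add_hilb I j
    have h4 : Module.finrank K A = Module.finrank K (homogeneousSubmodule (Fin N) K j) := rfl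
    omega
  let e : (A ⧸ P) ≃ₗ[K] (Fin r → K) := 
    LinearEquiv.ofFinrankEq _ _ (by rw [hP, Module.finrank_fin_fun])
  let c : MvPolynomial (Fin N) K →ₗ[K] A :=
    LinearMap.codRestrict A (homogeneousComponent j) 
      (fun u => homogeneousComponent_mem j u)
  have hsurj : ∀ i : Fin r, ∃ a : A, e (P.mkQ a) = Pi.single i 1 := by
    intro i
    obtain ⟨x, hx⟩ := e.surjective (Pi.single i 1)
    obtain ⟨a, ha⟩ := P.mkQ_surjective x
    exact ⟨a, by rw [ha, hx]⟩
  choose b hb using hsurj
  refine ⟨e.toLinearMap ∘ₗ P.mkQ ∘ₗ c, fun i => (b i : MvPolynomial (Fin N) K), ?_, ?_, ?_⟩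
  · intro i
    exact (b i).2
  · intro i
    have h1 : c (b i : MvPolynomial (Fin N) K) = b i := by
      apply Subtype.ext
      exact comp_self (b i).2
    simp only [LinearMap.comp_apply, h1]
    exact hb i
  · intro u
    simp only [LinearMap.comp_apply, LinearEquiv.coe_coe]
    rw [LinearEquiv.map_eq_zero_iff, Submodule.mkQ_apply, Submodule.Quotient.mk_eq_zero]
    constructor
    · intro h
      exact h.1
    · intro h
      exact ⟨h, (c u).2⟩

/-- an abstract form of the coordinates of `S / I` -/
theorem d1_main {K : Type*} [Field K] {N : ℕ} (B : Fin N → Matrix (Fin N) (Fin N) K)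
    (F : Fin N → MvPolynomial (Fin N) K)
    (hF : ∀ m, F m = ∑ a, ∑ b, C (B m a b) * X a * X b)
    (hsyz : ∀ g : Fin N → MvPolynomial (Fin N) K, ∑ m, F m * g m = 0 →
      ∀ m, g m ∈ Ideal.span (Set.range F))
    (σ : Type) [Fintype σ] [DecidableEq σ] (deg : σ → ℕ)
    (hcard : ∀ j, (Finset.univ.filter fun s => deg s = j).card = N.choose j)
    (q : MvPolynomial (Fin N) K →ₗ[K] (σ → K)) (b : σ → MvPolynomial (Fin N) K)
    (hb : ∀ s, (b s).IsHomogeneous (deg s))
    (hqb : ∀ s, q (b s) = Pi.single s 1)
    (hq0 : ∀ u, q u = 0 ↔ u ∈ Ideal.span (Set.range F))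
    (hqd : ∀ u j, u.IsHomogeneous j → ∀ s, q u s ≠ 0 → deg s = j) :
    Nonempty (KData B) := by
  classical
  set I := Ideal.span (Set.range F) with hIdef
  have hFh : ∀ m, (F m).IsHomogeneous 2 := by
    intro m
    rw [hF m]
    refine IsHomogeneous.sum _ _ _ fun a _ => IsHomogeneous.sum _ _ _ fun c _ => ?_
    have h := ((isHomogeneous_C (Fin N) (B m a c)).mul (isHomogeneous_X K a)).mul
      (isHomogeneous_X K c)
    simpa using h
  -- representation of homogeneous elements of the ideal
  have hrep : ∀ (d : ℕ) (v : MvPolynomial (Fin N) K), v.IsHomogeneous (d + 1) → v ∈ I →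
      ∃ H : Fin N → MvPolynomial (Fin N) K,
        (∀ m t, q (H m) t ≠ 0 → d = deg t + 1) ∧ v = ∑ m, F m * H m := by
    intro d v hv hvI
    obtain ⟨g, hg⟩ := (Submodule.mem_span_range_iff_exists_fun (MvPolynomial (Fin N) K)).1 hvI
    have hg' : v = ∑ m, F m * g m := by
      rw [← hg]
      exact Finset.sum_congr rfl fun m _ => by rw [smul_eq_mul, mul_comm]
    have h1 : v = ∑ m, homogeneousComponent (d + 1) (F m * g m) := by
      rw [← map_sum, ← hg', comp_self hv]
    rcases Nat.eq_zero_or_pos d with hd | hd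
    · refine ⟨0, ?_, ?_⟩
      · intro m t h
        exact absurd (by simp) h
      · rw [h1]
        simp only [Pi.zero_apply, mul_zero, Finset.sum_const_zero]
        exact Finset.sum_eq_zero fun m _ => comp_mul_of_lt (hFh m) _ (by omega)
    · obtain ⟨e, rfl⟩ : ∃ e, d = e + 1 := ⟨d - 1, by omega⟩
      refine ⟨fun m => homogeneousComponent e (g m), ?_, ?_⟩
      · intro m t h
        rw [hqd _ e (homogeneousComponent_isHomogeneous _ _) t h]
      · rw [h1]
        refine Finset.sum_congr rfl fun m _ => ?_
        rw [← comp_mul_add (hFh m)]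
  -- the section
  let s : (σ → K) →ₗ[K] MvPolynomial (Fin N) K := Fintype.linearCombination K b
  have hs : ∀ v, s v = ∑ t, v t • b t := fun v => Fintype.linearCombination_apply K b v
  have hqs : ∀ v, q (s v) = v := by
    intro v
    rw [hs, map_sum]
    ext t
    simp only [map_smul, hqb, Finset.sum_apply, Pi.smul_apply, smul_eq_mul]
    simp [Pi.single_apply]
  have hsub : ∀ u, u - s (q u) ∈ I := by
    intro u
    rw [← hq0, map_sub, hqs, sub_self]
  have hmulq : ∀ p u, q (p * u) = q (p * s (q u)) := by
    intro p u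
    have h : p * u - p * s (q u) ∈ I := by
      rw [← mul_sub]
      exact I.mul_mem_left _ (hsub u)
    rw [← hq0, map_sub, sub_eq_zero] at h
    exact h
  let Xm : Fin N → Matrix σ σ K := fun a => Matrix.of fun t s' => q (X a * b s') t
  have hXb : ∀ a s', q (X a * b s') = (Xm a).mulVec (Pi.single s' 1) := by
    intro a s'
    rw [Matrix.mulVec_single_one]
    rfl
  have hX : ∀ a v, q (X a * s v) = (Xm a).mulVec v := by
    intro a v
    have h1 : ∀ v, q (X a * s v) =
        (q ∘ₗ (LinearMap.mulLeft K (X a : MvPolynomial (Fin N) K)) ∘ₗ s) v := fun v => rfl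
    have h2 : (q ∘ₗ (LinearMap.mulLeft K (X a : MvPolynomial (Fin N) K)) ∘ₗ s) =
        Matrix.mulVecLin (Xm a) := by
      refine LinearMap.pi_ext' fun s' => LinearMap.ext_ring ?_
      simp only [LinearMap.comp_apply, LinearMap.coe_single, Matrix.mulVecLin_apply,
        LinearMap.mulLeft_apply]
      rw [← hXb]
      congr 2
      rw [hs]
      simp [Pi.single_apply]
    rw [h1, h2, Matrix.mulVecLin_apply]
  have hXq : ∀ a u, q (X a * u) = (Xm a).mulVec (q u) := by
    intro a u
    rw [hmulq, hX]
  -- the homotopies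
  have hH : ∀ (a : Fin N) (s' : σ), ∃ H : Fin N → MvPolynomial (Fin N) K,
      (∀ m t, q (H m) t ≠ 0 → deg s' = deg t + 1) ∧
      X a * b s' - s (q (X a * b s')) = ∑ m, F m * H m := by
    intro a s'
    refine hrep (deg s') _ ?_ (hsub _)
    have h1 : (X a * b s' : MvPolynomial (Fin N) K).IsHomogeneous (deg s' + 1) := by
      have := (isHomogeneous_X K a).mul (hb s')
      rwa [add_comm] at this
    refine h1.sub ?_
    rw [hs]
    refine IsHomogeneous.sum _ _ _ fun t _ => ?_
    by_cases h : q (X a * b s') t = 0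
    · rw [h, zero_smul]
      exact isHomogeneous_zero _ _ _
    · rw [smul_eq_C_mul, ← hqd _ _ h1 t h]
      have := (isHomogeneous_C (Fin N) (q (X a * b s') t)).mul (hb t)
      rwa [zero_add] at this
  choose H hHd hHe using hH
  let Hl : Fin N → Fin N → (σ → K) →ₗ[K] MvPolynomial (Fin N) K := fun m a =>
    Fintype.linearCombination K (fun s' => H a s' m)
  have hHl : ∀ m a v, Hl m a v = ∑ s', v s' • H a s' m := fun m a v =>
    Fintype.linearCombination_apply K _ v
  let hm : Fin N → Fin N → Matrix σ σ K := fun m a => Matrix.of fun t s' => q (H a s' m) t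
  have hHq : ∀ m a v, q (Hl m a v) = (hm m a).mulVec v := by
    intro m a v
    rw [hHl, map_sum]
    ext t
    simp only [map_smul, Finset.sum_apply, Pi.smul_apply, smul_eq_mul, Matrix.mulVec,
      dotProduct, hm, Matrix.of_apply]
    exact Finset.sum_congr rfl fun _ _ => mul_comm _ _
  have h1 : ∀ a v, X a * s v = s ((Xm a).mulVec v) + ∑ m, F m * Hl m a v := by
    intro a v
    rw [← hX]
    have hv : s v = ∑ s', v s' • b s' := hs v
    have e1 : X a * s v = ∑ s', v s' • (X a * b s') := by
      rw [hv, Finset.mul_sum]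
      exact Finset.sum_congr rfl fun s' _ => by rw [mul_smul_comm]
    have e2 : ∀ s', X a * b s' = s (q (X a * b s')) + ∑ m, F m * H a s' m := by
      intro s'
      rw [← hHe a s']
      ring
    have e3 : s (q (X a * s v)) = ∑ s', v s' • s (q (X a * b s')) := by
      rw [e1, map_sum, map_sum]
      exact Finset.sum_congr rfl fun s' _ => by rw [map_smul, map_smul]
    have e4 : ∑ m, F m * Hl m a v = ∑ s', v s' • ∑ m, F m * H a s' m := by
      simp only [hHl, Finset.mul_sum, Finset.smul_sum, mul_smul_comm]
      rw [Finset.sum_comm]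
    rw [e3, e4, ← Finset.sum_add_distrib, e1]
    refine Finset.sum_congr rfl fun s' _ => ?_
    rw [← smul_add, ← e2]
  have h2 : ∀ c a v, X c * (X a * s v) = s ((Xm c).mulVec ((Xm a).mulVec v)) +
      ∑ m, F m * (Hl m c ((Xm a).mulVec v) + X c * Hl m a v) := by
    intro c a v
    rw [h1 a v, mul_add, h1 c, add_assoc, Finset.mul_sum, ← Finset.sum_add_distrib]
    congr 1
    exact Finset.sum_congr rfl fun m _ => by ring
  have h3 : ∀ c a v, q (X c * (X a * s v)) = (Xm c).mulVec ((Xm a).mulVec v) := by
    intro c a v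
    rw [hXq, hXq, hqs]
  have hcomm : ∀ a c, Xm a * Xm c = Xm c * Xm a := by
    intro a c
    refine Matrix.ext_of_mulVec_single fun i => ?_
    rw [← Matrix.mulVec_mulVec, ← Matrix.mulVec_mulVec, ← h3, ← h3]
    congr 1
    ring
  have hFs : ∀ l (u : MvPolynomial (Fin N) K), F l * u = ∑ a, ∑ c, B l a c • (X a * (X c * u)) := by
    intro l u
    rw [hF l, Finset.sum_mul]
    refine Finset.sum_congr rfl fun a _ => ?_
    rw [Finset.sum_mul]
    refine Finset.sum_congr rfl fun c _ => ?_
    rw [smul_eq_C_mul]
    ring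
  have hFI : ∀ l (u : MvPolynomial (Fin N) K), F l * u ∈ I := fun l u =>
    I.mul_mem_right _ (Ideal.subset_span ⟨l, rfl⟩)
  have hrel : ∀ l, ∑ a, ∑ c, B l a c • (Xm a * Xm c) = 0 := by
    intro l
    refine Matrix.ext_of_mulVec_single fun i => ?_
    have h4 := (hq0 _).2 (hFI l (s (Pi.single i 1)))
    rw [hFs] at h4
    simp only [map_sum, map_smul, h3] at h4
    rw [Matrix.zero_mulVec, ← h4]
    simp only [Matrix.sum_mulVec, Matrix.smul_mulVec, Matrix.mulVec_mulVec]
  have hsymm : ∀ m a c, Xm a * hm m c + hm m a * Xm c = Xm c * hm m a + hm m c * Xm a := by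
    intro m a c
    refine Matrix.ext_of_mulVec_single fun i => ?_
    set v : σ → K := Pi.single i 1
    have h5 : ∑ m, F m * ((Hl m a ((Xm c).mulVec v) + X a * Hl m c v) -
        (Hl m c ((Xm a).mulVec v) + X c * Hl m a v)) = 0 := by
      simp only [mul_sub, Finset.sum_sub_distrib]
      have e1 := h2 a c v
      have e2 := h2 c a v
      have e3 : (Xm a).mulVec ((Xm c).mulVec v) = (Xm c).mulVec ((Xm a).mulVec v) := by
        rw [Matrix.mulVec_mulVec, Matrix.mulVec_mulVec, hcomm]
      rw [e3] at e1
      have e4 : X a * (X c * s v) = X c * (X a * s v) := by ring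
      rw [e4, e2] at e1
      rw [← add_left_cancel e1, sub_self]
    have h6 := (hq0 _).2 (hsyz _ h5 m)
    rw [map_sub, map_add, map_add, hHq, hHq, hXq, hXq, hHq, hHq, sub_eq_zero] at h6
    simp only [Matrix.add_mulVec, ← Matrix.mulVec_mulVec]
    rw [add_comm, h6, add_comm]
  have hhtpy : ∀ l m, ∑ a, ∑ c, B l a c • (Xm a * hm m c + hm m a * Xm c) =
      if l = m then 1 else 0 := by
    intro l m
    refine Matrix.ext_of_mulVec_single fun i => ?_
    set v : σ → K := Pi.single i 1
    have h7 : F l * s v = ∑ m, F m * ∑ a, ∑ c, B l a c •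
        (Hl m a ((Xm c).mulVec v) + X a * Hl m c v) := by
      rw [hFs]
      have e1 : ∑ a, ∑ c, B l a c • (X a * (X c * s v)) =
          s ((∑ a, ∑ c, B l a c • (Xm a * Xm c)).mulVec v) +
          ∑ a, ∑ c, B l a c • ∑ m, F m * (Hl m a ((Xm c).mulVec v) + X a * Hl m c v) := by
        simp only [Matrix.sum_mulVec, Matrix.smul_mulVec, ← Matrix.mulVec_mulVec, map_sum,
          map_smul]
        rw [← Finset.sum_add_distrib]
        refine Finset.sum_congr rfl fun a _ => ?_
        rw [← Finset.sum_add_distrib]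
        refine Finset.sum_congr rfl fun c _ => ?_
        rw [h2 a c v, smul_add]
      rw [e1, hrel, Matrix.zero_mulVec, map_zero, zero_add]
      simp only [Finset.mul_sum, Finset.smul_sum, mul_smul_comm]
      exact (Finset.sum_congr rfl fun a _ => Finset.sum_comm).trans Finset.sum_comm
    have h8 : ∑ k, F k * ((∑ a, ∑ c, B l a c •
        (Hl k a ((Xm c).mulVec v) + X a * Hl k c v)) - if l = k then s v else 0) = 0 := by
      simp only [mul_sub, Finset.sum_sub_distrib]
      rw [← h7]
      simp
    have h9 := (hq0 _).2 (hsyz _ h8 m)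
    rw [map_sub, sub_eq_zero] at h9
    simp only [map_sum, map_smul, map_add, hHq, hXq] at h9
    simp only [Matrix.sum_mulVec, Matrix.smul_mulVec, Matrix.add_mulVec, ← Matrix.mulVec_mulVec]
    have e5 : ∀ a c, (Xm a).mulVec ((hm m c).mulVec v) + (hm m a).mulVec ((Xm c).mulVec v) =
        (hm m a).mulVec ((Xm c).mulVec v) + (Xm a).mulVec ((hm m c).mulVec v) :=
      fun a c => add_comm _ _
    simp only [e5]
    rw [h9]
    split_ifs
    · rw [hqs, Matrix.one_mulVec]
    · rw [map_zero, Matrix.zero_mulVec]
  exact ⟨{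
    σ := σ
    fin := inferInstance
    dec := inferInstance
    deg := deg
    X := Xm
    h := hm
    X_deg := by
      intro a t s' h
      have h1 : (X a * b s' : MvPolynomial (Fin N) K).IsHomogeneous (deg s' + 1) := by
        have := (isHomogeneous_X K a).mul (hb s')
        rwa [add_comm] at this
      exact hqd _ _ h1 t h
    h_deg := by
      intro m a t s' h
      exact hHd a s' m t h
    comm := hcomm
    rel := hrel
    symm := hsymm
    htpy := hhtpy
    card := hcard }⟩

theorem exists_kdata {K : Type*} [Field K] {N : ℕ} (B : Fin N → Matrix (Fin N) (Fin N) K)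
    (F : Fin N → MvPolynomial (Fin N) K)
    (hF : ∀ m, F m = ∑ a, ∑ b, C (B m a b) * X a * X b)
    (hsyz : ∀ g : Fin N → MvPolynomial (Fin N) K, ∑ m, F m * g m = 0 →
      ∀ m, g m ∈ Ideal.span (Set.range F))
    (hdim : ∀ j, hilb (Ideal.span (Set.range F)) j = N.choose j) :
    Nonempty (KData B) := by
  classical
  have hFh : ∀ m, (F m).IsHomogeneous 2 := by
    intro m
    rw [hF m]
    refine IsHomogeneous.sum _ _ _ fun a _ => IsHomogeneous.sum _ _ _ fun c _ => ?_
    have h := ((isHomogeneous_C (Fin N) (B m a c)).mul (isHomogeneous_X K a)).mul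
      (isHomogeneous_X K c)
    simpa using h
  have hI : HomIdeal (Ideal.span (Set.range F)) := homIdeal_span (by
    rintro f ⟨m, rfl⟩
    exact ⟨2, hFh m⟩)
  choose q b hb hqb hq0 using fun j => d1_exists_coord (Ideal.span (Set.range F)) j (hdim j)
  have hqj : ∀ j u, q j u = q j (homogeneousComponent j u) := by
    intro j u
    rw [← sub_eq_zero, ← map_sub, hq0, map_sub, comp_self (homogeneousComponent_isHomogeneous _ _),
      sub_self]
    exact Ideal.zero_mem _
  have hqne : ∀ j k u, u.IsHomogeneous k → k ≠ j → q j u = 0 := by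
    intro j k u hu hkj
    rw [hqj, homogeneousComponent_of_mem hu, if_neg (Ne.symm hkj), map_zero]
  refine d1_main B F hF hsyz (Σ j : Fin (N + 1), Fin (N.choose j)) (fun s => (s.1 : ℕ)) ?_
    (LinearMap.pi fun s => (LinearMap.proj s.2) ∘ₗ (q s.1)) (fun s => b s.1 s.2) ?_ ?_ ?_ ?_
  · intro j
    by_cases hj : j < N + 1
    · have h1 : (Finset.univ.filter fun s : (Σ j : Fin (N + 1), Fin (N.choose j)) =>
          (s.1 : ℕ) = j) = Finset.univ.map ⟨fun i : Fin (N.choose j) =>
            (⟨⟨j, hj⟩, i⟩ : (Σ j : Fin (N + 1), Fin (N.choose j))), by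
              intro x y hxy
              simpa using hxy⟩ := by
        ext s
        simp only [Finset.mem_filter, Finset.mem_univ, true_and, Finset.mem_map,
          Function.Embedding.coeFn_mk]
        constructor
        · intro hs
          obtain ⟨⟨k, hk⟩, i⟩ := s
          simp only at hs
          subst hs
          exact ⟨i, rfl⟩
        · rintro ⟨i, rfl⟩
          rfl
      rw [h1, Finset.card_map, Finset.card_univ, Fintype.card_fin]
    · rw [Nat.choose_eq_zero_of_lt (by omega), Finset.card_eq_zero,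
        Finset.filter_eq_empty_iff]
      intro s _
      have := s.1.2
      omega
  · intro s
    exact hb _ _
  · rintro ⟨j, i⟩
    ext ⟨k, l⟩
    simp only [LinearMap.pi_apply, LinearMap.comp_apply, LinearMap.proj_apply]
    by_cases hjk : j = k
    · subst hjk
      rw [hqb]
      by_cases hil : l = i
      · subst hil
        simp
      · rw [Pi.single_eq_of_ne hil, Pi.single_eq_of_ne]
        intro h
        apply hil
        simpa using h
    · rw [hqne k j _ (hb _ _) (fun h => hjk (Fin.ext h)), Pi.single_eq_of_ne]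
      · rfl
      · intro h
        apply hjk
        exact (congrArg Sigma.fst h).symm
  · intro u
    constructor
    · intro h
      refine mem_of_forall_comp fun j => ?_
      by_cases hj : j < N + 1
      · rw [← hq0]
        ext i
        exact congrFun h ⟨⟨j, hj⟩, i⟩
      · have h1 : hilb (Ideal.span (Set.range F)) j = 0 := by
          rw [hdim, Nat.choose_eq_zero_of_lt (by omega)]
        exact hilb_eq_zero_iff.1 h1 _ (homogeneousComponent_isHomogeneous _ _)
    · intro h
      ext s
      have := (hq0 s.1 u).2 (hI u h _)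
      simp only [LinearMap.pi_apply, LinearMap.comp_apply, LinearMap.proj_apply, this]
      rfl
  · intro u j hu s hs
    by_contra hne
    apply hs
    simp only [LinearMap.pi_apply, LinearMap.comp_apply, LinearMap.proj_apply]
    rw [hqne s.1 j u hu (fun h => hne h.symm)]
    rfl

end Vale.Agent.P200.Q
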