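import Vale.Agent.P200.Q.Dom0

/-! D4: the Clifford algebra of `∑ y_m F_m` over `L = Frac K[y]` and its graded order. -/

set_option linter.all false

namespace Vale.Agent.P200.Q

open MvPolynomial

universe u

variable {K : Type u} [Field K] {N : ℕ}

/-- the fraction field of `K[y_0..y_(N-1)]` -/
abbrev LF (K : Type u) [Field K] (N : ℕ) := FractionRing (MvPolynomial (Fin N) K)

/-- a bilinear form whose quadratic form is `∑ y_m F_m` -/
noncomputable def bf (B : Fin N → Matrix (Fin N) (Fin N) K) :
    LinearMap.BilinForm (LF K N) (Fin N → LF K N) :=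
  Matrix.toBilin' (Matrix.of fun a b =>
    algebraMap (MvPolynomial (Fin N) K) (LF K N) (∑ m, C (B m a b) * X m))

/-- the quadratic form `∑ y_m F_m` over the field `K(y)` -/
noncomputable def qf (B : Fin N → Matrix (Fin N) (Fin N) K) :
    QuadraticForm (LF K N) (Fin N → LF K N) := (bf B).toQuadraticMap

/-- its Clifford algebra -/
abbrev CD (B : Fin N → Matrix (Fin N) (Fin N) K) := CliffordAlgebra (qf B)

/-- generators -/
noncomputable def ce (B : Fin N → Matrix (Fin N) (Fin N) K) (a : Fin N) : CD B :=
  CliffordAlgebra.ι (qf B) (Pi.single a 1)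

/-- the central elements `y_m` -/
noncomputable def cy (B : Fin N → Matrix (Fin N) (Fin N) K) (m : Fin N) : CD B :=
  algebraMap (MvPolynomial (Fin N) K) (CD B) (X m)

/-- ordered products -/
noncomputable def ceT (B : Fin N → Matrix (Fin N) (Fin N) K) (T : Finset (Fin N)) : CD B :=
  ((T.sort (· ≤ ·)).map (ce B)).prod

/-- the linear form `∑ c_m y_m` in the Clifford algebra -/
theorem am_lin (B : Fin N → Matrix (Fin N) (Fin N) K) (c : Fin N → K) :
    algebraMap (LF K N) (CD B) (algebraMap (MvPolynomial (Fin N) K) (LF K N)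
      (∑ m, C (c m) * X m)) = ∑ m, algebraMap K (CD B) (c m) * cy B m := by
  rw [← IsScalarTower.algebraMap_apply (MvPolynomial (Fin N) K) (LF K N) (CD B), map_sum]
  refine Finset.sum_congr rfl fun m _ => ?_
  rw [map_mul, cy, IsScalarTower.algebraMap_apply K (MvPolynomial (Fin N) K) (CD B)]
  rfl

theorem bf_single (B : Fin N → Matrix (Fin N) (Fin N) K) (a b : Fin N) :
    bf B (Pi.single a 1) (Pi.single b 1) =
      algebraMap (MvPolynomial (Fin N) K) (LF K N) (∑ m, C (B m a b) * X m) := by
  rw [bf, Matrix.toBilin'_single]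
  rfl

theorem ce_cliff (B : Fin N → Matrix (Fin N) (Fin N) K) (a b : Fin N) :
    ce B a * ce B b + ce B b * ce B a = ∑ m, algebraMap K (CD B) (B m a b + B m b a) * cy B m := by
  rw [ce, ce, CliffordAlgebra.ι_mul_ι_add_swap, ← am_lin]
  congr 1
  rw [qf, LinearMap.BilinMap.polar_toQuadraticMap, bf_single, bf_single, ← map_add,
    ← Finset.sum_add_distrib]
  congr 1
  refine Finset.sum_congr rfl fun m _ => ?_
  rw [map_add, add_mul]

theorem ce_sq (B : Fin N → Matrix (Fin N) (Fin N) K) (a : Fin N) :
    ce B a * ce B a = ∑ m, algebraMap K (CD B) (B m a a) * cy B m := by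
  rw [ce, CliffordAlgebra.ι_sq_scalar, ← am_lin]
  congr 1
  rw [qf, LinearMap.BilinMap.toQuadraticMap_apply, bf_single]
theorem ceT_empty (B : Fin N → Matrix (Fin N) (Fin N) K) : ceT B ∅ = 1 := by
  simp [ceT]

theorem ceT_insert (B : Fin N → Matrix (Fin N) (Fin N) K) (b : Fin N) (T : Finset (Fin N))
    (h : ∀ x ∈ T, b < x) : ceT B (insert b T) = ce B b * ceT B T := by
  rw [ceT, ceT, Finset.sort_insert _ (fun x hx => (h x hx).le)
    (fun hb => lt_irrefl _ (h b hb)), List.map_cons, List.prod_cons]

theorem ak_smul (B : Fin N → Matrix (Fin N) (Fin N) K) (c : K) (m : Fin N) (x : CD B) :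
    algebraMap K (CD B) c * cy B m * x = c • ((X m : MvPolynomial (Fin N) K) • x) := by
  rw [mul_assoc, ← Algebra.smul_def, cy, ← Algebra.smul_def]

/-- the refined commutation rule, with supports -/
theorem ce_mul_ceT' (B : Fin N → Matrix (Fin N) (Fin N) K) (T : Finset (Fin N)) :
    ∀ a : Fin N, ce B a * ceT B T ∈ Submodule.span K {x | ∃ (α : Fin N →₀ ℕ)
      (T' : Finset (Fin N)), T' ⊆ insert a T ∧ 2 * α.degree + T'.card = T.card + 1 ∧
        x = (MvPolynomial.monomial α (1:K)) • ceT B T'} := by
  induction T using Finset.induction_on_min with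
  | empty =>
    intro a
    refine Submodule.subset_span ⟨0, {a}, by simp, by simp, ?_⟩
    rw [← insert_empty_eq a, ceT_insert B a ∅ (by simp)]
    simp
  | insert b T0 hb ih =>
    intro a
    have hbT : b ∉ T0 := fun hh => lt_irrefl _ (hb b hh)
    rcases lt_trichotomy a b with hab | hab | hab
    · have h1 : ∀ x ∈ insert b T0, a < x := by
        intro x hx
        rcases Finset.mem_insert.1 hx with rfl | hx
        · exact hab
        · exact hab.trans (hb x hx)
      refine Submodule.subset_span ⟨0, insert a (insert b T0), subset_rfl, ?_, ?_⟩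
      · rw [Finset.card_insert_of_notMem (fun hh => lt_irrefl _ (h1 a hh))]
        simp
      · rw [ceT_insert B a _ h1]
        simp
    · subst hab
      rw [ceT_insert B a T0 hb, ← mul_assoc, ce_sq, Finset.sum_mul]
      refine Submodule.sum_mem _ fun m _ => ?_
      rw [ak_smul]
      refine Submodule.smul_mem _ _ (Submodule.subset_span ⟨Finsupp.single m 1, T0, ?_, ?_, rfl⟩)
      · exact (Finset.subset_insert _ _).trans (Finset.subset_insert _ _)
      · rw [Finset.card_insert_of_notMem hbT, Finsupp.degree_single]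
        ring
    · have key : ce B a * (ce B b * ceT B T0) = (∑ m, algebraMap K (CD B) (B m a b + B m b a) *
          cy B m) * ceT B T0 - ce B b * (ce B a * ceT B T0) := by
        rw [← ce_cliff, add_mul, mul_assoc, mul_assoc, add_sub_cancel_right]
      rw [ceT_insert B b T0 hb, key]
      refine Submodule.sub_mem _ ?_ ?_
      · rw [Finset.sum_mul]
        refine Submodule.sum_mem _ fun m _ => ?_
        rw [ak_smul]
        refine Submodule.smul_mem _ _
          (Submodule.subset_span ⟨Finsupp.single m 1, T0, ?_, ?_, rfl⟩)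
        · exact (Finset.subset_insert _ _).trans (Finset.subset_insert _ _)
        · rw [Finset.card_insert_of_notMem hbT, Finsupp.degree_single]
          ring
      · have h2 := Submodule.mem_map_of_mem (f := LinearMap.mulLeft K (ce B b)) (ih a)
        rw [Submodule.map_span] at h2
        refine (Submodule.span_le.2 ?_) h2
        rintro _ ⟨_, ⟨α, T', hT', hc, rfl⟩, rfl⟩
        have h3 : ∀ x ∈ T', b < x := by
          intro x hx
          rcases Finset.mem_insert.1 (hT' hx) with rfl | hx
          · exact hab
          · exact hb x hx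
        refine Submodule.subset_span ⟨α, insert b T', ?_, ?_, ?_⟩
        · refine Finset.insert_subset (by simp) (hT'.trans ?_)
          exact Finset.insert_subset_insert _ (Finset.subset_insert _ _)
        · rw [Finset.card_insert_of_notMem (fun hh => lt_irrefl _ (h3 b hh)),
            Finset.card_insert_of_notMem hbT]
          omega
        · rw [ceT_insert B b T' h3, LinearMap.mulLeft_apply, mul_smul_comm]

/-- the refined commutation rule (needed for the order) -/
theorem ce_mul_ceT (B : Fin N → Matrix (Fin N) (Fin N) K) (a : Fin N) (T : Finset (Fin N)) :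
    ce B a * ceT B T ∈ Submodule.span K {x | ∃ (α : Fin N →₀ ℕ) (T' : Finset (Fin N)),
      2 * α.degree + T'.card = T.card + 1 ∧
        x = (MvPolynomial.monomial α (1:K)) • ceT B T'} := by
  refine Submodule.span_mono ?_ (ce_mul_ceT' B T a)
  rintro _ ⟨α, T', -, hc, rfl⟩
  exact ⟨α, T', hc, rfl⟩

/-- the span of the ordered products is stable under left multiplication by everything -/
theorem ceT_span_top (B : Fin N → Matrix (Fin N) (Fin N) K) :
    Submodule.span (LF K N) (Set.range (ceT B)) = ⊤ := by
  set S := Submodule.span (LF K N) (Set.range (ceT B)) with hS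
  have hP : ∀ (p : MvPolynomial (Fin N) K) (x : CD B), x ∈ S → p • x ∈ S := by
    intro p x hx
    rw [← IsScalarTower.algebraMap_smul (LF K N) p x]
    exact S.smul_mem _ hx
  have hK : ∀ (p : K) (x : CD B), x ∈ S → p • x ∈ S := by
    intro p x hx
    rw [← IsScalarTower.algebraMap_smul (LF K N) p x]
    exact S.smul_mem _ hx
  have h1 : ∀ a T, ce B a * ceT B T ∈ S := by
    intro a T
    refine Submodule.span_induction (p := fun x _ => x ∈ S) ?_ S.zero_mem
      (fun _ _ _ _ => S.add_mem) (fun c x _ hx => hK c x hx) (ce_mul_ceT B a T)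
    rintro _ ⟨α, T', -, rfl⟩
    exact hP _ _ (Submodule.subset_span ⟨T', rfl⟩)
  have h2 : ∀ a x, x ∈ S → ce B a * x ∈ S := by
    intro a x hx
    refine Submodule.span_induction (p := fun x _ => ce B a * x ∈ S) ?_ ?_ ?_ ?_ hx
    · rintro _ ⟨T, rfl⟩
      exact h1 a T
    · rw [mul_zero]; exact S.zero_mem
    · intro x y _ _ hx hy
      rw [mul_add]; exact S.add_mem hx hy
    · intro c x _ hx
      rw [mul_smul_comm]; exact S.smul_mem _ hx
  have h3 : ∀ v : Fin N → LF K N, ∀ x ∈ S, CliffordAlgebra.ι (qf B) v * x ∈ S := by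
    intro v x hx
    have hv : v = ∑ a, v a • (Pi.single a (1 : LF K N) : Fin N → LF K N) := by
      ext i
      simp [Finset.sum_apply, Pi.single_apply]
    rw [hv, map_sum, Finset.sum_mul]
    refine S.sum_mem fun a _ => ?_
    rw [map_smul, smul_mul_assoc]
    exact S.smul_mem _ (h2 a x hx)
  have h4 : ∀ z : CD B, ∀ x ∈ S, z * x ∈ S := by
    intro z
    induction z using CliffordAlgebra.induction with
    | algebraMap r =>
      intro x hx
      rw [← Algebra.smul_def]; exact S.smul_mem _ hx
    | ι v => exact h3 v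
    | mul y z hy hz =>
      intro x hx
      rw [mul_assoc]; exact hy _ (hz _ hx)
    | add y z hy hz =>
      intro x hx
      rw [add_mul]; exact S.add_mem (hy _ hx) (hz _ hx)
  rw [eq_top_iff]
  intro z _
  have h5 : (1 : CD B) ∈ S := Submodule.subset_span ⟨∅, ceT_empty B⟩
  simpa using h4 z 1 h5

/-- linear isomorphism with the exterior algebra -/
noncomputable def extEquiv (B : Fin N → Matrix (Fin N) (Fin N) K) :
    ExteriorAlgebra (LF K N) (Fin N → LF K N) ≃ₗ[LF K N] CD B :=
  CliffordAlgebra.changeFormEquiv (Q := (0 : QuadraticForm (LF K N) (Fin N → LF K N)))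
    (Q' := qf B) (B := bf B) (by rw [sub_zero]; rfl)

noncomputable def extBasis (K : Type u) [Field K] (N : ℕ) :
    Module.Basis (Finset (Fin N)) (LF K N) (ExteriorAlgebra (LF K N) (Fin N → LF K N)) :=
  (Pi.basisFun (LF K N) (Fin N)).ExteriorAlgebra

theorem cd_basis (B : Fin N → Matrix (Fin N) (Fin N) K) :
    FiniteDimensional (LF K N) (CD B) ∧ LinearIndependent (LF K N) (ceT B) ∧
      Submodule.span (LF K N) (Set.range (ceT B)) = ⊤ := by
  have b := (extBasis K N).map (extEquiv B)
  have hfin : FiniteDimensional (LF K N) (CD B) := b.finiteDimensional_of_finite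
  refine ⟨hfin, ?_, ceT_span_top B⟩
  refine linearIndependent_of_top_le_span_of_card_eq_finrank (ceT_span_top B).ge ?_
  exact (Module.finrank_eq_card_basis b).symm

end Vale.Agent.P200.Q
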