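import Vale.Agent.P200.G.CLMain
import Vale.Agent.P200.G.LexBasic

/-! Small degrees: the combinatorial comparison of two boxes. -/

namespace Vale.Agent.P200.Q

open Vale.Agent.P200.G

variable {n : ℕ}

/-- a coordinate is at most the sum -/
theorem le_sum_fin (m : Fin n → ℕ) (i : Fin n) : m i ≤ ∑ j, m j :=
  Finset.single_le_sum (f := m) (fun _ _ => Nat.zero_le _) (Finset.mem_univ i)

/-- if a coordinate equals the sum, the exponent is a pure power -/
theorem eq_single_of_sum_le (m : Fin n → ℕ) (i : Fin n) (h : ∑ j, m j ≤ m i) :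
    m = Pi.single i (m i) := by
  classical
  have h1 := Finset.add_sum_erase Finset.univ m (Finset.mem_univ i)
  have h2 : ∑ j ∈ Finset.univ.erase i, m j = 0 := by omega
  funext j
  by_cases hj : j = i
  · subst hj; simp
  · rw [Pi.single_eq_of_ne hj]
    exact (Finset.sum_eq_zero_iff.1 h2) j (Finset.mem_erase.2 ⟨hj, Finset.mem_univ j⟩)

theorem sum_single (i : Fin n) (d : ℕ) : ∑ j, (Pi.single i d : Fin n → ℕ) j = d := by
  classical
  rw [Finset.sum_eq_single i]
  · simp
  · intro j _ hj
    rw [Pi.single_eq_of_ne hj]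
  · intro hi
    exact absurd (Finset.mem_univ i) hi

/-- **Comparison of boxes.**  Growth in the box `a'` gives growth in the box `a`, where `a'`
arises from `a` by replacing some entries `d + 1` by `d`, and enlarging the other entries
which are `≥ d + 1`. -/
theorem growth_compare (a a' : Fin n → ℕ) (ha : Monotone a) (d N : ℕ)
    (hN : d + 2 ≤ N) (c0 : ℕ)
    (h1 : ∀ i, a i ≤ d → a' i = a i)
    (h2 : ∀ i, d < a i → i.1 < c0 → a i = d + 1 ∧ a' i = d)
    (h3 : ∀ i, d < a i → ¬ i.1 < c0 → a' i = N)
    (h₀ h₁ h₁' : ℕ)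
    (ht : h₁ + (Finset.univ.filter fun i : Fin n => a i = d + 1 ∧ ¬ i.1 < c0).card ≤ h₁')
    (hg : up a' d ((boxD a' d).card - h₀) + h₁' ≤ (boxD a' (d + 1)).card) :
    up a d ((boxD a d).card - h₀) + h₁ ≤ (boxD a (d + 1)).card := by
  classical
  set R : Finset (Fin n) := Finset.univ.filter fun i => a i = d + 1 ∧ i.1 < c0 with hR
  set T1 : Finset (Fin n) := Finset.univ.filter fun i => a i = d + 1 ∧ ¬ i.1 < c0 with hT1
  have hle : ∀ i, i.1 < c0 → a' i ≤ a i := by
    intro i hi
    rcases Nat.lt_or_ge d (a i) with h | h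
    · have := h2 i h hi; omega
    · exact (h1 i h).le
  -- elements of the smaller box in degree `d`
  have hsub : boxD a' d ⊆ boxD a d := by
    intro m hm
    obtain ⟨hm1, hm2⟩ := mem_boxD.1 hm
    refine mem_boxD.2 ⟨fun i => ?_, hm2⟩
    rcases Nat.lt_or_ge d (a i) with h | h
    · have := le_sum_fin m i; omega
    · have := h1 i h; have := hm1 i; omega
  set P : Finset (Fin n → ℕ) := R.image fun i => Pi.single i d with hP
  have hdiff : boxD a d \ boxD a' d ⊆ P := by
    intro m hm
    obtain ⟨hm1, hm2⟩ := Finset.mem_sdiff.1 hm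
    obtain ⟨hm3, hm4⟩ := mem_boxD.1 hm1
    have : ∃ i, a' i ≤ m i := by
      by_contra hcon
      push Not at hcon
      exact hm2 (mem_boxD.2 ⟨hcon, hm4⟩)
    obtain ⟨i, hi⟩ := this
    have e1 := hm3 i
    have e2 := le_sum_fin m i
    have e3 : d < a i := by
      by_contra hcon
      have := h1 i (by omega)
      omega
    have e4 : i.1 < c0 := by
      by_contra hcon
      have := h3 i e3 hcon
      omega
    obtain ⟨e5, e6⟩ := h2 i e3 e4
    have e7 : m i = d := by omega
    refine Finset.mem_image.2 ⟨i, Finset.mem_filter.2 ⟨Finset.mem_univ _, e5, e4⟩, ?_⟩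
    have := eq_single_of_sum_le m i (by omega)
    rw [e7] at this
    exact this.symm
  set q' := (boxD a' d).card - h₀ with hq'
  set M := lexSeg a' d q' ∪ (boxD a d \ boxD a' d) with hM
  have hMsub : M ⊆ boxD a d :=
    Finset.union_subset (lexSeg_subset.trans hsub) Finset.sdiff_subset
  have hMcard : (boxD a d).card - h₀ ≤ M.card := by
    have hd : Disjoint (lexSeg a' d q') (boxD a d \ boxD a' d) := by
      rw [Finset.disjoint_left]
      intro x hx hx'
      exact (Finset.mem_sdiff.1 hx').2 (lexSeg_subset hx)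
    rw [hM, Finset.card_union_of_disjoint hd, card_lexSeg, Finset.card_sdiff_of_subset hsub]
    have := Finset.card_le_card hsub
    omega
  -- the shadow of `M`
  have hshadow : upShadow a M ⊆ upShadow a' (lexSeg a' d q') ∪
      (boxD a (d + 1) \ boxD a' (d + 1)) := by
    intro y hy
    have hyb : y ∈ boxD a (d + 1) := upShadow_subset_boxD hMsub hy
    rw [Finset.mem_union, Finset.mem_sdiff]
    by_cases hy' : y ∈ boxD a' (d + 1)
    · left
      obtain ⟨hy1, m, hm, i, hym⟩ := mem_upShadow.1 hy
      refine mem_upShadow.2 ⟨(mem_boxD.1 hy').1, m, ?_, i, hym⟩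
      rcases Finset.mem_union.1 hm with hm | hm
      · exact hm
      · exfalso
        apply (Finset.mem_sdiff.1 hm).2
        have hm3 := mem_boxD.1 (Finset.mem_sdiff.1 hm).1
        refine mem_boxD.2 ⟨fun j => ?_, hm3.2⟩
        have e1 := (mem_boxD.1 hy').1 j
        have e2 : m j ≤ y j := by
          rw [hym]
          by_cases hj : j = i
          · subst hj; simp
          · rw [Function.update_of_ne hj]
        omega
    · exact Or.inr ⟨hyb, hy'⟩
  have hc1 : (boxD a (d + 1) \ boxD a' (d + 1)).card + (boxD a' (d + 1)).card ≤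
      (boxD a (d + 1)).card + T1.card := by
    have e1 : boxD a' (d + 1) \ boxD a (d + 1) ⊆ T1.image fun i => Pi.single i (d + 1) := by
      intro m hm
      obtain ⟨hm1, hm2⟩ := Finset.mem_sdiff.1 hm
      obtain ⟨hm3, hm4⟩ := mem_boxD.1 hm1
      have : ∃ i, a i ≤ m i := by
        by_contra hcon
        push Not at hcon
        exact hm2 (mem_boxD.2 ⟨hcon, hm4⟩)
      obtain ⟨i, hi⟩ := this
      have e1 := hm3 i
      have e2 := le_sum_fin m i
      have e3 : ¬ i.1 < c0 := by
        intro hcon
        have := hle i hcon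
        omega
      have e4 : d < a i := by
        by_contra hcon
        have := h1 i (by omega)
        omega
      have e5 : m i = d + 1 := by omega
      refine Finset.mem_image.2 ⟨i, Finset.mem_filter.2 ⟨Finset.mem_univ _, by omega, e3⟩, ?_⟩
      have := eq_single_of_sum_le m i (by omega)
      rw [e5] at this
      exact this.symm
    have e2 := (Finset.card_le_card e1).trans Finset.card_image_le
    have e3 := Finset.card_sdiff_add_card_inter (boxD a (d + 1)) (boxD a' (d + 1))
    have e4 := Finset.card_sdiff_add_card_inter (boxD a' (d + 1)) (boxD a (d + 1))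
    rw [Finset.inter_comm] at e4
    omega
  have hc2 := (Finset.card_le_card hshadow).trans (Finset.card_union_le _ _)
  have hc3 : up a d ((boxD a d).card - h₀) ≤ (upShadow a M).card :=
    (up_mono hMcard).trans (clementsLindstrom a ha d M hMsub)
  have hc4 : (upShadow a' (lexSeg a' d q')).card = up a' d q' := rfl
  omega

end Vale.Agent.P200.Q
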