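import Vale.Agent.P200.Q.Small0
import Vale.Agent.P200.G.Final

/-! Small degrees: replacing forms of degree `d + 1` by forms of degree `d` of the ideal. -/

namespace Vale.Agent.P200.Q

open MvPolynomial Vale.Agent.P200.G

variable {K : Type*} [Field K] {n : ℕ}

/-- replacing one of the forms of an m-primary system by an element of a space `V` -/
theorem exists_space_replacement [Infinite K] (a : Fin n → ℕ) (hpos : ∀ i, 1 ≤ a i)
    (f : Fin n → MvPolynomial (Fin n) K) (hf : ∀ i, (f i).IsHomogeneous (a i))
    (h : IsMPrimary (Ideal.span (Set.range f))) (k : Fin n)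
    (V : Submodule K (MvPolynomial (Fin n) K)) {e : ℕ} (hV : ∀ v ∈ V, v.IsHomogeneous e)
    (hk : ∀ q : Ideal (MvPolynomial (Fin n) K), q.IsPrime → (∀ i, i ≠ k → f i ∈ q) →
      (∀ v ∈ V, v ∈ q) → f k ∈ q) :
    ∃ v ∈ V, IsMPrimary (Ideal.span (Set.range (Function.update f k v))) := by
  classical
  set s : Set (MvPolynomial (Fin n) K) := f '' {i | i ≠ k} with hs
  set J := Ideal.span s with hJ
  obtain ⟨l, hl, hl2⟩ := exists_avoid V J.minimalPrimes
    J.finite_minimalPrimes_of_isNoetherianRing (by
      intro p hp hall
      have hfk := hk p hp.1.1 (fun i hi => hp.1.2 (Ideal.subset_span ⟨i, hi, rfl⟩)) hall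
      apply others_minimal_ne_irr f k hp
      have h1 : irr K n ≤ p := by
        rw [irr, Ideal.span_le]
        rintro _ ⟨i, rfl⟩
        rw [isMPrimary_iff_radical] at h
        refine (hp.1.1.radical_le_iff.mpr ?_) (h i)
        rw [Ideal.span_le]
        rintro _ ⟨j, rfl⟩
        by_cases hj : j = k
        · rw [hj]; exact hfk
        · exact hp.1.2 (Ideal.subset_span ⟨j, hj, rfl⟩)
      exact (irr_isMaximal.eq_of_le hp.1.1.ne_top h1).symm)
  refine ⟨l, hl, ?_⟩
  have hrange : Set.range (Function.update f k l) = insert l s := by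
    rw [range_eq_insert _ k, Function.update_self]
    congr 1
    apply Set.image_congr
    intro i hi
    exact Function.update_of_ne hi _ _
  rw [hrange]
  have hhom : HomIdeal (Ideal.span (insert l s)) := by
    apply G.homIdeal_span
    rintro g (rfl | ⟨i, -, rfl⟩)
    · exact ⟨e, hV _ hl⟩
    · exact ⟨a i, hf i⟩
  have hirr : irr K n ∈ (Ideal.span (insert (f k) s)).minimalPrimes := by
    rw [← range_eq_insert]
    apply irr_mem_minimalPrimes _ h
    rw [Ideal.span_le]
    rintro _ ⟨i, rfl⟩
    exact mem_irr_of_isHomogeneous (hpos i) (hf i)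
  rw [isMPrimary_iff_radical]
  intro i
  rw [← Ideal.sInf_minimalPrimes, Ideal.mem_sInf]
  intro p hp
  have hpp : p.IsPrime := hp.1.1
  have hphom := homIdeal_of_mem_minimalPrimes hhom hp
  have hle := le_irr_of_homIdeal hphom hpp.ne_top
  by_cases hpe : p = irr K n
  · rw [hpe]; exact X_mem_irr i
  · exfalso
    have hlt : p < irr K n := lt_of_le_of_ne hle hpe
    have hsp : s ⊆ p := fun x hx => hp.1.2 (Ideal.subset_span (Set.mem_insert_of_mem _ hx))
    have h1 := Ideal.mem_minimalPrimes_span_of_mem_minimalPrimes_span_insert hlt (f k) s hirr s hsp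
      (fun x hx => Ideal.le_radical (Ideal.subset_span (Set.mem_insert_of_mem _ hx)))
    exact hl2 p h1 (hp.1.2 (Ideal.subset_span (Set.mem_insert _ _)))

/-- choosing a basis among the vectors of index `i` with `a i = d + 1`, modulo `W`, and moving
it to the end. -/
theorem exists_basis_perm {M : Type*} [AddCommGroup M] [Module K M]
    (a : Fin n → ℕ) (ha : Monotone a) (D : ℕ) (W : Submodule K M) [FiniteDimensional K W]
    (f : Fin n → M) :
    ∃ (σ : Equiv.Perm (Fin n)) (c0 : ℕ), (∀ i, a (σ i) = a i) ∧
      (∀ i, D < a i → ¬ i.1 < c0) ∧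
      Module.finrank K W + (Finset.univ.filter fun i : Fin n => a i = D ∧ ¬ i.1 < c0).card ≤
        Module.finrank K (W ⊔ Submodule.span K
          ((fun i => f (σ i)) '' {i : Fin n | a i = D ∧ ¬ i.1 < c0}) : Submodule K M) ∧
      ∀ i, a i = D → i.1 < c0 → f (σ i) ∈ W ⊔ Submodule.span K
          ((fun i => f (σ i)) '' {i : Fin n | a i = D ∧ ¬ i.1 < c0}) := by
  classical
  let P : ℕ → Prop := fun c => ∃ σ : Equiv.Perm (Fin n), (∀ i, a (σ i) = a i) ∧
    Module.finrank K W + (Finset.univ.filter fun i : Fin n => a i = D ∧ ¬ i.1 < c).card ≤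
        Module.finrank K (W ⊔ Submodule.span K
          ((fun i => f (σ i)) '' {i : Fin n | a i = D ∧ ¬ i.1 < c}) : Submodule K M)
  have hP0 : ∀ c, (∀ i : Fin n, a i = D → i.1 < c) → P c := by
    intro c hc
    refine ⟨1, fun i => rfl, ?_⟩
    have e1 : (Finset.univ.filter fun i : Fin n => a i = D ∧ ¬ i.1 < c) = ∅ := by
      rw [Finset.filter_eq_empty_iff]
      rintro i - ⟨h1, h2⟩
      exact h2 (hc i h1)
    rw [e1, Finset.card_empty, add_zero]
    have hfinU : FiniteDimensional K (Submodule.span K
        ((fun i => f ((1 : Equiv.Perm (Fin n)) i)) '' {i : Fin n | a i = D ∧ ¬ i.1 < c})) :=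
      FiniteDimensional.span_of_finite K ((Set.toFinite _).image _)
    apply Submodule.finrank_mono
    exact le_sup_left
  have hex : ∃ c, P c := ⟨n, hP0 n fun i _ => i.2⟩
  have hmin : ∀ c, P c → Nat.find hex ≤ c := fun c hc => Nat.find_min' hex hc
  obtain ⟨σ, hσ, hcard⟩ := Nat.find_spec hex
  set c0 := Nat.find hex with hc0
  refine ⟨σ, c0, hσ, ?_, hcard, ?_⟩
  · intro i hi hlt
    have h1 := hmin i.1 (hP0 i.1 fun j hj => by
      by_contra hcon
      have h2 : i ≤ j := not_lt.1 hcon
      have := ha h2
      omega)
    omega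
  · intro i hi hlt
    by_contra hcon
    have hc0n : c0 ≤ n := hmin n (hP0 n fun i _ => i.2)
    set k : Fin n := ⟨c0 - 1, by omega⟩ with hk
    have hik : i ≤ k := by
      show i.1 ≤ c0 - 1
      omega
    have hak : a k = D := by
      apply le_antisymm _ (hi ▸ ha hik)
      by_contra hcon2
      have h1 := hmin k.1 (hP0 k.1 fun j hj => by
        by_contra hcon
        have h2 : k ≤ j := not_lt.1 hcon
        have := ha h2
        omega)
      have h2 : k.1 = c0 - 1 := rfl
      omega
    have hP : P (c0 - 1) := by
      refine ⟨Equiv.swap i k |>.trans σ, ?_, ?_⟩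
      · intro j
        rw [Equiv.trans_apply, hσ]
        rcases eq_or_ne j i with rfl | hji
        · rw [Equiv.swap_apply_left, hak, hi]
        · rcases eq_or_ne j k with rfl | hjk
          · rw [Equiv.swap_apply_right, hak, hi]
          · rw [Equiv.swap_apply_of_ne_of_ne hji hjk]
      · have hset : {j : Fin n | a j = D ∧ ¬ j.1 < c0 - 1} =
            insert k {j : Fin n | a j = D ∧ ¬ j.1 < c0} := by
          ext j
          simp only [Set.mem_ofPred_eq, Set.mem_insert_iff]
          constructor
          · rintro ⟨h1, h2⟩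
            by_cases hj : j.1 < c0
            · left
              apply Fin.ext
              show j.1 = c0 - 1
              omega
            · exact Or.inr ⟨h1, hj⟩
          · rintro (rfl | ⟨h1, h2⟩)
            · exact ⟨hak, by simp [hk]⟩
            · exact ⟨h1, by omega⟩
        have hfil : (Finset.univ.filter fun j : Fin n => a j = D ∧ ¬ j.1 < c0 - 1) =
            insert k (Finset.univ.filter fun j : Fin n => a j = D ∧ ¬ j.1 < c0) := by
          ext j
          have := Set.ext_iff.1 hset j
          simpa using this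
        have hknot : k ∉ Finset.univ.filter fun j : Fin n => a j = D ∧ ¬ j.1 < c0 := by
          simp only [Finset.mem_filter, not_and, not_not]
          intro _ _
          show c0 - 1 < c0
          omega
        have himg : (fun j => f ((Equiv.swap i k |>.trans σ) j)) ''
            {j : Fin n | a j = D ∧ ¬ j.1 < c0 - 1} =
            insert (f (σ i)) ((fun j => f (σ j)) '' {j : Fin n | a j = D ∧ ¬ j.1 < c0}) := by
          rw [hset, Set.image_insert_eq]
          congr 1
          · rw [Equiv.trans_apply, Equiv.swap_apply_right]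
          · apply Set.image_congr
            rintro j ⟨-, hj⟩
            rw [Equiv.trans_apply, Equiv.swap_apply_of_ne_of_ne]
            · rintro rfl; exact hj hlt
            · rintro rfl
              apply hj
              show c0 - 1 < c0
              omega
        rw [himg, hfil, Finset.card_insert_of_notMem hknot, Submodule.span_insert]
        set U := Submodule.span K ((fun j => f (σ j)) '' {j : Fin n | a j = D ∧ ¬ j.1 < c0})
          with hU
        have hlt' : W ⊔ U < W ⊔ (Submodule.span K {f (σ i)} ⊔ U) := by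
          refine lt_of_le_of_ne (sup_le_sup_left le_sup_right _) ?_
          intro heq
          apply hcon
          rw [heq]
          exact Submodule.mem_sup_right (Submodule.mem_sup_left
            (Submodule.mem_span_singleton_self _))
        have hfinU : FiniteDimensional K U :=
          FiniteDimensional.span_of_finite K ((Set.toFinite _).image _)
        have := Submodule.finrank_lt_finrank_of_lt hlt'
        omega
    have := hmin _ hP
    omega

/-- replacing several forms by elements of a space `V` -/
theorem exists_space_system [Infinite K] (a : Fin n → ℕ) (hpos : ∀ i, 1 ≤ a i)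
    (f : Fin n → MvPolynomial (Fin n) K) (hf : ∀ i, (f i).IsHomogeneous (a i))
    (h : IsMPrimary (Ideal.span (Set.range f))) (R : Finset (Fin n))
    (V : Submodule K (MvPolynomial (Fin n) K)) {e : ℕ} (he : 1 ≤ e)
    (hV : ∀ v ∈ V, v.IsHomogeneous e)
    (hk : ∀ k ∈ R, ∀ q : Ideal (MvPolynomial (Fin n) K), q.IsPrime → (∀ i, i ∉ R → f i ∈ q) →
      (∀ v ∈ V, v ∈ q) → f k ∈ q) :
    ∃ F : Fin n → MvPolynomial (Fin n) K, (∀ i, i ∉ R → F i = f i) ∧ (∀ i ∈ R, F i ∈ V) ∧
      IsMPrimary (Ideal.span (Set.range F)) := by
  classical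
  have key : ∀ R' : Finset (Fin n), R' ⊆ R → ∃ F : Fin n → MvPolynomial (Fin n) K,
      (∀ i, i ∉ R' → F i = f i) ∧ (∀ i ∈ R', F i ∈ V) ∧
      IsMPrimary (Ideal.span (Set.range F)) := by
    intro R'
    induction R' using Finset.induction_on with
    | empty => exact fun _ => ⟨f, fun _ _ => rfl, by simp, h⟩
    | insert k R' hkR ih =>
      intro hsub
      obtain ⟨F, hF1, hF2, hFm⟩ := ih ((Finset.subset_insert _ _).trans hsub)
      have hkR' : k ∈ R := hsub (Finset.mem_insert_self _ _)
      obtain ⟨v, hv, hvm⟩ := exists_space_replacement (fun i => if i ∈ R' then e else a i)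
        (fun i => by
          by_cases hi : i ∈ R'
          · simp only [hi, if_true]; exact he
          · simp only [hi, if_false]; exact hpos i) F (fun i => by
          by_cases hi : i ∈ R'
          · simp only [hi, if_true]; exact hV _ (hF2 i hi)
          · simp only [hi, if_false]; rw [hF1 i hi]; exact hf i) hFm k V hV (by
          intro q hq h1 h2
          rw [hF1 k hkR]
          refine hk k hkR' q hq (fun i hi => ?_) h2
          have hiR' : i ∉ R' := fun h => hi (hsub (Finset.mem_insert_of_mem h))
          rw [← hF1 i hiR']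
          apply h1
          rintro rfl
          exact hi hkR')
      refine ⟨Function.update F k v, ?_, ?_, hvm⟩
      · intro i hi
        rw [Finset.mem_insert, not_or] at hi
        rw [Function.update_of_ne hi.1]
        exact hF1 i hi.2
      · intro i hi
        rcases Finset.mem_insert.1 hi with rfl | hi
        · rw [Function.update_self]; exact hv
        · by_cases hik : i = k
          · rw [hik] at hi; exact absurd hi hkR
          · rw [Function.update_of_ne hik]
            exact hF2 i hi
  exact key R subset_rfl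

/-- replacing several forms by powers of linear forms -/
theorem exists_linear_system [Infinite K] (a : Fin n → ℕ) (hpos : ∀ i, 1 ≤ a i)
    (f : Fin n → MvPolynomial (Fin n) K) (hf : ∀ i, (f i).IsHomogeneous (a i))
    (h : IsMPrimary (Ideal.span (Set.range f))) (R : Finset (Fin n)) (N : ℕ) (hN : 1 ≤ N) :
    ∃ F : Fin n → MvPolynomial (Fin n) K, (∀ i, i ∉ R → F i = f i) ∧
      (∀ i ∈ R, ∃ l : MvPolynomial (Fin n) K, l.IsHomogeneous 1 ∧ F i = l ^ N) ∧
      IsMPrimary (Ideal.span (Set.range F)) := by
  classical
  induction R using Finset.induction_on with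
  | empty => exact ⟨f, fun _ _ => rfl, by simp, h⟩
  | insert k R hkR ih =>
    obtain ⟨F, hF1, hF2, hFm⟩ := ih
    obtain ⟨l, hl, hlm⟩ := exists_linear_replacement (fun i => if i ∈ R then N else a i)
      (fun i => by
        by_cases hi : i ∈ R
        · simp only [hi, if_true]; exact hN
        · simp only [hi, if_false]; exact hpos i) F (fun i => by
        by_cases hi : i ∈ R
        · simp only [hi, if_true]
          obtain ⟨l, hl, hl2⟩ := hF2 i hi
          rw [hl2]
          have := hl.pow N
          rwa [one_mul] at this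
        · simp only [hi, if_false]; rw [hF1 i hi]; exact hf i) hFm k
    have hlm' := isMPrimary_update_pow _ k N hlm
    rw [Function.update_self, Function.update_idem] at hlm'
    refine ⟨Function.update F k (l ^ N), ?_, ?_, hlm'⟩
    · intro i hi
      rw [Finset.mem_insert, not_or] at hi
      rw [Function.update_of_ne hi.1]
      exact hF1 i hi.2
    · intro i hi
      by_cases hik : i = k
      · subst hik
        exact ⟨l, hl, Function.update_self _ _ _⟩
      · rw [Function.update_of_ne hik]
        exact hF2 i ((Finset.mem_insert.1 hi).resolve_left hik)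

/-- **One step reduction.**  Growth in degree `d` for the degrees `a` follows from growth in
degree `d` for all degrees `a'` which arise from `a` by replacing some entries `d + 1` by `d`
and all the other entries `≥ d + 1` by a large number `N`, with powers of linear forms there. -/
theorem growth_step [Infinite K] (a : Fin n → ℕ) (ha : Monotone a) (hpos : ∀ i, 1 ≤ a i)
    (f : Fin n → MvPolynomial (Fin n) K) (hf : ∀ i, (f i).IsHomogeneous (a i))
    (hm : IsMPrimary (Ideal.span (Set.range f))) (I : Ideal (MvPolynomial (Fin n) K))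
    (hfI : ∀ i, f i ∈ I) (d : ℕ) (hd : 1 ≤ d) (N : ℕ) (hN : d + 2 ≤ N)
    (H : ∀ a' : Fin n → ℕ, Monotone a' → (∀ i, a i ≤ d → a' i = a i) →
      (∀ i, d < a i → a' i = d ∨ a' i = N) → (∀ i, d + 1 < a i → a' i = N) →
      ∀ F : Fin n → MvPolynomial (Fin n) K, (∀ i, (F i).IsHomogeneous (a' i)) →
        IsMPrimary (Ideal.span (Set.range F)) → (∀ i, a' i = N → SplitsLinear (a' i) (F i)) →
        ∀ I' : Ideal (MvPolynomial (Fin n) K), HomIdeal I' → (∀ i, F i ∈ I') →
          up a' d ((boxD a' d).card - hilb I' d) + hilb I' (d + 1) ≤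
            (boxD a' (d + 1)).card) :
    up a d ((boxD a d).card - hilb I d) + hilb I (d + 1) ≤ (boxD a (d + 1)).card := by
  classical
  -- the ideal generated by the forms of degree at most `d`
  set I0 : Ideal (MvPolynomial (Fin n) K) :=
    Ideal.span {g | g ∈ I ∧ ∃ e, e ≤ d ∧ g.IsHomogeneous e} with hI0
  have hI0hom : HomIdeal I0 := by
    apply G.homIdeal_span
    rintro g ⟨-, e, -, hg⟩
    exact ⟨e, hg⟩
  have hI0le : I0 ≤ I := by
    rw [hI0, Ideal.span_le]
    rintro g ⟨hg, -⟩
    exact hg
  set W := piece I0 (d + 1) with hW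
  set V := piece I d with hV
  obtain ⟨σ, c0, hσ, hbig, hcard, hdep⟩ := exists_basis_perm a ha (d + 1) W f
  set f1 : Fin n → MvPolynomial (Fin n) K := fun i => f (σ i) with hf1
  have hf1hom : ∀ i, (f1 i).IsHomogeneous (a i) := by
    intro i
    rw [← hσ i]
    exact hf (σ i)
  have hf1I : ∀ i, f1 i ∈ I := fun i => hfI (σ i)
  have hf1m : IsMPrimary (Ideal.span (Set.range f1)) := by
    have : Set.range f1 = Set.range f := by
      rw [hf1]
      exact σ.surjective.range_comp f
    rw [this]
    exact hm
  set U := Submodule.span K (f1 '' {i : Fin n | a i = d + 1 ∧ ¬ i.1 < c0}) with hU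
  -- the replacement by elements of `V`
  obtain ⟨F1, hF1, hF1V, hF1m⟩ := exists_space_system a hpos f1 hf1hom hf1m
    (Finset.univ.filter fun i : Fin n => a i = d + 1 ∧ i.1 < c0) V hd
    (fun v hv => hv.2) (by
      intro k hk q hq h1 h2
      rw [Finset.mem_filter] at hk
      by_cases hX : ∀ i, (X i : MvPolynomial (Fin n) K) ∈ q
      · have h3 : irr K n ≤ q := by
          rw [irr, Ideal.span_le]
          rintro _ ⟨i, rfl⟩
          exact hX i
        exact h3 (mem_irr_of_isHomogeneous (hpos k) (hf1hom k))
      · push Not at hX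
        obtain ⟨j, hj⟩ := hX
        have h4 : I0 ≤ q := by
          rw [hI0, Ideal.span_le]
          rintro g ⟨hg, e, he, hge⟩
          have h5 : X j ^ (d - e) * g ∈ V := by
            refine ⟨I.mul_mem_left _ hg, ?_⟩
            have := (isHomogeneous_X_pow (R := K) j (d - e)).mul hge
            rwa [Nat.sub_add_cancel he] at this
          rcases hq.mem_or_mem (h2 _ h5) with h6 | h6
          · exact absurd (hq.mem_of_pow_mem _ h6) hj
          · exact h6
        have h5 : W ⊔ U ≤ q.restrictScalars K := by
          apply sup_le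
          · intro g hg
            exact h4 hg.1
          · rw [hU, Submodule.span_le]
            rintro _ ⟨i, ⟨hi1, hi2⟩, rfl⟩
            apply h1
            simp only [Finset.mem_filter, not_and]
            intro _ _
            exact hi2
        exact h5 (hdep k hk.2.1 hk.2.2))
  -- the degrees after this step
  have hdeg1 : ∀ i, (F1 i).IsHomogeneous (if a i = d + 1 ∧ i.1 < c0 then d else a i) := by
    intro i
    by_cases hi : a i = d + 1 ∧ i.1 < c0
    · rw [if_pos hi]
      exact (hF1V i (by simp [hi])).2
    · rw [if_neg hi, hF1 i (by simpa using hi)]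
      exact hf1hom i
  have hF1I : ∀ i, F1 i ∈ I := by
    intro i
    by_cases hi : a i = d + 1 ∧ i.1 < c0
    · exact (hF1V i (by simp [hi])).1
    · rw [hF1 i (by simpa using hi)]
      exact hf1I i
  obtain ⟨F, hF, hFl, hFm⟩ := exists_linear_system
    (fun i => if a i = d + 1 ∧ i.1 < c0 then d else a i) (fun i => by
      by_cases hi : a i = d + 1 ∧ i.1 < c0
      · simp only [if_pos hi]; exact hd
      · simp only [if_neg hi]; exact hpos i) F1 hdeg1 hF1m
    (Finset.univ.filter fun i : Fin n => d < a i ∧ ¬ i.1 < c0) N (by omega)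
  -- the new degrees
  set a' : Fin n → ℕ := fun i => if a i ≤ d then a i else if i.1 < c0 then d else N with ha'
  have c1 : ∀ i, a i ≤ d → a' i = a i := by
    intro i hi
    simp only [ha', if_pos hi]
  have c2 : ∀ i, d < a i → i.1 < c0 → a i = d + 1 ∧ a' i = d := by
    intro i hi hic
    refine ⟨?_, ?_⟩
    · by_contra hcon
      exact hbig i (by omega) hic
    · simp only [ha', if_neg (not_le.2 hi), if_pos hic]
  have c3 : ∀ i, d < a i → ¬ i.1 < c0 → a' i = N := by
    intro i hi hic
    simp only [ha', if_neg (not_le.2 hi), if_neg hic]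
  have hmono : Monotone a' := by
    intro i j hij
    have hij' : i.1 ≤ j.1 := hij
    rcases Nat.lt_or_ge d (a j) with hj | hj
    · by_cases hjc : j.1 < c0
      · rw [(c2 j hj hjc).2]
        rcases Nat.lt_or_ge d (a i) with hi | hi
        · rw [(c2 i hi (by omega)).2]
        · rw [c1 i hi]; exact hi
      · rw [c3 j hj hjc]
        rcases Nat.lt_or_ge d (a i) with hi | hi
        · by_cases hic : i.1 < c0
          · rw [(c2 i hi hic).2]; omega
          · rw [c3 i hi hic]
        · rw [c1 i hi]; omega
    · have hi : a i ≤ d := (ha hij).trans hj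
      rw [c1 i hi, c1 j hj]
      exact ha hij
  have hFhom : ∀ i, (F i).IsHomogeneous (a' i) := by
    intro i
    rcases Nat.lt_or_ge d (a i) with hi | hi
    · by_cases hic : i.1 < c0
      · rw [(c2 i hi hic).2, hF i (by simp [hic])]
        have := hdeg1 i
        rwa [if_pos ⟨(c2 i hi hic).1, hic⟩] at this
      · rw [c3 i hi hic]
        obtain ⟨l, hl, hl2⟩ := hFl i (by simpa [hi] using hic)
        rw [hl2]
        have := hl.pow N
        rwa [one_mul] at this
    · rw [c1 i hi, hF i (by simp [hi])]
      have := hdeg1 i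
      rwa [if_neg (by omega)] at this
  -- the new ideal
  set S : Set (MvPolynomial (Fin n) K) := F '' {i | d < a i ∧ ¬ i.1 < c0} with hS
  have hShom : ∀ g ∈ S, g.IsHomogeneous N := by
    rintro _ ⟨i, ⟨hi, hic⟩, rfl⟩
    rw [← c3 i hi hic]
    exact hFhom i
  set I' := I0 ⊔ Ideal.span S with hI'
  have hI'hom : HomIdeal I' := G.homIdeal_sup hI0hom (G.homIdeal_span fun g hg => ⟨N, hShom g hg⟩)
  have hFI' : ∀ i, F i ∈ I' := by
    intro i
    by_cases hi : d < a i ∧ ¬ i.1 < c0
    · exact Ideal.mem_sup_right (Ideal.subset_span ⟨i, hi, rfl⟩)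
    · rw [hF i (by simpa using hi)]
      refine Ideal.mem_sup_left (Ideal.subset_span ⟨hF1I i, ?_⟩)
      refine ⟨_, ?_, hdeg1 i⟩
      split_ifs with h
      · exact le_rfl
      · by_contra hcon
        have h1 : d < a i := by omega
        have h2 : i.1 < c0 := by
          by_contra h3
          exact hi ⟨h1, h3⟩
        exact h ⟨(c2 i h1 h2).1, h2⟩
  have e1 : hilb I' d = hilb I d := by
    rw [hI', hilb_sup_span_high hI0hom S hShom (by omega)]
    exact hilb_congr fun g hg => ⟨fun h => hI0le h, fun h => Ideal.subset_span ⟨h, d, le_rfl, hg⟩⟩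
  have e2 : hilb I' (d + 1) = hilb I0 (d + 1) := by
    rw [hI', hilb_sup_span_high hI0hom S hShom (by omega)]
  have e3 : hilb I (d + 1) + (Finset.univ.filter fun i : Fin n => a i = d + 1 ∧ ¬ i.1 < c0).card ≤
      hilb I0 (d + 1) := by
    have h1 : W ⊔ U ≤ piece I (d + 1) := by
      apply sup_le (piece_mono hI0le _)
      rw [hU, Submodule.span_le]
      rintro _ ⟨i, ⟨hi, -⟩, rfl⟩
      refine ⟨hf1I i, ?_⟩
      have := hf1hom i
      rwa [hi] at this
    have h2 := Submodule.finrank_mono h1
    have h3 := finrank_piece_add_hilb I (d + 1)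
    have h4 := finrank_piece_add_hilb I0 (d + 1)
    have h5 : Module.finrank K W = Module.finrank K (piece I0 (d + 1)) := rfl
    omega
  have key := H a' hmono c1 (fun i hi => by
    by_cases hic : i.1 < c0
    · exact Or.inl (c2 i hi hic).2
    · exact Or.inr (c3 i hi hic)) (fun i hi => c3 i (by omega) (hbig i hi)) F hFhom hFm
    (fun i hi => by
      have h1 : d < a i := by
        by_contra hcon
        have := c1 i (by omega)
        omega
      have h2 : ¬ i.1 < c0 := by
        intro hcon
        have := (c2 i h1 hcon).2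
        omega
      obtain ⟨l, hl, hl2⟩ := hFl i (by simpa [h1] using h2)
      rw [hl2, hi]
      exact splitsLinear_pow_fin hl N) I' hI'hom hFI'
  rw [e1] at key
  refine growth_compare a a' ha d N hN c0 c1 c2 c3 (hilb I d) (hilb I (d + 1))
    (hilb I' (d + 1)) ?_ key
  rw [e2]
  exact e3

end Vale.Agent.P200.Q
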