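import Vale.Agent.P200.Q.Small1
import Vale.Agent.P200.Q.Induct

/-! The main induction, with the additional types `(2, 2, a, b)` and `(2, 2, 2, 2, a)`. -/

namespace Vale.Agent.P200.Q

open MvPolynomial Vale.Agent.P200.G

/-- `T` is an admissible set of nonsplit forms: from the fourth element on, either the degree is
larger than the sum of the earlier `a j - 1`, or the form and all earlier ones are quadrics, or
it is the fourth form and two of the first three are quadrics, or it is the fifth form and the
first four are quadrics. -/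
structure Adm {n : ℕ} (a : Fin n → ℕ) (T : Finset (Fin n)) : Prop where
  grow : ∀ i ∈ T, 3 ≤ (T.filter fun j => j < i).card →
    ∑ j ∈ T.filter (fun j => j < i), (a j - 1) < a i ∨
    (∀ j ∈ T, j ≤ i → a j = 2) ∨
    ((T.filter fun j => j < i).card = 3 ∧ 2 ≤ (T.filter fun j => j < i ∧ a j = 2).card) ∨
    ((T.filter fun j => j < i).card = 4 ∧ ∀ j ∈ T, j < i → a j = 2)

/-- Transport of admissibility along a strictly monotone map. -/
theorem Adm.pull {n N : ℕ} {a : Fin N → ℕ}
    {T : Finset (Fin N)} (h : Adm a T) (e : Fin n ↪ Fin N)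
    (T' : Finset (Fin n)) (hT' : ∀ i ∈ T', e i ∈ T)
    (hf : ∀ i ∈ T', (T'.filter fun j => j < i).map e = T.filter fun j => j < e i) :
    Adm (fun i => a (e i)) T' := by
  constructor
  intro i hi h3
  have h1 := h.grow (e i) (hT' i hi)
  have hlt : ∀ j ∈ T', j < i → e j < e i := by
    intro j hj hji
    have h4 : e j ∈ (T'.filter fun j => j < i).map e :=
      Finset.mem_map_of_mem e (Finset.mem_filter.2 ⟨hj, hji⟩)
    rw [hf i hi] at h4
    exact (Finset.mem_filter.1 h4).2
  have hf2 : (T'.filter fun j => j < i ∧ a (e j) = 2).map e =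
      T.filter fun j => j < e i ∧ a j = 2 := by
    rw [← Finset.filter_filter, ← Finset.filter_filter, ← hf i hi, Finset.filter_map]
    rfl
  rw [← hf2, Finset.card_map, ← hf i hi, Finset.card_map, Finset.sum_map] at h1
  rcases h1 h3 with h2 | h2 | h2 | h2
  · exact Or.inl h2
  · refine Or.inr (Or.inl fun j hj hji => h2 (e j) (hT' j hj) ?_)
    rcases hji.eq_or_lt with rfl | hlt'
    · exact le_rfl
    · exact (hlt j hj hlt').le
  · exact Or.inr (Or.inr (Or.inl h2))
  · exact Or.inr (Or.inr (Or.inr ⟨h2.1, fun j hj hji => h2.2 _ (hT' j hj) (hlt j hj hji)⟩))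

theorem adm_of_card_lt {n : ℕ} (a : Fin n → ℕ)
    (T : Finset (Fin n)) (h : T.card < 3) : Adm a T where
  grow i _ h3 := by
    have := Finset.card_le_card (Finset.filter_subset (fun j => j < i) T)
    omega

theorem Admissible.adm {n : ℕ} {a : Fin n → ℕ} {T : Finset (Fin n)} (h : Admissible a T) :
    Adm a T where
  grow i hi h3 := by
    rcases h.grow i hi h3 with h1 | h1
    · exact Or.inl h1
    · exact Or.inr (Or.inl h1)

/-- the additional types -/
def Extra {n : ℕ} (a : Fin (n + 1) → ℕ) : Prop :=
  (n = 3 ∧ ∀ i : Fin (n + 1), i.1 < 2 → a i = 2) ∨ (n = 4 ∧ ∀ i : Fin (n + 1), i.1 < 4 → a i = 2)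

theorem card_filter_lt {n : ℕ} (i : Fin n) :
    ((Finset.univ : Finset (Fin n)).filter fun j => j < i).card = i.1 := by
  have : (Finset.univ.filter fun j : Fin n => j < i) = Finset.Iio i := by
    ext j; simp
  rw [this, Fin.card_Iio]

theorem adm_of_extra {n : ℕ} {a : Fin (n + 1) → ℕ} (h : Extra a) (T : Finset (Fin (n + 1))) :
    Adm a T := by
  constructor
  intro i hi h3
  have h1 : (T.filter fun j => j < i).card ≤ i.1 := by
    rw [← card_filter_lt i]
    exact Finset.card_le_card (Finset.filter_subset_filter _ (Finset.subset_univ _))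
  have hsplit : (T.filter fun j => j < i ∧ a j = 2).card +
      (T.filter fun j => j < i ∧ ¬ a j = 2).card = (T.filter fun j => j < i).card := by
    rw [← Finset.filter_filter, ← Finset.filter_filter]
    exact Finset.card_filter_add_card_filter_not _
  have hi2 := i.2
  rcases h with ⟨rfl, h⟩ | ⟨rfl, h⟩
  · right; right; left
    refine ⟨by omega, ?_⟩
    have h4 : (T.filter fun j => j < i ∧ ¬ a j = 2).card ≤ 1 := by
      rw [Finset.card_le_one]
      intro x hx y hy
      rw [Finset.mem_filter] at hx hy
      have hx1 : ¬ x.1 < 2 := fun hlt => hx.2.2 (h x hlt)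
      have hy1 : ¬ y.1 < 2 := fun hlt => hy.2.2 (h y hlt)
      have hx2 : x.1 < i.1 := hx.2.1
      have hy2 : y.1 < i.1 := hy.2.1
      apply Fin.ext
      omega
    omega
  · by_cases hi4 : i.1 < 4
    · right; left
      intro j hj hji
      have : j.1 ≤ i.1 := hji
      exact h j (by omega)
    · have h5 : (T.filter fun j => j < i ∧ ¬ a j = 2).card = 0 := by
        rw [Finset.card_eq_zero, Finset.filter_eq_empty_iff]
        rintro j - ⟨h6, h7⟩
        have : j.1 < i.1 := h6
        exact h7 (h j (by omega))
      by_cases hc : (T.filter fun j => j < i).card = 3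
      · right; right; left
        exact ⟨hc, by omega⟩
      · right; right; right
        refine ⟨by omega, fun j _ hji => ?_⟩
        have : j.1 < i.1 := hji
        exact h j (by omega)

/-- The statement for `n` variables. -/
def MainS (K : Type*) [Field K] (n : ℕ) : Prop :=
  ∀ (a : Fin n → ℕ), Monotone a → (∀ i, 2 ≤ a i) →
    ∀ f : Fin n → MvPolynomial (Fin n) K, (∀ i, (f i).IsHomogeneous (a i)) →
      IsMPrimary (Ideal.span (Set.range f)) →
      ∀ T : Finset (Fin n), Adm a T → (∀ i, i ∉ T → SplitsLinear (a i) (f i)) →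
      ∀ I : Ideal (MvPolynomial (Fin n) K), HomIdeal I → (∀ i, f i ∈ I) → EGH a I

/-- The statement for `n` variables, with at least one split form. -/
def MainT (K : Type*) [Field K] (n : ℕ) : Prop :=
  ∀ (a : Fin n → ℕ), Monotone a → (∀ i, 2 ≤ a i) →
    ∀ f : Fin n → MvPolynomial (Fin n) K, (∀ i, (f i).IsHomogeneous (a i)) →
      IsMPrimary (Ideal.span (Set.range f)) →
      ∀ T : Finset (Fin n), T ≠ Finset.univ → Adm a T →
      (∀ i, i ∉ T → SplitsLinear (a i) (f i)) →
      ∀ I : Ideal (MvPolynomial (Fin n) K), HomIdeal I → (∀ i, f i ∈ I) → EGH a I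

/-- Case A: one of the forms splits. -/
private theorem caseA_small {K : Type*} [Field K] {n : ℕ} (ih : MainS K n)
    (a : Fin (n + 1) → ℕ) (ha : Monotone a) (h2 : ∀ i, 2 ≤ a i)
    (f : Fin (n + 1) → MvPolynomial (Fin (n + 1)) K) (hf : ∀ i, (f i).IsHomogeneous (a i))
    (hm : IsMPrimary (Ideal.span (Set.range f))) (k : Fin (n + 1))
    (hk : SplitsLinear (a k) (f k)) (T' : Finset (Fin n))
    (hT' : Adm (fun i => a (k.succAbove i)) T')
    (hs : ∀ i, i ∉ T' → SplitsLinear (a (k.succAbove i)) (f (k.succAbove i)))
    (I : Ideal (MvPolynomial (Fin (n + 1)) K)) (hI : HomIdeal I) (hfI : ∀ i, f i ∈ I) :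
    EGH a I := by
  have hpos : ∀ i, 1 ≤ a i := fun i => le_trans (by norm_num) (h2 i)
  refine egh_of_linear_factors a ha hpos k I hI (f k) hk
    (ne_zero_of_isMPrimary a hpos f hf hm k) (hfI k) ?_
  intro l hl hl0 hdvd J hJ hIJ hlJ
  obtain ⟨φ, hφ⟩ := exists_eliminates hl hl0
  have h1 := ih (fun i => a (k.succAbove i)) (fun i j hij => ha (by
      exact (Fin.strictMono_succAbove k).monotone hij)) (fun i => h2 _)
    (fun i => φ (f (k.succAbove i))) (fun i => hφ.homog _ _ (hf _))
    (hφ.isMPrimary k f hm hdvd) T' hT' (fun i hi => hφ.splitsLinear (hs i hi))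
    (J.map φ) (hφ.homIdeal_map hJ) (fun i => Ideal.mem_map_of_mem _ (hIJ (hfI _)))
  rw [egh_iff_num] at h1
  have h3 : hilb (J.map φ) = hilb J := funext fun d => hφ.hilb_map hlJ d
  rwa [h3] at h1

theorem mainT_of_mainS {K : Type*} [Field K] {n : ℕ} (ih : MainS K n) : MainT K (n + 1) := by
  classical
  intro a ha h2 f hf hm T hTu hT hs I hI hfI
  obtain ⟨k, hk⟩ : ∃ k, k ∉ T := by
    by_contra hcon
    push Not at hcon
    exact hTu (Finset.eq_univ_iff_forall.2 hcon)
  refine caseA_small ih a ha h2 f hf hm k (hs k hk)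
    (Finset.univ.filter fun i => k.succAbove i ∈ T) ?_
    (fun i hi => hs _ fun h => hi (Finset.mem_filter.2 ⟨Finset.mem_univ _, h⟩)) I hI hfI
  refine hT.pull k.succAboveEmb _
    (fun i hi => (Finset.mem_filter.1 hi).2) ?_
  intro i _
  ext j
  rw [Finset.mem_map, Finset.mem_filter]
  constructor
  · rintro ⟨l, hl, rfl⟩
    rw [Finset.mem_filter, Finset.mem_filter] at hl
    exact ⟨hl.1.2, Fin.strictMono_succAbove _ hl.2⟩
  · rintro ⟨hj, hji⟩
    have hjk : j ≠ k := by
      rintro rfl
      exact hk hj
    obtain ⟨l, rfl⟩ := Fin.exists_succAbove_eq hjk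
    exact ⟨l, Finset.mem_filter.2 ⟨Finset.mem_filter.2 ⟨Finset.mem_univ _, hj⟩,
      (Fin.strictMono_succAbove _).lt_iff_lt.1 hji⟩, rfl⟩

theorem boxD_eq_empty_small {n : ℕ} (a : Fin n → ℕ) (d : ℕ) (hd : ∑ i, (a i - 1) < d) :
    boxD a d = ∅ := by
  rw [Finset.eq_empty_iff_forall_notMem]
  intro m hm
  obtain ⟨h1, h2⟩ := mem_boxD.1 hm
  have h3 : ∑ i, m i ≤ ∑ i, (a i - 1) := Finset.sum_le_sum fun i _ => by
    have := h1 i
    omega
  omega

theorem egh_large_small {K : Type*} [Field K] [Infinite K] {n : ℕ} (a : Fin n → ℕ)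
    (hpos : ∀ i, 1 ≤ a i) (f : Fin n → MvPolynomial (Fin n) K)
    (hf : ∀ i, (f i).IsHomogeneous (a i)) (hm : IsMPrimary (Ideal.span (Set.range f)))
    (I : Ideal (MvPolynomial (Fin n) K)) (hfI : ∀ i, f i ∈ I) (d : ℕ)
    (hd : ∑ i, (a i - 1) < d + 1) :
    up a d ((boxD a d).card - hilb I d) + hilb I (d + 1) ≤ (boxD a (d + 1)).card := by
  have h1 : boxD a (d + 1) = ∅ := boxD_eq_empty_small a (d + 1) hd
  have h2 : hilb I (d + 1) ≤ hilb (Ideal.span (Set.range f)) (d + 1) := by
    apply hilb_antitone
    rw [Ideal.span_le]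
    rintro _ ⟨i, rfl⟩
    exact hfI i
  rw [hilb_span_eq_card_boxD a hpos f hf hm (d + 1), h1, Finset.card_empty] at h2
  have h3 := up_le_card a d ((boxD a d).card - hilb I d)
  rw [h1, Finset.card_empty] at h3 ⊢
  omega

/-- growth in the lower half of the degrees is enough -/
theorem egh_of_half {K : Type*} [Field K] [Infinite K] {n : ℕ} (a : Fin n → ℕ)
    (hpos : ∀ i, 1 ≤ a i) (f : Fin n → MvPolynomial (Fin n) K)
    (hf : ∀ i, (f i).IsHomogeneous (a i)) (hm : IsMPrimary (Ideal.span (Set.range f))) (B : ℕ)
    (hB : ∀ I : Ideal (MvPolynomial (Fin n) K), HomIdeal I → (∀ i, f i ∈ I) → ∀ d, d < B →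
      up a d ((boxD a d).card - hilb I d) + hilb I (d + 1) ≤ (boxD a (d + 1)).card)
    (hs : ∑ i, (a i - 1) ≤ 2 * B)
    (I : Ideal (MvPolynomial (Fin n) K)) (hI : HomIdeal I) (hfI : ∀ i, f i ∈ I) :
    EGH a I := by
  intro d
  rcases Nat.lt_or_ge d B with hd | hd
  · exact hB I hI hfI d hd
  rcases Nat.lt_or_ge (∑ i, (a i - 1)) (d + 1) with hd2 | hd2
  · exact egh_large_small a hpos f hf hm I hfI d hd2
  refine egh_dual a hpos f hf hm I hI hfI d hd2 ?_
  have h5 := hB (colonIdeal (Ideal.span (Set.range f)) I)
    (homIdeal_colonIdeal (G.homIdeal_span (by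
      rintro _ ⟨i, rfl⟩
      exact ⟨_, hf i⟩)) hI)
    (fun i h _ => Ideal.mul_mem_right _ _ (Ideal.subset_span ⟨i, rfl⟩))
    (∑ i, (a i - 1) - d - 1) (by omega)
  have h6 : ∑ i, (a i - 1) - d - 1 + 1 = ∑ i, (a i - 1) - d := by omega
  rwa [h6] at h5

/-- low degrees: the last form is not seen -/
theorem growth_low {K : Type*} [Field K] [Infinite K] {n : ℕ} (hT : MainT K (n + 1))
    (a : Fin (n + 1) → ℕ) (ha : Monotone a) (h2 : ∀ i, 2 ≤ a i)
    (f : Fin (n + 1) → MvPolynomial (Fin (n + 1)) K) (hf : ∀ i, (f i).IsHomogeneous (a i))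
    (hm : IsMPrimary (Ideal.span (Set.range f)))
    (hadm : Adm a (Finset.univ.erase (Fin.last n)))
    (I : Ideal (MvPolynomial (Fin (n + 1)) K)) (hI : HomIdeal I) (hfI : ∀ i, f i ∈ I)
    (d : ℕ) (hd : d + 1 < a (Fin.last n)) :
    up a d ((boxD a d).card - hilb I d) + hilb I (d + 1) ≤ (boxD a (d + 1)).card := by
  classical
  have hpos : ∀ i, 1 ≤ a i := fun i => le_trans (by norm_num) (h2 i)
  set A := a (Fin.last n) with hA
  obtain ⟨l, hl, hlm⟩ := exists_linear_replacement a hpos f hf hm (Fin.last n)
  have hm'' := isMPrimary_update_pow _ (Fin.last n) A hlm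
  rw [Function.update_idem, Function.update_self] at hm''
  have hlA : (l ^ A).IsHomogeneous A := by
    simpa using hl.pow A
  have h3 := hT a ha h2 (Function.update f (Fin.last n) (l ^ A)) (fun i => by
      rcases eq_or_ne i (Fin.last n) with rfl | hi
      · rw [Function.update_self]
        exact hlA
      · rw [Function.update_of_ne hi]
        exact hf i) hm'' (Finset.univ.erase (Fin.last n))
    (fun h => by
      have := Finset.mem_univ (Fin.last n)
      rw [← h] at this
      exact Finset.notMem_erase _ _ this) hadm (fun i hi => by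
      have hi' : i = Fin.last n := by
        by_contra hcon
        exact hi (Finset.mem_erase.2 ⟨hcon, Finset.mem_univ _⟩)
      subst hi'
      rw [Function.update_self]
      exact splitsLinear_pow_fin hl _)
    (I ⊔ Ideal.span {l ^ A})
    (G.homIdeal_sup hI (G.homIdeal_span (by
        rintro g hg
        rw [Set.mem_singleton_iff] at hg
        exact ⟨A, by rw [hg]; exact hlA⟩))) (fun i => by
        rcases eq_or_ne i (Fin.last n) with rfl | hi
        · rw [Function.update_self]
          exact Ideal.mem_sup_right (Ideal.mem_span_singleton_self _)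
        · rw [Function.update_of_ne hi]
          exact Ideal.mem_sup_left (hfI i)) d
  rwa [hilb_sup_span_of_lt hI hlA hd, hilb_sup_span_of_lt hI hlA (by omega : d < A)] at h3

/-- the additional types -/
theorem caseExtra {K : Type*} [Field K] [IsAlgClosed K] {n : ℕ} (hT : MainT K (n + 1)) (s : ℕ) :
    ∀ (a : Fin (n + 1) → ℕ) (_ : Monotone a) (_ : ∀ i, 2 ≤ a i) (_ : Extra a) (_ : ∑ i, a i ≤ s)
      (f : Fin (n + 1) → MvPolynomial (Fin (n + 1)) K) (_ : ∀ i, (f i).IsHomogeneous (a i))
      (_ : IsMPrimary (Ideal.span (Set.range f)))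
      (I : Ideal (MvPolynomial (Fin (n + 1)) K)) (_ : HomIdeal I) (_ : ∀ i, f i ∈ I),
      EGH a I := by
  classical
  have hinf : Infinite K := IsAlgClosed.instInfinite
  induction s with
  | zero =>
    intro a _ h2 _ hs
    have h1 := Finset.single_le_sum (f := a) (fun _ _ => Nat.zero_le _)
      (Finset.mem_univ (Fin.last n))
    have := h2 (Fin.last n)
    omega
  | succ s ih =>
    intro a ha h2 hX hsum f hf hm I hI hfI
    by_cases hall : ∀ i, a i = 2
    · obtain rfl : a = fun _ => 2 := funext hall
      exact base_quad f hf hm I hfI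
    have hpos : ∀ i, 1 ≤ a i := fun i => le_trans (by norm_num) (h2 i)
    set A := a (Fin.last n) with hA
    have hA3 : 3 ≤ A := by
      by_contra hcon
      apply hall
      intro i
      have h3 := ha (Fin.le_last i)
      have h4 := h2 i
      omega
    refine egh_of_half a hpos f hf hm A ?_ ?_ I hI hfI
    · intro I hI hfI d hd
      rcases Nat.lt_or_ge (d + 1) A with hd1 | hd1
      · exact growth_low hT a ha h2 f hf hm (adm_of_extra hX _) I hI hfI d hd1
      have hdA : d + 1 = A := by omega
      set N := d + 2 with hN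
      refine growth_step a ha hpos f hf hm I hfI d (by omega) N (by omega) ?_
      intro a' hmono c1 c2 _ F hF hFm hFs I' hI' hFI'
      have hX' : Extra a' := by
        rcases hX with ⟨h3, h4⟩ | ⟨h3, h4⟩
        · refine Or.inl ⟨h3, fun i hi => ?_⟩
          have h5 := h4 i hi
          rw [c1 i (by omega), h5]
        · refine Or.inr ⟨h3, fun i hi => ?_⟩
          have h5 := h4 i hi
          rw [c1 i (by omega), h5]
      have h2' : ∀ i, 2 ≤ a' i := by
        intro i
        rcases Nat.lt_or_ge d (a i) with h | h
        · rcases c2 i h with h | h <;> omega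
        · rw [c1 i h]; exact h2 i
      by_cases hu : ∀ i, a' i ≠ N
      · -- no power of a linear form
        have hle : ∀ i, a' i ≤ a i := by
          intro i
          rcases Nat.lt_or_ge d (a i) with h | h
          · rcases c2 i h with h3 | h3
            · omega
            · exact absurd h3 (hu i)
          · exact (c1 i h).le
        have hlast : a' (Fin.last n) < a (Fin.last n) := by
          rcases c2 (Fin.last n) (by omega) with h3 | h3
          · omega
          · exact absurd h3 (hu _)
        have hlt := Finset.sum_lt_sum (s := Finset.univ) (fun i _ => hle i)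
          ⟨Fin.last n, Finset.mem_univ _, hlast⟩
        exact ih a' hmono h2' hX' (by omega) F hF hFm I' hI' hFI' d
      · push Not at hu
        obtain ⟨k, hk⟩ := hu
        refine hT a' hmono h2' F hF hFm (Finset.univ.filter fun i => a' i ≠ N) ?_
          (adm_of_extra hX' _) (fun i hi => hFs i (by simpa using hi)) I' hI' hFI' d
        intro h
        have := Finset.mem_univ k
        rw [← h, Finset.mem_filter] at this
        exact this.2 hk
    · have hle : ∀ i, a i ≤ A := fun i => ha (Fin.le_last i)
      rcases hX with ⟨h3, h4⟩ | ⟨h3, h4⟩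
      · subst h3
        rw [Fin.sum_univ_four]
        have e0 := h4 0 (by decide)
        have e1 := h4 1 (by decide)
        have e2 := hle 2
        have e3 : a 3 = A := rfl
        omega
      · subst h3
        rw [Fin.sum_univ_five]
        have e0 := h4 0 (by decide)
        have e1 := h4 1 (by decide)
        have e2 := h4 2 (by decide)
        have e3 := h4 3 (by decide)
        have e4 : a 4 = A := rfl
        omega

/-- **Main induction.** -/
theorem egh_main_small {K : Type*} [Field K] [IsAlgClosed K] (hbase : Base3 K) :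
    ∀ n : ℕ, MainS K n := by
  classical
  have hinf : Infinite K := IsAlgClosed.instInfinite
  intro n
  induction n with
  | zero =>
    intro a _ _ f hf hm T _ _ I _ hfI d
    exact egh_large_small a (fun i => i.elim0) f hf hm I hfI d (by simp)
  | succ n ih =>
    intro a ha h2 f hf hm T hT hs I hI hfI
    have hpos : ∀ i, 1 ≤ a i := fun i => le_trans (by norm_num) (h2 i)
    have hMT : MainT K (n + 1) := mainT_of_mainS ih
    rcases Nat.lt_or_ge n 2 with hn | hn
    · -- at most two variables
      have hsp : ∀ i, SplitsLinear (a i) (f i) := fun i =>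
        splitsLinear_of_le_two (by omega) (hpos i) (hf i)
      exact caseA_small ih a ha h2 f hf hm 0 (hsp 0) ∅
        (adm_of_card_lt _ _ (by simp)) (fun i _ => hsp _) I hI hfI
    by_cases hTu : T = Finset.univ
    · subst hTu
      rcases hn.eq_or_lt with hn2 | hn3
      · -- three variables
        subst hn2
        exact hbase a ha h2 f hf hm I hI hfI
      · -- at least four variables
        have h3 := hT.grow (Fin.last n) (Finset.mem_univ _)
        rw [card_filter_lt, Fin.val_last] at h3
        rcases h3 hn3 with h4 | h4 | h4 | h4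
        · -- large last degree
          have hadm' : Adm a (Finset.univ.erase (Fin.last n)) := by
            refine hT.pull (Function.Embedding.refl _) _ (fun i _ => Finset.mem_univ _) ?_
            intro i hi
            ext j
            rw [Finset.mem_map, Finset.mem_filter]
            constructor
            · rintro ⟨l, hl, rfl⟩
              exact ⟨Finset.mem_univ _, (Finset.mem_filter.1 hl).2⟩
            · rintro ⟨-, hj⟩
              have hjl : j ≠ Fin.last n := by
                rintro rfl
                exact absurd hj (not_lt.2 (Fin.le_last _))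
              exact ⟨j, Finset.mem_filter.2 ⟨Finset.mem_erase.2 ⟨hjl, Finset.mem_univ _⟩, hj⟩, rfl⟩
          refine egh_of_half a hpos f hf hm (a (Fin.last n) - 1) ?_ ?_ I hI hfI
          · intro I hI hfI d hd
            exact growth_low hMT a ha h2 f hf hm hadm' I hI hfI d (by omega)
          · have hfil : (Finset.univ : Finset (Fin (n + 1))).filter (fun j => j < Fin.last n) =
                (Finset.univ : Finset (Fin n)).map Fin.castSuccEmb := by
              ext j
              rw [Finset.mem_filter, Finset.mem_map]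
              constructor
              · rintro ⟨-, hj⟩
                exact ⟨j.castPred hj.ne, Finset.mem_univ _, Fin.castSucc_castPred _ _⟩
              · rintro ⟨i, -, rfl⟩
                exact ⟨Finset.mem_univ _, Fin.castSucc_lt_last i⟩
            rw [hfil, Finset.sum_map] at h4
            have h5 : ∑ i, (a i - 1) = ∑ j : Fin n, (a j.castSucc - 1) + (a (Fin.last n) - 1) :=
              Fin.sum_univ_castSucc _
            have h6 : ∑ x : Fin n, (a (Fin.castSuccEmb x) - 1) =
              ∑ j : Fin n, (a j.castSucc - 1) := rfl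
            omega
        · obtain rfl : a = fun _ => 2 :=
            funext fun i => h4 i (Finset.mem_univ _) (Fin.le_last i)
          exact base_quad f hf hm I hfI
        · -- the type `(2, 2, a, b)`
          have hX : Extra a := by
            refine Or.inl ⟨h4.1, fun i hi => ?_⟩
            by_contra hcon
            have h5 := h2 i
            have h6 : (Finset.univ.filter fun j : Fin (n + 1) => j < Fin.last n ∧ a j = 2) ⊆
                Finset.univ.filter fun j => j < i := by
              intro j hj
              rw [Finset.mem_filter] at hj ⊢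
              refine ⟨Finset.mem_univ _, ?_⟩
              by_contra hcon2
              have := ha (not_lt.1 hcon2)
              omega
            have h7 := Finset.card_le_card h6
            rw [card_filter_lt] at h7
            omega
          exact caseExtra hMT _ a ha h2 hX le_rfl f hf hm I hI hfI
        · have hX : Extra a := by
            refine Or.inr ⟨h4.1, fun i hi => h4.2 i (Finset.mem_univ _) ?_⟩
            rw [Fin.lt_def, Fin.val_last]
            omega
          exact caseExtra hMT _ a ha h2 hX le_rfl f hf hm I hI hfI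
    · exact hMT a ha h2 f hf hm T hTu hT hs I hI hfI

end Vale.Agent.P200.Q
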