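import Mathlib

/-! Tensor products of a division algebra with a commutative algebra. -/

namespace Vale.Agent.P200.Q

open TensorProduct Module

section

variable {K D A : Type*} [Field K] [DivisionRing D] [Algebra K D] [CommRing A] [Algebra K A]

/-- alternating against symmetric -/
theorem sum_alt {ι : Type*} [Fintype ι] (c : ι → ι → D) (x : ι → A)
    (h1 : ∀ k l, c k l + c l k = 0) (h0 : ∀ k, c k k = 0) :
    ∑ k, ∑ l, c k l ⊗ₜ[K] (x k * x l) = 0 := by
  classical
  rw [← Finset.sum_product']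
  refine Finset.sum_involution (fun p _ => (p.2, p.1)) ?_ ?_ ?_ ?_
  · rintro ⟨k, l⟩ -
    change c k l ⊗ₜ[K] (x k * x l) + c l k ⊗ₜ[K] (x l * x k) = 0
    rw [mul_comm (x l) (x k), ← TensorProduct.add_tmul, h1, TensorProduct.zero_tmul]
  · rintro ⟨k, l⟩ - h heq
    have h2 : l = k := congrArg Prod.fst heq
    subst h2
    apply h
    change c l l ⊗ₜ[K] (x l * x l) = 0
    rw [h0, TensorProduct.zero_tmul]
  · intro _ _
    exact Finset.mem_product.2 ⟨Finset.mem_univ _, Finset.mem_univ _⟩
  · rintro ⟨k, l⟩ _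
    rfl

/-- product of sums of pure tensors -/
theorem prod_sum_tmul {n : ℕ} (x : Fin n → A) : ∀ (m : ℕ) (e : Fin m → Fin n → D),
    (List.ofFn fun i : Fin m => ∑ k, e i k ⊗ₜ[K] x k).prod =
      ∑ κ : Fin m → Fin n, (List.ofFn fun i => e i (κ i)).prod ⊗ₜ[K] ∏ i, x (κ i) := by
  intro m
  induction m with
  | zero =>
    intro e
    rw [Fintype.sum_unique]
    simp [Algebra.TensorProduct.one_def]
  | succ m ih =>
    intro e
    rw [List.ofFn_succ, List.prod_cons, ih fun i => e i.succ, Finset.sum_mul_sum,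
      ← Finset.sum_product', ← (Fin.consEquiv (fun _ : Fin (m + 1) => Fin n)).sum_comp]
    refine Finset.sum_congr rfl ?_
    rintro ⟨k, κ⟩ _
    rw [Algebra.TensorProduct.tmul_mul_tmul, List.ofFn_succ, List.prod_cons, Fin.prod_univ_succ]
    simp only [Fin.consEquiv_apply, Fin.cons_zero, Fin.cons_succ]

theorem sum_tmul_ne_zero {ι : Type*} [Fintype ι] {p : ι → D} (hp : LinearIndependent K p)
    (a : ι → A) (i0 : ι) (hi0 : a i0 ≠ 0) : ∑ i, p i ⊗ₜ[K] a i ≠ 0 := by
  intro h
  apply hi0
  rw [← Module.forall_dual_apply_eq_zero_iff K]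
  intro φ
  have h1 : (TensorProduct.rid K D) ((LinearMap.lTensor D φ) (∑ i, p i ⊗ₜ[K] a i)) = 0 := by
    rw [h, map_zero, map_zero]
  rw [map_sum, map_sum] at h1
  have h2 : ∑ i, φ (a i) • p i = 0 := by
    rw [← h1]
    refine Finset.sum_congr rfl fun i _ => ?_
    rw [LinearMap.lTensor_tmul, TensorProduct.rid_tmul]
  exact (Fintype.linearIndependent_iff.1 hp) _ h2 i0

theorem finrank_baseChange_submodule (W : Submodule K A) :
    finrank D (W.baseChange D) = finrank K W := by
  have hinj : Function.Injective (W.toBaseChange D) := by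
    have h1 : Function.Injective (LinearMap.lTensor D W.subtype) :=
      Module.Flat.lTensor_preserves_injective_linearMap _ W.injective_subtype
    have h2 : ∀ z, ((W.toBaseChange D z : W.baseChange D) : D ⊗[K] A) =
        LinearMap.lTensor D W.subtype z := by
      intro z
      induction z with
      | zero => simp
      | add x y hx hy => rw [map_add, map_add, Submodule.coe_add, hx, hy]
      | tmul x y => rw [Submodule.coe_toBaseChange_tmul, LinearMap.lTensor_tmul,
          Submodule.subtype_apply]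
    intro z z' hz
    apply h1
    rw [← h2, ← h2, hz]
  rw [← Module.finrank_baseChange (R := D) (S := K) (M' := W)]
  exact (LinearEquiv.finrank_eq (LinearEquiv.ofBijective (W.toBaseChange D)
    ⟨hinj, Submodule.toBaseChange_surjective D W⟩)).symm

theorem baseChange_induction {W : Submodule K A} {V : Submodule D (D ⊗[K] A)}
    {g : (D ⊗[K] A) →ₗ[D] (D ⊗[K] A)}
    (h : ∀ w ∈ W, g (1 ⊗ₜ w) ∈ V) {u : D ⊗[K] A} (hu : u ∈ W.baseChange D) : g u ∈ V := by
  rw [Submodule.baseChange_eq_span] at hu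
  have h1 : Submodule.span D ((Submodule.map ((TensorProduct.mk K D A) 1) W : Set (D ⊗[K] A))) ≤
      V.comap g := by
    rw [Submodule.span_le]
    rintro _ ⟨w, hw, rfl⟩
    exact h w hw
  exact h1 hu

theorem mul_mem_baseChange {n : ℕ} {W W' : Submodule K A} {x : Fin n → A} (e : Fin n → D)
    (h : ∀ w ∈ W, ∀ k, w * x k ∈ W') {u : D ⊗[K] A} (hu : u ∈ W.baseChange D) :
    u * ∑ k, e k ⊗ₜ[K] x k ∈ W'.baseChange D := by
  have h1 := baseChange_induction (W := W) (V := W'.baseChange D)
    (g := { toFun := fun u => u * ∑ k, e k ⊗ₜ[K] x k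
            map_add' := fun a b => add_mul _ _ _
            map_smul' := fun c a => smul_mul_assoc _ _ _ }) ?_ hu
  · exact h1
  · intro w hw
    change (1 ⊗ₜ[K] w) * ∑ k, e k ⊗ₜ[K] x k ∈ W'.baseChange D
    rw [Finset.mul_sum]
    refine Submodule.sum_mem _ fun k _ => ?_
    rw [Algebra.TensorProduct.tmul_mul_tmul]
    exact Submodule.tmul_mem_baseChange_of_mem _ (h w hw k)

/-- left multiplication by a pure tensor -/
theorem tmul_mul_mem_baseChange {W W' : Submodule K A} {y : A}
    (h : ∀ w ∈ W, y * w ∈ W') (d : D) {u : D ⊗[K] A} (hu : u ∈ W.baseChange D) :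
    (d ⊗ₜ[K] y) * u ∈ W'.baseChange D := by
  rw [Submodule.baseChange_eq_span] at hu
  induction hu using Submodule.span_induction generalizing d with
  | mem u hu =>
    obtain ⟨w, hw, rfl⟩ := hu
    change (d ⊗ₜ[K] y) * (1 ⊗ₜ[K] w) ∈ _
    rw [Algebra.TensorProduct.tmul_mul_tmul]
    exact Submodule.tmul_mem_baseChange_of_mem _ (h w hw)
  | zero => rw [mul_zero]; exact Submodule.zero_mem _
  | add a b _ _ ha hb => rw [mul_add]; exact Submodule.add_mem _ (ha d) (hb d)
  | smul c a _ ha =>
    have h1 : (d ⊗ₜ[K] y) * (c • a) = ((d * c) ⊗ₜ[K] y) * a := by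
      have h2 : c • a = (c ⊗ₜ[K] (1 : A)) * a := by
        have h3 : (c ⊗ₜ[K] (1 : A)) = c • (1 : D ⊗[K] A) := by
          rw [Algebra.TensorProduct.one_def, TensorProduct.smul_tmul', smul_eq_mul, mul_one]
        rw [h3, smul_mul_assoc, one_mul]
      rw [h2, ← mul_assoc, Algebra.TensorProduct.tmul_mul_tmul, mul_one]
    rw [h1]
    exact ha _

end

end Vale.Agent.P200.Q
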